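import Mathlib

/-!
R155, Part R, task Asymp: the numerical limits. `n = 8 * 2^e = 2^(e+3)`, `r = 2^e`.
-/

set_option autoImplicit false

namespace Crest.Agent.R155

open Filter

/-- `⌊√(n/2)⌋` -/
def K0 (e : ℕ) : ℕ := Nat.sqrt (4 * 2 ^ e)

/-- number of random sets used for level `k` -/
def Nk (e k : ℕ) : ℕ := 6 * (k + 5 + 2 * k * (e + 3))

/-- number of random sets used for the high-dimensional part -/
def NN (e : ℕ) : ℕ := 6 * (8 * 2 ^ e * (e + 3) + 5)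

/-- term of level `k` -/
noncomputable def S1 (e : ℕ) : ℝ :=
  ∑ k ∈ Finset.Icc 1 (K0 e),
    ((2 * (Nk e k : ℝ)) ^ 2 *
      (2 * (((2 ^ e).choose (k / 8) : ℝ) ^ 2 * ((k / 8).factorial : ℝ)) /
        ((((8 * 2 ^ e - k) / k : ℕ) : ℝ) ^ k))) ^ 6 *
      (((8 * 2 ^ e).choose k : ℝ) ^ 2 * (k.factorial : ℝ))

noncomputable def S3 (e : ℕ) : ℝ :=
  (Fintype.card (Nat.Partition (8 * 2 ^ e)) : ℝ) *
    (65536 * (32 * (NN e : ℝ) ^ 2 * (Fintype.card (Nat.Partition (2 ^ e)) : ℝ)) ^ 6 /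
      (((4 * 2 ^ e).choose (K0 e / 2) : ℝ)) ^ 2)

end Crest.Agent.R155
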