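import Crest.Agent.R155.Asymp

/-!
R155, Part R, task AsympS1.
-/

set_option autoImplicit false

namespace Crest.Agent.R155

open Filter

namespace AsympS1

theorem fact_ge (k : ℕ) : (k : ℝ) ^ k ≤ 3 ^ k * (k.factorial : ℝ) := by
  have h1 := Real.pow_div_factorial_le_exp (k : ℝ) (Nat.cast_nonneg k) k
  have h2 : (0 : ℝ) < (k.factorial : ℝ) := by exact_mod_cast Nat.factorial_pos k
  rw [div_le_iff₀ h2] at h1
  refine le_trans h1 ?_
  refine mul_le_mul_of_nonneg_right ?_ h2.le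
  have h3 : Real.exp (k : ℝ) = Real.exp 1 ^ k := by
    rw [← Real.exp_nat_mul, mul_one]
  rw [h3]
  exact pow_le_pow_left₀ (Real.exp_pos 1).le (by linarith [Real.exp_one_lt_d9]) k

/-- the `k`-th term -/
noncomputable def term (e k : ℕ) : ℝ :=
  ((2 * (Nk e k : ℝ)) ^ 2 *
      (2 * (((2 ^ e).choose (k / 8) : ℝ) ^ 2 * ((k / 8).factorial : ℝ)) /
        ((((8 * 2 ^ e - k) / k : ℕ) : ℝ) ^ k))) ^ 6 *
      (((8 * 2 ^ e).choose k : ℝ) ^ 2 * (k.factorial : ℝ))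

theorem choose_sq_fact (n j : ℕ) :
    ((n.choose j : ℝ)) ^ 2 * (j.factorial : ℝ) ≤ ((n : ℝ) ^ j) ^ 2 / (j.factorial : ℝ) := by
  have h1 : (n.choose j : ℝ) ≤ (n : ℝ) ^ j / (j.factorial : ℝ) := Nat.choose_le_pow_div j n
  have h2 : (0 : ℝ) < (j.factorial : ℝ) := by exact_mod_cast Nat.factorial_pos j
  calc ((n.choose j : ℝ)) ^ 2 * (j.factorial : ℝ)
      ≤ ((n : ℝ) ^ j / (j.factorial : ℝ)) ^ 2 * (j.factorial : ℝ) := by
        refine mul_le_mul_of_nonneg_right ?_ h2.le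
        exact pow_le_pow_left₀ (Nat.cast_nonneg _) h1 2
    _ = ((n : ℝ) ^ j) ^ 2 / (j.factorial : ℝ) := by
        field_simp

theorem term_le (e k : ℕ) (he : 5 ≤ e) (hk1 : 1 ≤ k) (hk2 : k ≤ K0 e) :
    term e k ≤ (64 * 24 ^ 12 * 20) * (((e : ℝ) + 6) ^ 12 * (1 / 4) ^ e) *
      ((k : ℝ) ^ 17 * (1 / 20) ^ k) := by
  set ρ : ℝ := Real.sqrt ((2 : ℝ) ^ e) with hρ
  have hρ2 : ρ ^ 2 = 2 ^ e := Real.sq_sqrt (by positivity)
  have hρ5 : 5 ≤ ρ := by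
    apply Real.le_sqrt_of_sq_le
    have : (2 : ℝ) ^ 5 ≤ 2 ^ e := pow_le_pow_right₀ (by norm_num) he
    linarith
  have hρ0 : 0 < ρ := by linarith
  have hk0 : (0 : ℝ) < k := by exact_mod_cast hk1
  have hk1' : (1 : ℝ) ≤ k := by exact_mod_cast hk1
  have hksq : k * k ≤ 4 * 2 ^ e := by
    have := Nat.sqrt_le (4 * 2 ^ e)
    unfold K0 at hk2
    exact le_trans (Nat.mul_le_mul hk2 hk2) this
  have hk2ρ : (k : ℝ) ≤ 2 * ρ := by
    have h1 : (k : ℝ) * k ≤ 4 * 2 ^ e := by exact_mod_cast hksq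
    have h2 : (k : ℝ) ^ 2 ≤ (2 * ρ) ^ 2 := by
      rw [mul_pow, hρ2]; nlinarith
    exact abs_le_of_sq_le_sq' h2 (by positivity) |>.2
  -- the floor
  set m : ℕ := (8 * 2 ^ e - k) / k with hm
  have hm1 : 8 * ρ ^ 2 - 2 * k ≤ (m : ℝ) * k := by
    have h1 : 8 * 2 ^ e - k < k * (m + 1) := by
      rw [hm]
      exact Nat.lt_mul_div_succ _ hk1
    have h2 : 8 * 2 ^ e ≤ m * k + 2 * k := by
      have : k * (m + 1) = m * k + k := by ring
      omega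
    have h3 : (8 : ℝ) * 2 ^ e ≤ m * k + 2 * k := by exact_mod_cast h2
    rw [hρ2]; linarith
  have hm2 : 72 / 10 * ρ ^ 2 ≤ (m : ℝ) * k := by nlinarith
  have hm3 : (72 / 10 * ρ ^ 2 / k : ℝ) ≤ (m : ℝ) := by
    rw [div_le_iff₀ hk0]; exact hm2
  have hmpos : (0 : ℝ) < (m : ℝ) := lt_of_lt_of_le (by positivity) hm3
  -- the three factors
  set j : ℕ := k / 8 with hj
  set b : ℝ := ((2 ^ e).choose j : ℝ) ^ 2 * (j.factorial : ℝ) with hb
  set c : ℝ := ((8 * 2 ^ e).choose k : ℝ) ^ 2 * (k.factorial : ℝ) with hc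
  have hb0 : 0 ≤ b := by positivity
  have hc0 : 0 ≤ c := by positivity
  have hb1 : b ^ 6 ≤ ρ ^ (3 * k) := by
    have h1 : b ≤ (((2 ^ e : ℕ) : ℝ) ^ j) ^ 2 / (j.factorial : ℝ) := choose_sq_fact (2 ^ e) j
    have h2 : (1 : ℝ) ≤ (j.factorial : ℝ) := by exact_mod_cast Nat.factorial_pos j
    have h3 : b ≤ ρ ^ (4 * j) := by
      refine le_trans h1 ?_
      have h4 : (((2 ^ e : ℕ) : ℝ) ^ j) ^ 2 = ρ ^ (4 * j) := by
        push_cast
        rw [← hρ2, ← pow_mul, ← pow_mul]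
        congr 1; ring
      rw [h4]
      exact div_le_self (by positivity) h2
    calc b ^ 6 ≤ (ρ ^ (4 * j)) ^ 6 := pow_le_pow_left₀ hb0 h3 6
      _ = ρ ^ (4 * j * 6) := by rw [← pow_mul]
      _ ≤ ρ ^ (3 * k) := pow_le_pow_right₀ (by linarith) (by omega)
  have hc1 : c ≤ ((64 * ρ ^ 4) ^ k) / (k.factorial : ℝ) := by
    have h1 : c ≤ (((8 * 2 ^ e : ℕ) : ℝ) ^ k) ^ 2 / (k.factorial : ℝ) :=
      choose_sq_fact (8 * 2 ^ e) k
    refine le_trans h1 (le_of_eq ?_)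
    congr 1
    push_cast
    rw [← hρ2, ← pow_mul, mul_comm k 2, pow_mul]
    congr 1; ring
  have hM : (72 / 10 * ρ ^ 2 / k : ℝ) ^ (6 * k) ≤ ((m : ℝ) ^ k) ^ 6 := by
    rw [← pow_mul, mul_comm k 6]
    exact pow_le_pow_left₀ (by positivity) hm3 _
  have hMpos : (0 : ℝ) < (72 / 10 * ρ ^ 2 / k : ℝ) ^ (6 * k) := by positivity
  have hfac : (0 : ℝ) < (k.factorial : ℝ) := by exact_mod_cast Nat.factorial_pos k
  set y : ℝ := 192 / (72 / 10) ^ 6 * ((k : ℝ) / ρ) ^ 5 with hy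
  have hkρ : (k : ℝ) / ρ ≤ 2 := by rw [div_le_iff₀ hρ0]; linarith
  have hkρ0 : 0 ≤ (k : ℝ) / ρ := by positivity
  have hy0 : 0 ≤ y := by positivity
  have hy1 : y ≤ 1 / 20 := by
    have h1 : ((k : ℝ) / ρ) ^ 5 ≤ 2 ^ 5 := pow_le_pow_left₀ hkρ0 hkρ 5
    rw [hy]
    calc 192 / (72 / 10 : ℝ) ^ 6 * ((k : ℝ) / ρ) ^ 5 ≤ 192 / (72 / 10 : ℝ) ^ 6 * 2 ^ 5 := by
          exact mul_le_mul_of_nonneg_left h1 (by norm_num)
      _ ≤ 1 / 20 := by norm_num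
  have hy2 : y ≤ (k : ℝ) ^ 5 * (1 / 4) ^ e := by
    have h1 : ((k : ℝ) / ρ) ^ 5 ≤ (k : ℝ) ^ 5 * (1 / 4) ^ e := by
      rw [div_pow]
      have h2 : (4 : ℝ) ^ e ≤ ρ ^ 5 := by
        have h3 : (4 : ℝ) ^ e = ρ ^ 4 := by
          have : ρ ^ 4 = (ρ ^ 2) ^ 2 := by ring
          rw [this, hρ2, ← pow_mul, mul_comm e 2, pow_mul]
          norm_num
        rw [h3]
        exact pow_le_pow_right₀ (by linarith) (by norm_num)
      rw [one_div, inv_pow, ← div_eq_mul_inv]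
      exact div_le_div_of_nonneg_left (by positivity) (by positivity) h2
    have h4 : y ≤ 1 * ((k : ℝ) / ρ) ^ 5 := by
      rw [hy]
      exact mul_le_mul_of_nonneg_right (by norm_num) (by positivity)
    linarith
  have hyk : y ^ k ≤ (k : ℝ) ^ 5 * (1 / 4) ^ e * (20 * (1 / 20) ^ k) := by
    obtain ⟨k', rfl⟩ : ∃ k', k = k' + 1 := ⟨k - 1, by omega⟩
    have h1 : y ^ (k' + 1) ≤ (1 / 20) ^ k' * y := by
      rw [pow_succ]
      exact mul_le_mul_of_nonneg_right (pow_le_pow_left₀ hy0 hy1 k') hy0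
    refine le_trans h1 ?_
    have h2 : (20 * (1 / 20 : ℝ) ^ (k' + 1)) = (1 / 20) ^ k' := by
      rw [pow_succ]; ring
    rw [h2, mul_comm]
    exact mul_le_mul_of_nonneg_right hy2 (by positivity)
  -- main quotient
  have hquot : b ^ 6 / ((m : ℝ) ^ k) ^ 6 * c ≤ y ^ k := by
    have h1 : b ^ 6 / ((m : ℝ) ^ k) ^ 6 ≤ ρ ^ (3 * k) / (72 / 10 * ρ ^ 2 / k : ℝ) ^ (6 * k) :=
      div_le_div₀ (by positivity) hb1 hMpos hM
    have h2 : b ^ 6 / ((m : ℝ) ^ k) ^ 6 * c ≤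
        ρ ^ (3 * k) / (72 / 10 * ρ ^ 2 / k : ℝ) ^ (6 * k) *
          (((64 * ρ ^ 4) ^ k) / (k.factorial : ℝ)) :=
      mul_le_mul h1 hc1 hc0 (by positivity)
    refine le_trans h2 ?_
    have h3 : ρ ^ (3 * k) / (72 / 10 * ρ ^ 2 / k : ℝ) ^ (6 * k) *
          (((64 * ρ ^ 4) ^ k) / (k.factorial : ℝ)) =
        (64 / (72 / 10) ^ 6 * ((k : ℝ) / ρ) ^ 5) ^ k * ((k : ℝ) ^ k / (k.factorial : ℝ)) := by
      have h4 : ρ ^ (3 * k) / (72 / 10 * ρ ^ 2 / k : ℝ) ^ (6 * k) * (64 * ρ ^ 4) ^ k =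
          (64 / (72 / 10) ^ 6 * ((k : ℝ) / ρ) ^ 5) ^ k * (k : ℝ) ^ k := by
        rw [pow_mul, pow_mul, ← div_pow, ← mul_pow, ← mul_pow]
        congr 1
        field_simp
      rw [← mul_div_assoc, h4, mul_div_assoc]
    rw [h3]
    have h5 : (k : ℝ) ^ k / (k.factorial : ℝ) ≤ 3 ^ k := by
      rw [div_le_iff₀ hfac]; exact fact_ge k
    calc (64 / (72 / 10) ^ 6 * ((k : ℝ) / ρ) ^ 5) ^ k * ((k : ℝ) ^ k / (k.factorial : ℝ))
        ≤ (64 / (72 / 10) ^ 6 * ((k : ℝ) / ρ) ^ 5) ^ k * 3 ^ k :=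
          mul_le_mul_of_nonneg_left h5 (by positivity)
      _ = y ^ k := by
          rw [← mul_pow, hy]
          congr 1
          ring
  have hN : 2 * (Nk e k : ℝ) ≤ 24 * k * ((e : ℝ) + 6) := by
    unfold Nk
    push_cast
    have he0 : (0 : ℝ) ≤ e := Nat.cast_nonneg e
    nlinarith
  have hN12 : (2 * (Nk e k : ℝ)) ^ 12 ≤ (24 * k * ((e : ℝ) + 6)) ^ 12 :=
    pow_le_pow_left₀ (by positivity) hN 12
  have hterm : term e k = (2 * (Nk e k : ℝ)) ^ 12 * 64 * (b ^ 6 / ((m : ℝ) ^ k) ^ 6 * c) := by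
    unfold term
    rw [← hb, ← hc, ← hm]
    generalize (m : ℝ) ^ k = M
    ring
  rw [hterm]
  calc (2 * (Nk e k : ℝ)) ^ 12 * 64 * (b ^ 6 / ((m : ℝ) ^ k) ^ 6 * c)
      ≤ (24 * k * ((e : ℝ) + 6)) ^ 12 * 64 * y ^ k := by
        refine mul_le_mul ?_ hquot (by positivity) (by positivity)
        exact mul_le_mul_of_nonneg_right hN12 (by norm_num)
    _ ≤ (24 * k * ((e : ℝ) + 6)) ^ 12 * 64 *
          ((k : ℝ) ^ 5 * (1 / 4) ^ e * (20 * (1 / 20) ^ k)) :=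
        mul_le_mul_of_nonneg_left hyk (by positivity)
    _ = _ := by ring

end AsympS1

/-- Worst case `k ~ √n`. With `j = k/8`, `C(r,j)² j! ≤ (r^j)²/j! ≤ (n² e/(8k))^(k/8)`,
`((n-k)/k)^k ≥ e^(-2) (n/k)^k`, `C(n,k)² k! ≤ (n² e/k)^k`; so the `k`-th term is at most
`C (k D)^12 (c n^(-5/2) k^(17/4))^k ≤ C (k D)^12 (c' n^(-3/8))^k`, `D = e + 3`. -/
theorem S1_tendsto : Tendsto S1 atTop (nhds 0) := by
  have hsum : Summable (fun k : ℕ => (k : ℝ) ^ 17 * (1 / 20 : ℝ) ^ k) := by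
    apply summable_pow_mul_geometric_of_norm_lt_one
    rw [Real.norm_eq_abs, abs_of_pos] <;> norm_num
  set K : ℝ := ∑' k : ℕ, (k : ℝ) ^ 17 * (1 / 20 : ℝ) ^ k with hK
  have h1 : Tendsto (fun e : ℕ => ((e : ℝ) + 6) ^ 12 * (1 / 4 : ℝ) ^ e) atTop (nhds 0) := by
    have h2 : Tendsto (fun n : ℕ => (n : ℝ) ^ 12 * (1 / 4 : ℝ) ^ n) atTop (nhds 0) :=
      tendsto_pow_const_mul_const_pow_of_abs_lt_one 12 (by
        rw [abs_of_pos] <;> norm_num)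
    have h3 : Tendsto (fun e : ℕ => (((e + 6 : ℕ) : ℝ)) ^ 12 * (1 / 4 : ℝ) ^ (e + 6)) atTop
        (nhds 0) := h2.comp (tendsto_add_atTop_nat 6)
    have h4 := h3.mul_const ((4 : ℝ) ^ 6)
    rw [zero_mul] at h4
    refine h4.congr (fun e => ?_)
    rw [pow_add]
    push_cast
    ring
  have h5 := (h1.const_mul (64 * 24 ^ 12 * 20 : ℝ)).mul_const K
  rw [mul_zero, zero_mul] at h5
  refine tendsto_of_tendsto_of_tendsto_of_le_of_le' tendsto_const_nhds h5 ?_ ?_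
  · refine Eventually.of_forall (fun e => ?_)
    unfold S1
    refine Finset.sum_nonneg (fun k _ => ?_)
    positivity
  · filter_upwards [eventually_ge_atTop 5] with e he
    have h6 : S1 e = ∑ k ∈ Finset.Icc 1 (K0 e), AsympS1.term e k := rfl
    rw [h6]
    calc ∑ k ∈ Finset.Icc 1 (K0 e), AsympS1.term e k
        ≤ ∑ k ∈ Finset.Icc 1 (K0 e), (64 * 24 ^ 12 * 20) *
          (((e : ℝ) + 6) ^ 12 * (1 / 4) ^ e) * ((k : ℝ) ^ 17 * (1 / 20) ^ k) := by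
          refine Finset.sum_le_sum (fun k hk => ?_)
          rw [Finset.mem_Icc] at hk
          exact AsympS1.term_le e k he hk.1 hk.2
      _ = (64 * 24 ^ 12 * 20) * (((e : ℝ) + 6) ^ 12 * (1 / 4) ^ e) *
          ∑ k ∈ Finset.Icc 1 (K0 e), ((k : ℝ) ^ 17 * (1 / 20) ^ k) := by
          rw [Finset.mul_sum]
      _ ≤ _ := by
          refine mul_le_mul_of_nonneg_left ?_ (by positivity)
          exact hsum.sum_le_tsum _ (fun k _ => by positivity)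

end Crest.Agent.R155
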