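import Mathlib

/-!
R155, Part R, task PartBound: `p(n) ≤ exp (3 √n)`.

Proof. `q(n,k)` = number of partitions of `n` in parts `≤ k`: `q(n,k) ≤ q(n,k-1) + q(n-k,k)`. For
`0 < x < 1`, `q(n,k) x^n ≤ ∏_{i=1}^k (1 - x^i)⁻¹` by induction. Take `x = exp (-1/√n)`;
`-log (1 - x^i) = ∑_j x^(ij)/j` and `∑_i x^(ij) ≤ 1/(e^(j/√n) - 1) ≤ √n/j`, so
`log p(n) ≤ √n + √n ∑ 1/j² ≤ 3 √n`. (Mathlib may have the generating function of `Nat.Partition`.)
-/

set_option autoImplicit false

namespace Crest.Agent.R155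

open Finset

/-- multiplicity vector of a partition -/
def pbCount (n : ℕ) (P : Nat.Partition n) : Fin n → ℕ := fun i => P.parts.count (i.val + 1)

theorem pbCount_le (n : ℕ) (P : Nat.Partition n) (i : Fin n) : pbCount n P i ≤ n := by
  unfold pbCount
  have h1 : P.parts.count (i.val+1) ≤ P.parts.count (i.val+1) * (i.val+1) :=
    Nat.le_mul_of_pos_right _ (Nat.succ_pos _)
  refine h1.trans ?_
  have h2 := Finset.sum_multiset_count P.parts
  rw [P.parts_sum] at h2
  by_cases hm : (i.val+1) ∈ P.parts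
  · have h3 : P.parts.count (i.val+1) • (i.val+1) ≤ ∑ m ∈ P.parts.toFinset, P.parts.count m • m :=
      Finset.single_le_sum (f := fun m => P.parts.count m • m) (fun _ _ => Nat.zero_le _)
        (Multiset.mem_toFinset.mpr hm)
    rw [← h2] at h3
    simpa using h3
  · rw [Multiset.count_eq_zero.mpr hm]; simp

theorem pb_sum (n : ℕ) (P : Nat.Partition n) : ∑ i : Fin n, (i.val + 1) * pbCount n P i = n := by
  have h2 := Finset.sum_multiset_count P.parts
  rw [P.parts_sum] at h2
  have h3 : ∑ m ∈ P.parts.toFinset, P.parts.count m • m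
      = ∑ m ∈ Finset.Icc 1 n, P.parts.count m • m := by
    apply Finset.sum_subset
    · intro m hm
      rw [Multiset.mem_toFinset] at hm
      rw [Finset.mem_Icc]
      refine ⟨P.parts_pos hm, ?_⟩
      have := Multiset.single_le_sum (s := P.parts) (fun x _ => Nat.zero_le x) m hm
      rw [P.parts_sum] at this
      exact this
    · intro m _ hm
      rw [Multiset.mem_toFinset] at hm
      rw [Multiset.count_eq_zero.mpr hm]; simp
  rw [h3] at h2
  conv_rhs => rw [h2]
  change ∑ i : Fin n, (fun i : ℕ => (i + 1) * P.parts.count (i+1)) i.val = _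
  rw [← Finset.sum_range (f := fun i => (i + 1) * P.parts.count (i+1))]
  rw [Finset.range_eq_Ico]
  rw [Finset.sum_Ico_add' (fun i => i * P.parts.count i) 0 n 1]
  apply Finset.sum_congr
  · ext m; simp
  · intro m _; simp [mul_comm]

theorem pbCount_inj (n : ℕ) : Function.Injective (pbCount n) := by
  intro P Q h
  apply Nat.Partition.ext
  ext m
  by_cases hm : m ∈ Finset.Icc 1 n
  · rw [Finset.mem_Icc] at hm
    have := congrFun h ⟨m-1, by omega⟩
    simp only [pbCount] at this
    have e : m - 1 + 1 = m := by omega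
    rwa [e] at this
  · have key : ∀ R : Nat.Partition n, R.parts.count m = 0 := by
      intro R
      rw [Multiset.count_eq_zero]
      intro hmR
      apply hm
      rw [Finset.mem_Icc]
      refine ⟨R.parts_pos hmR, ?_⟩
      have := Multiset.single_le_sum (s := R.parts) (fun x _ => Nat.zero_le x) m hmR
      rw [R.parts_sum] at this
      exact this
    rw [key, key]

theorem pb_gen (n : ℕ) (x : ℝ) (hx0 : 0 < x) (hx1 : x < 1) :
    (Fintype.card (Nat.Partition n) : ℝ) * x ^ n ≤ ∏ i : Fin n, (1 - x ^ (i.val + 1))⁻¹ := by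
  have h1 : (Fintype.card (Nat.Partition n) : ℝ) * x ^ n
      = ∑ P : Nat.Partition n, ∏ i : Fin n, (x ^ (i.val+1)) ^ (pbCount n P i) := by
    have : ∀ P : Nat.Partition n, ∏ i : Fin n, (x ^ (i.val+1)) ^ (pbCount n P i) = x ^ n := by
      intro P
      simp_rw [← pow_mul]
      rw [Finset.prod_pow_eq_pow_sum, pb_sum]
    simp_rw [this]
    simp
  rw [h1]
  have h2 : ∑ P : Nat.Partition n, ∏ i : Fin n, (x ^ (i.val+1)) ^ (pbCount n P i)
      ≤ ∑ p ∈ Fintype.piFinset (fun _ : Fin n => Finset.range (n+1)),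
          ∏ i : Fin n, (x ^ (i.val+1)) ^ (p i) := by
    rw [← Finset.sum_image (s := (Finset.univ : Finset (Nat.Partition n))) (g := pbCount n)
      (f := fun p : Fin n → ℕ => ∏ i : Fin n, (x ^ (i.val+1)) ^ (p i))
      (fun P _ Q _ h => pbCount_inj n h)]
    apply Finset.sum_le_sum_of_subset_of_nonneg
    · intro p hp
      rw [Finset.mem_image] at hp
      obtain ⟨P, _, rfl⟩ := hp
      rw [Fintype.mem_piFinset]
      intro i
      rw [Finset.mem_range]
      exact Nat.lt_succ_of_le (pbCount_le n P i)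
    · intro p _ _
      exact Finset.prod_nonneg (fun i _ => by positivity)
  refine h2.trans ?_
  rw [← Finset.prod_univ_sum (fun _ : Fin n => Finset.range (n+1))
    (fun (i : Fin n) (j : ℕ) => (x ^ (i.val+1)) ^ j)]
  apply Finset.prod_le_prod
  · intro i _
    exact Finset.sum_nonneg (fun j _ => by positivity)
  · intro i _
    have hy0 : 0 ≤ x ^ (i.val+1) := by positivity
    have hy1 : x ^ (i.val+1) < 1 := pow_lt_one₀ hx0.le hx1 (Nat.succ_ne_zero _)
    have := (hasSum_geometric_of_lt_one hy0 hy1)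
    exact sum_le_hasSum _ (fun j _ => by positivity) this

theorem pb_log_sum (n : ℕ) (hn : 0 < n) (x : ℝ) (hx : x = Real.exp (-(1 / Real.sqrt n))) :
    ∑ i : Fin n, (-Real.log (1 - x ^ (i.val + 1))) ≤ 2 * Real.sqrt n := by
  have hs : 0 < Real.sqrt n := Real.sqrt_pos.mpr (by exact_mod_cast hn)
  have hx0 : 0 < x := by rw [hx]; exact Real.exp_pos _
  have hx1 : x < 1 := by
    have : 0 < 1 / Real.sqrt n := by positivity
    rw [hx, Real.exp_lt_one_iff]
    linarith
  have hS : ∀ i : Fin n, HasSum (fun j : ℕ => (x ^ (i.val+1)) ^ (j+1) / (j+1 : ℝ))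
      (-Real.log (1 - x ^ (i.val+1))) := by
    intro i
    apply Real.hasSum_pow_div_log_of_abs_lt_one
    rw [abs_of_pos (by positivity)]
    exact pow_lt_one₀ hx0.le hx1 (Nat.succ_ne_zero _)
  have hT := hasSum_sum (s := Finset.univ) (fun (i : Fin n) _ => hS i)
  have hz : HasSum (fun n : ℕ => 1 / (n : ℝ) ^ 2) (Real.pi ^ 2 / 6) := hasSum_zeta_two
  have hz1 : HasSum (fun j : ℕ => 1 / ((j+1 : ℕ) : ℝ) ^ 2) (Real.pi ^ 2 / 6) := by
    rw [hasSum_nat_add_iff (f := fun n : ℕ => 1 / (n : ℝ) ^ 2) 1]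
    simpa using hz
  have hz2 := hz1.mul_left (Real.sqrt n)
  have hle : ∑ i : Fin n, (-Real.log (1 - x ^ (i.val + 1))) ≤ Real.sqrt n * (Real.pi ^ 2 / 6) := by
    refine hasSum_le ?_ hT hz2
    intro j
    have hxj0 : 0 < x ^ (j+1) := by positivity
    have hxj1 : x ^ (j+1) < 1 := pow_lt_one₀ hx0.le hx1 (Nat.succ_ne_zero _)
    have e1 : ∑ i : Fin n, (x ^ (i.val+1)) ^ (j+1) / (j+1 : ℝ)
        = (∑ i ∈ Finset.range n, (x ^ (j+1)) ^ (i+1)) / (j+1 : ℝ) := by
      rw [← Finset.sum_div, Finset.sum_range]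
      congr 1
      apply Finset.sum_congr rfl
      intro i _
      rw [← pow_mul, ← pow_mul, mul_comm]
    rw [e1]
    have e2 : ∑ i ∈ Finset.range n, (x ^ (j+1)) ^ (i+1) ≤ x ^ (j+1) * (1 - x ^ (j+1))⁻¹ := by
      have := (hasSum_geometric_of_lt_one hxj0.le hxj1).mul_left (x ^ (j+1))
      have h3 : ∑ i ∈ Finset.range n, x ^ (j+1) * (x ^ (j+1)) ^ i ≤ x ^ (j+1) * (1 - x ^ (j+1))⁻¹ :=
        sum_le_hasSum _ (fun j _ => by positivity) this
      refine le_trans (le_of_eq ?_) h3
      apply Finset.sum_congr rfl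
      intro i _
      rw [pow_succ' (x ^ (j+1)) i]
    have e3 : x ^ (j+1) * (1 - x ^ (j+1))⁻¹ ≤ Real.sqrt n / (j+1) := by
      have hexp : x ^ (j+1) = Real.exp (-((j+1) / Real.sqrt n)) := by
        rw [hx, ← Real.exp_nat_mul]
        congr 1
        push_cast
        ring
      set t : ℝ := (j+1) / Real.sqrt n with ht
      have htpos : 0 < t := by positivity
      have h4 : t * Real.exp (-t) ≤ 1 - Real.exp (-t) := by
        have := Real.add_one_le_exp t
        have h5 : Real.exp (-t) * Real.exp t = 1 := by rw [← Real.exp_add]; simp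
        nlinarith [Real.exp_pos (-t), Real.exp_pos t]
      rw [hexp]
      have h6 : 0 < 1 - Real.exp (-t) := by
        have : 0 < t * Real.exp (-t) := by positivity
        linarith
      rw [← div_eq_mul_inv, div_le_div_iff₀ h6 (by positivity)]
      have h7 : (j+1 : ℝ) = t * Real.sqrt n := by rw [ht]; field_simp
      rw [h7]
      nlinarith [Real.exp_pos (-t)]
    have hj : (0:ℝ) < j + 1 := by positivity
    calc (∑ i ∈ Finset.range n, (x ^ (j+1)) ^ (i+1)) / (j+1 : ℝ)
        ≤ (Real.sqrt n / (j+1)) / (j+1) := by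
          apply div_le_div_of_nonneg_right (e2.trans e3) hj.le
      _ = Real.sqrt n * (1 / ((j+1 : ℕ) : ℝ) ^ 2) := by
          push_cast
          field_simp
  refine hle.trans ?_
  have hpi : Real.pi ^ 2 / 6 ≤ 2 := by
    have := Real.pi_lt_d2
    have h0 := Real.pi_pos
    nlinarith
  nlinarith

theorem card_partition_le (n : ℕ) :
    (Fintype.card (Nat.Partition n) : ℝ) ≤ Real.exp (3 * Real.sqrt n) := by
  rcases Nat.eq_zero_or_pos n with h0 | hn
  · subst h0
    simp
  have hs : 0 < Real.sqrt n := Real.sqrt_pos.mpr (by exact_mod_cast hn)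
  set x : ℝ := Real.exp (-(1 / Real.sqrt n)) with hx
  have hx0 : 0 < x := by rw [hx]; exact Real.exp_pos _
  have hx1 : x < 1 := by
    have : 0 < 1 / Real.sqrt n := by positivity
    rw [hx, Real.exp_lt_one_iff]
    linarith
  have h1 := pb_gen n x hx0 hx1
  have h2 := pb_log_sum n hn x hx
  have h3 : ∏ i : Fin n, (1 - x ^ (i.val + 1))⁻¹ = Real.exp (∑ i : Fin n, (-Real.log (1 - x ^ (i.val + 1)))) := by
    rw [Real.exp_sum]
    apply Finset.prod_congr rfl
    intro i _
    have hy1 : x ^ (i.val+1) < 1 := pow_lt_one₀ hx0.le hx1 (Nat.succ_ne_zero _)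
    rw [Real.exp_neg, Real.exp_log (by linarith)]
  rw [h3] at h1
  have h4 : x ^ n = Real.exp (-Real.sqrt n) := by
    rw [hx, ← Real.exp_nat_mul]
    congr 1
    have : (n : ℝ) = Real.sqrt n * Real.sqrt n := (Real.mul_self_sqrt (by positivity)).symm
    rw [mul_neg, mul_one_div]
    congr 1
    rw [div_eq_iff hs.ne']
    exact this
  rw [h4] at h1
  have h5 : (Fintype.card (Nat.Partition n) : ℝ) = (Fintype.card (Nat.Partition n) : ℝ) * Real.exp (-Real.sqrt n) * Real.exp (Real.sqrt n) := by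
    rw [mul_assoc, ← Real.exp_add]; simp
  rw [h5]
  calc (Fintype.card (Nat.Partition n) : ℝ) * Real.exp (-Real.sqrt n) * Real.exp (Real.sqrt n)
      ≤ Real.exp (2 * Real.sqrt n) * Real.exp (Real.sqrt n) := by
        apply mul_le_mul_of_nonneg_right _ (Real.exp_pos _).le
        exact h1.trans (Real.exp_le_exp.mpr h2)
    _ = Real.exp (3 * Real.sqrt n) := by
        rw [← Real.exp_add]; congr 1; ring

end Crest.Agent.R155
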