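import Crest.Agent.R155.Asymp
import Crest.Agent.R155.PartBound

/-!
R155, Part R, task AsympS3.
-/

set_option autoImplicit false

namespace Crest.Agent.R155

open Filter

theorem s3_half_le (e : ℕ) : ((K0 e / 2 : ℕ) : ℝ) ≤ Real.sqrt ((2 ^ e : ℕ) : ℝ) := by
  apply Real.le_sqrt_of_sq_le
  have h1 : K0 e / 2 * 2 ≤ K0 e := Nat.div_mul_le_self _ _
  have h2 : K0 e * K0 e ≤ 4 * 2 ^ e := Nat.sqrt_le (4 * 2 ^ e)
  have h4 : (K0 e / 2 * 2) * (K0 e / 2 * 2) ≤ K0 e * K0 e := Nat.mul_le_mul h1 h1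
  have h3 : (K0 e / 2) ^ 2 ≤ 2 ^ e := by nlinarith
  exact_mod_cast h3

theorem s3_le_half (e : ℕ) : Real.sqrt ((2 ^ e : ℕ) : ℝ) ≤ ((K0 e / 2 : ℕ) : ℝ) + 1 := by
  rw [Real.sqrt_le_left (by positivity)]
  have h1 : K0 e + 1 ≤ 2 * (K0 e / 2 + 1) := by omega
  have h2 : 4 * 2 ^ e < (K0 e + 1) * (K0 e + 1) := Nat.lt_succ_sqrt (4 * 2 ^ e)
  have h3 : 2 ^ e ≤ (K0 e / 2 + 1) ^ 2 := by nlinarith
  exact_mod_cast h3

theorem s3_pow_le_choose (e : ℕ) :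
    (3 * Real.sqrt ((2 ^ e : ℕ) : ℝ)) ^ (K0 e / 2) ≤
      (((4 * 2 ^ e).choose (K0 e / 2) : ℕ) : ℝ) := by
  set h := K0 e / 2 with hh
  set r : ℕ := 2 ^ e with hr
  have hhle : (h : ℝ) ≤ Real.sqrt (r : ℝ) := s3_half_le e
  have hr1 : 1 ≤ r := Nat.one_le_two_pow
  have hs0 : 0 ≤ Real.sqrt (r : ℝ) := Real.sqrt_nonneg _
  have hss : Real.sqrt (r : ℝ) * Real.sqrt (r : ℝ) = r := Real.mul_self_sqrt (by positivity)
  have hr1' : (1 : ℝ) ≤ r := by exact_mod_cast hr1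
  have hs1 : 1 ≤ Real.sqrt (r : ℝ) := by
    rw [Real.one_le_sqrt]; exact hr1'
  have hhr : h ≤ r := by
    have : (h : ℝ) ≤ r := by nlinarith
    exact_mod_cast this
  have hfac : (0 : ℝ) < (h.factorial : ℝ) := by exact_mod_cast Nat.factorial_pos h
  have h1 : (h.factorial : ℝ) ≤ (h : ℝ) ^ h := by exact_mod_cast Nat.factorial_le_pow h
  have h2 : (3 * Real.sqrt (r : ℝ)) ^ h * (h : ℝ) ^ h ≤ (3 * (r : ℝ)) ^ h := by
    rw [← mul_pow]
    apply pow_le_pow_left₀ (by positivity)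
    nlinarith
  have h3 : (3 * (r : ℝ)) ^ h ≤ (((4 * r + 1 - h : ℕ) : ℝ)) ^ h := by
    apply pow_le_pow_left₀ (by positivity)
    have : 3 * r ≤ 4 * r + 1 - h := by omega
    exact_mod_cast this
  have h4 : ((((4 * r + 1 - h : ℕ) : ℝ)) ^ h) ≤ (h.factorial : ℝ) * (((4 * r).choose h : ℕ) : ℝ) := by
    have := Nat.pow_le_choose (α := ℝ) h (4 * r)
    rw [div_le_iff₀ hfac] at this
    linarith
  have h5 : (3 * Real.sqrt (r : ℝ)) ^ h * (h.factorial : ℝ) ≤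
      (h.factorial : ℝ) * (((4 * r).choose h : ℕ) : ℝ) := by
    calc (3 * Real.sqrt (r : ℝ)) ^ h * (h.factorial : ℝ)
        ≤ (3 * Real.sqrt (r : ℝ)) ^ h * (h : ℝ) ^ h :=
          mul_le_mul_of_nonneg_left h1 (by positivity)
      _ ≤ _ := h2.trans (h3.trans h4)
  rw [mul_comm] at h5
  exact le_of_mul_le_mul_left h5 hfac

theorem NN_le (e : ℕ) : (NN e : ℝ) ≤ 222 * ((2 ^ e : ℕ) : ℝ) ^ 2 := by
  have h1 : 1 ≤ 2 ^ e := Nat.one_le_two_pow
  have h2 : e + 3 ≤ 4 * 2 ^ e := by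
    have : e + 1 ≤ 2 ^ e := Nat.lt_two_pow_self
    omega
  have h3 : NN e ≤ 222 * (2 ^ e) ^ 2 := by
    unfold NN
    generalize 2 ^ e = r at h1 h2
    nlinarith
  exact_mod_cast h3

theorem S3_le (e : ℕ) (he : Real.exp 20 ≤ 3 * Real.sqrt ((2 ^ e : ℕ) : ℝ)) :
    S3 e ≤ (65536 * (32 * 222 ^ 2) ^ 6 * Real.exp 40) *
      ((Real.sqrt ((2 ^ e : ℕ) : ℝ)) ^ 48 * Real.exp (-(Real.sqrt ((2 ^ e : ℕ) : ℝ)))) := by
  set s := Real.sqrt ((2 ^ e : ℕ) : ℝ) with hs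
  have hs0 : 0 ≤ s := Real.sqrt_nonneg _
  have hr : ((2 ^ e : ℕ) : ℝ) = s ^ 2 := by
    rw [hs, Real.sq_sqrt (by positivity)]
  have hp1 : (Fintype.card (Nat.Partition (8 * 2 ^ e)) : ℝ) ≤ Real.exp (9 * s) := by
    refine (card_partition_le _).trans ?_
    apply Real.exp_le_exp.mpr
    have h8 : Real.sqrt ((8 * 2 ^ e : ℕ) : ℝ) ≤ 3 * s := by
      rw [Real.sqrt_le_left (by positivity)]
      push_cast
      push_cast at hr
      rw [hr]
      nlinarith [sq_nonneg s]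
    linarith
  have hp2 : (Fintype.card (Nat.Partition (2 ^ e)) : ℝ) ≤ Real.exp (3 * s) :=
    card_partition_le _
  have hNN : (NN e : ℝ) ≤ 222 * s ^ 4 := by
    refine (NN_le e).trans (le_of_eq ?_)
    rw [hr]
    ring
  have hX : 32 * (NN e : ℝ) ^ 2 * (Fintype.card (Nat.Partition (2 ^ e)) : ℝ) ≤
      (32 * 222 ^ 2) * s ^ 8 * Real.exp (3 * s) := by
    have h1 : (NN e : ℝ) ^ 2 ≤ (222 * s ^ 4) ^ 2 :=
      pow_le_pow_left₀ (by positivity) hNN 2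
    calc 32 * (NN e : ℝ) ^ 2 * (Fintype.card (Nat.Partition (2 ^ e)) : ℝ)
        ≤ 32 * (222 * s ^ 4) ^ 2 * Real.exp (3 * s) := by gcongr
      _ = _ := by ring
  have hden : Real.exp (40 * (s - 1)) ≤ (((4 * 2 ^ e).choose (K0 e / 2) : ℝ)) ^ 2 := by
    have h1 := s3_pow_le_choose e
    have h2 : Real.exp (20 * (K0 e / 2 : ℕ)) ≤ (((4 * 2 ^ e).choose (K0 e / 2) : ℕ) : ℝ) := by
      refine le_trans ?_ h1
      rw [mul_comm, Real.exp_nat_mul]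
      exact pow_le_pow_left₀ (Real.exp_nonneg _) he _
    have h3 : s - 1 ≤ ((K0 e / 2 : ℕ) : ℝ) := by
      have := s3_le_half e
      linarith
    calc Real.exp (40 * (s - 1)) ≤ Real.exp (40 * ((K0 e / 2 : ℕ) : ℝ)) := by
          apply Real.exp_le_exp.mpr; linarith
      _ = (Real.exp (20 * (K0 e / 2 : ℕ))) ^ 2 := by
          rw [← Real.exp_nat_mul]; congr 1; push_cast; ring
      _ ≤ _ := pow_le_pow_left₀ (Real.exp_nonneg _) h2 2
  unfold S3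
  calc (Fintype.card (Nat.Partition (8 * 2 ^ e)) : ℝ) *
      (65536 * (32 * (NN e : ℝ) ^ 2 * (Fintype.card (Nat.Partition (2 ^ e)) : ℝ)) ^ 6 /
        (((4 * 2 ^ e).choose (K0 e / 2) : ℝ)) ^ 2)
      ≤ Real.exp (9 * s) * (65536 * ((32 * 222 ^ 2) * s ^ 8 * Real.exp (3 * s)) ^ 6 /
        Real.exp (40 * (s - 1))) := by
        gcongr
    _ = (65536 * (32 * 222 ^ 2) ^ 6) * s ^ 48 *
        (Real.exp (9 * s) * (Real.exp (3 * s)) ^ 6 / Real.exp (40 * (s - 1))) := by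
        ring
    _ ≤ (65536 * (32 * 222 ^ 2) ^ 6) * s ^ 48 * (Real.exp 40 * Real.exp (-s)) := by
        apply mul_le_mul_of_nonneg_left _ (by positivity)
        rw [← Real.exp_nat_mul, ← Real.exp_add, ← Real.exp_sub, ← Real.exp_add]
        apply Real.exp_le_exp.mpr
        push_cast
        nlinarith
    _ = _ := by ring

/-- `C(n/2,h) ≥ (n/(2h))^h`, `h ≈ √n/(2√2)`: `exp (c √n log n)` beats the powers of `exp (3 √n)`
(`card_partition_le`). -/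
theorem S3_tendsto : Tendsto S3 atTop (nhds 0) := by
  have hr : Tendsto (fun e : ℕ => ((2 ^ e : ℕ) : ℝ)) atTop atTop :=
    tendsto_natCast_atTop_atTop.comp (tendsto_pow_atTop_atTop_of_one_lt (by norm_num))
  have hs : Tendsto (fun e : ℕ => Real.sqrt ((2 ^ e : ℕ) : ℝ)) atTop atTop :=
    Real.tendsto_sqrt_atTop.comp hr
  have hlim : Tendsto (fun e : ℕ => (65536 * (32 * 222 ^ 2) ^ 6 * Real.exp 40) *
      ((Real.sqrt ((2 ^ e : ℕ) : ℝ)) ^ 48 * Real.exp (-(Real.sqrt ((2 ^ e : ℕ) : ℝ)))))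
      atTop (nhds 0) := by
    have h1 := (Real.tendsto_pow_mul_exp_neg_atTop_nhds_zero 48).comp hs
    have h2 := h1.const_mul (65536 * (32 * 222 ^ 2) ^ 6 * Real.exp 40)
    rw [mul_zero] at h2
    exact h2
  refine squeeze_zero' (Eventually.of_forall fun e => ?_) ?_ hlim
  · unfold S3
    positivity
  · filter_upwards [hs.eventually_ge_atTop (Real.exp 20)] with e he
    refine S3_le e ?_
    have := Real.exp_pos 20
    linarith

end Crest.Agent.R155
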