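import Crest.Agent.R155.BasicR

/-!
R155, Part R, task Blocks: minimal bi-invariant subspaces.
-/

set_option autoImplicit false
set_option linter.unusedSectionVars false
set_option linter.unusedVariables false

namespace Crest.Agent.R155

open Finset Equiv

section
variable {G : Type} [Group G] [Fintype G] [DecidableEq G]

/-- matrix coefficients give a spanning set of size `m²` -/
theorem blocks_aux_right {K : Submodule ℝ (L2 G)} (hK : MinBi K)
    {W : Submodule ℝ (L2 G)} (hWK : W ≤ K) (hW : InvR W) (hne : W ≠ ⊥) :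
    Submodule.span ℝ {f : L2 G | ∃ a : G, ∃ w ∈ W, f = lt a w} = K := by
  set X : Submodule ℝ (L2 G) := Submodule.span ℝ {f : L2 G | ∃ a : G, ∃ w ∈ W, f = lt a w} with hX
  have hXK : X ≤ K := by
    rw [hX, Submodule.span_le]
    rintro f ⟨a, w, hw, rfl⟩
    exact hK.1.1 a w (hWK hw)
  have hbi : BiInv X := by
    constructor
    · rw [invL_iff_map]
      intro b
      rw [hX, Submodule.map_span, Submodule.span_le]
      rintro _ ⟨f, ⟨a, w, hw, rfl⟩, rfl⟩
      refine Submodule.subset_span ⟨b * a, w, hw, ?_⟩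
      change lt b (lt a w) = _
      rw [lt_mul]
    · rw [invR_iff_map]
      intro b
      rw [hX, Submodule.map_span, Submodule.span_le]
      rintro _ ⟨f, ⟨a, w, hw, rfl⟩, rfl⟩
      refine Submodule.subset_span ⟨a, rt b w, hW b w hw, ?_⟩
      change rt b (lt a w) = _
      rw [lt_rt]
  have hXne : X ≠ ⊥ := by
    intro h
    apply hne
    rw [eq_bot_iff]
    intro w hw
    have : w ∈ X := Submodule.subset_span ⟨1, w, hw, by simp⟩
    rwa [h] at this
  rcases hK.2.2 X hXK hbi with h | h
  · exact absurd h hXne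
  · exact h

/-- the same with left and right exchanged -/
theorem blocks_aux_left {K : Submodule ℝ (L2 G)} (hK : MinBi K)
    {W : Submodule ℝ (L2 G)} (hWK : W ≤ K) (hW : InvL W) (hne : W ≠ ⊥) :
    Submodule.span ℝ {f : L2 G | ∃ a : G, ∃ w ∈ W, f = rt a w} = K := by
  set X : Submodule ℝ (L2 G) := Submodule.span ℝ {f : L2 G | ∃ a : G, ∃ w ∈ W, f = rt a w} with hX
  have hXK : X ≤ K := by
    rw [hX, Submodule.span_le]
    rintro f ⟨a, w, hw, rfl⟩
    exact hK.1.2 a w (hWK hw)
  have hbi : BiInv X := by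
    constructor
    · rw [invL_iff_map]
      intro b
      rw [hX, Submodule.map_span, Submodule.span_le]
      rintro _ ⟨f, ⟨a, w, hw, rfl⟩, rfl⟩
      refine Submodule.subset_span ⟨a, lt b w, hW b w hw, ?_⟩
      change lt b (rt a w) = _
      rw [lt_rt]
    · rw [invR_iff_map]
      intro b
      rw [hX, Submodule.map_span, Submodule.span_le]
      rintro _ ⟨f, ⟨a, w, hw, rfl⟩, rfl⟩
      refine Submodule.subset_span ⟨b * a, w, hw, ?_⟩
      change rt b (rt a w) = _
      rw [rt_mul]
  have hXne : X ≠ ⊥ := by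
    intro h
    apply hne
    rw [eq_bot_iff]
    intro w hw
    have : w ∈ X := Submodule.subset_span ⟨1, w, hw, by simp⟩
    rwa [h] at this
  rcases hK.2.2 X hXK hbi with h | h
  · exact absurd h hXne
  · exact h

/-- The bi-invariant span of `W` consists of matrix coefficients: for `w ∈ W` and `a : G`,
`(lt a w) g = w (a⁻¹ g) = (rt g w) (a⁻¹)`, which is in the image of the linear map
`Dual W ⊗ W → L²(G)`, `ξ ⊗ w ↦ (g ↦ ξ (rt g w))`, of rank at most `(dim W)²`; by minimality
`K` is spanned by the `lt a w`. -/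
theorem MinBi.finrank_le_sq_right {K : Submodule ℝ (L2 G)} (hK : MinBi K)
    {W : Submodule ℝ (L2 G)} (hWK : W ≤ K) (hW : InvR W) (hne : W ≠ ⊥) :
    Module.finrank ℝ K ≤ (Module.finrank ℝ W) ^ 2 := by
  have hspan := blocks_aux_right hK hWK hW hne
  let b := Module.finBasis ℝ W
  let M : Fin (Module.finrank ℝ W) × Fin (Module.finrank ℝ W) → L2 G := fun p =>
    WithLp.toLp 2 (fun g => b.repr ⟨rt g (b p.2 : L2 G), hW g _ (b p.2).2⟩ p.1)
  have hmem : ∀ a : G, ∀ j, lt a (b j : L2 G) ∈ Submodule.span ℝ (Set.range M) := by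
    intro a j
    have h1 : lt a (b j : L2 G) = ∑ i, (b i : L2 G) a⁻¹ • M (i, j) := by
      ext g
      have h2 : (rt g (b j : L2 G)) = ∑ i, (M (i, j)) g • (b i : L2 G) := by
        have h3 := b.sum_repr ⟨rt g (b j : L2 G), hW g _ (b j).2⟩
        have h4 := congrArg (fun v : W => (v : L2 G)) h3
        simp only [Submodule.coe_sum, Submodule.coe_smul] at h4
        exact h4.symm
      have h5 := congrArg (fun v : L2 G => v a⁻¹) h2
      simp only [rt_apply] at h5
      rw [lt_apply, h5]
      simp only [WithLp.ofLp_sum, WithLp.ofLp_smul, Finset.sum_apply, Pi.smul_apply, smul_eq_mul]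
      exact Finset.sum_congr rfl fun i _ => mul_comm _ _
    rw [h1]
    exact Submodule.sum_mem _ fun i _ => Submodule.smul_mem _ _ (Submodule.subset_span ⟨_, rfl⟩)
  have hle : K ≤ Submodule.span ℝ (Set.range M) := by
    rw [← hspan, Submodule.span_le]
    rintro f ⟨a, w, hw, rfl⟩
    have h1 : w = ∑ j, b.repr ⟨w, hw⟩ j • (b j : L2 G) := by
      have h3 := b.sum_repr ⟨w, hw⟩
      have h4 := congrArg (fun v : W => (v : L2 G)) h3
      simp only [Submodule.coe_sum, Submodule.coe_smul] at h4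
      exact h4.symm
    change lt a w ∈ _
    rw [h1, map_sum]
    refine Submodule.sum_mem _ fun j _ => ?_
    rw [map_smul]
    exact Submodule.smul_mem _ _ (hmem a j)
  calc Module.finrank ℝ K ≤ Module.finrank ℝ (Submodule.span ℝ (Set.range M)) :=
        Submodule.finrank_mono hle
    _ ≤ Fintype.card (Fin (Module.finrank ℝ W) × Fin (Module.finrank ℝ W)) :=
        finrank_range_le_card M
    _ = (Module.finrank ℝ W) ^ 2 := by simp [sq]

/-- same with left and right exchanged -/
theorem MinBi.finrank_le_sq_left {K : Submodule ℝ (L2 G)} (hK : MinBi K)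
    {W : Submodule ℝ (L2 G)} (hWK : W ≤ K) (hW : InvL W) (hne : W ≠ ⊥) :
    Module.finrank ℝ K ≤ (Module.finrank ℝ W) ^ 2 := by
  have hspan := blocks_aux_left hK hWK hW hne
  let b := Module.finBasis ℝ W
  let M : Fin (Module.finrank ℝ W) × Fin (Module.finrank ℝ W) → L2 G := fun p =>
    WithLp.toLp 2 (fun g => b.repr ⟨lt g⁻¹ (b p.2 : L2 G), hW g⁻¹ _ (b p.2).2⟩ p.1)
  have hmem : ∀ a : G, ∀ j, rt a (b j : L2 G) ∈ Submodule.span ℝ (Set.range M) := by
    intro a j
    have h1 : rt a (b j : L2 G) = ∑ i, (b i : L2 G) a • M (i, j) := by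
      ext g
      have h2 : (lt g⁻¹ (b j : L2 G)) = ∑ i, (M (i, j)) g • (b i : L2 G) := by
        have h3 := b.sum_repr ⟨lt g⁻¹ (b j : L2 G), hW g⁻¹ _ (b j).2⟩
        have h4 := congrArg (fun v : W => (v : L2 G)) h3
        simp only [Submodule.coe_sum, Submodule.coe_smul] at h4
        exact h4.symm
      have h5 := congrArg (fun v : L2 G => v a) h2
      simp only [lt_apply, inv_inv] at h5
      rw [rt_apply, h5]
      simp only [WithLp.ofLp_sum, WithLp.ofLp_smul, Finset.sum_apply, Pi.smul_apply, smul_eq_mul]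
      exact Finset.sum_congr rfl fun i _ => mul_comm _ _
    rw [h1]
    exact Submodule.sum_mem _ fun i _ => Submodule.smul_mem _ _ (Submodule.subset_span ⟨_, rfl⟩)
  have hle : K ≤ Submodule.span ℝ (Set.range M) := by
    rw [← hspan, Submodule.span_le]
    rintro f ⟨a, w, hw, rfl⟩
    have h1 : w = ∑ j, b.repr ⟨w, hw⟩ j • (b j : L2 G) := by
      have h3 := b.sum_repr ⟨w, hw⟩
      have h4 := congrArg (fun v : W => (v : L2 G)) h3
      simp only [Submodule.coe_sum, Submodule.coe_smul] at h4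
      exact h4.symm
    change rt a w ∈ _
    rw [h1, map_sum]
    refine Submodule.sum_mem _ fun j _ => ?_
    rw [map_smul]
    exact Submodule.smul_mem _ _ (hmem a j)
  calc Module.finrank ℝ K ≤ Module.finrank ℝ (Submodule.span ℝ (Set.range M)) :=
        Submodule.finrank_mono hle
    _ ≤ Fintype.card (Fin (Module.finrank ℝ W) × Fin (Module.finrank ℝ W)) :=
        finrank_range_le_card M
    _ = (Module.finrank ℝ W) ^ 2 := by simp [sq]

/-- For `0 ≠ w ∈ W`: `X = {g ↦ ξ (rt g w) : ξ ∈ Dual W}`; since `W` is a function space every `ξ` is a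
combination of evaluations, so `X` is spanned by the `g ↦ w (g₀ g)`, i.e. by the `lt a w`. -/
theorem MinBi.exists_left {K : Submodule ℝ (L2 G)} (hK : MinBi K)
    {W : Submodule ℝ (L2 G)} (hWK : W ≤ K) (hW : InvR W) (hne : W ≠ ⊥) :
    ∃ X : Submodule ℝ (L2 G), X ≤ K ∧ InvL X ∧ X ≠ ⊥ ∧ Module.finrank ℝ X ≤ Module.finrank ℝ W := by
  obtain ⟨w, hw, hw0⟩ := Submodule.exists_mem_ne_zero_of_ne_bot hne
  let Ψ : L2 G →ₗ[ℝ] L2 G :=
    { toFun := fun u => WithLp.toLp 2 (fun g => inner ℝ u (rt g w))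
      map_add' := fun u v => by ext g; simp [inner_add_left]
      map_smul' := fun c u => by ext g; simp [inner_smul_left] }
  have hΨ : ∀ u g, Ψ u g = inner ℝ u (rt g w) := fun u g => rfl
  refine ⟨W.map Ψ, ?_, ?_, ?_, Submodule.finrank_map_le Ψ W⟩
  · rintro _ ⟨u, hu, rfl⟩
    have h1 : Ψ u = ∑ x, u x • lt x⁻¹ w := by
      ext g
      rw [hΨ, inner_def']
      simp only [WithLp.ofLp_sum, WithLp.ofLp_smul, Finset.sum_apply, Pi.smul_apply, smul_eq_mul,
        rt_apply, lt_apply, inv_inv]
    rw [h1]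
    exact K.sum_mem fun x _ => K.smul_mem _ (hK.1.1 _ _ (hWK hw))
  · rintro a _ ⟨u, hu, rfl⟩
    refine ⟨rt a u, hW a u hu, ?_⟩
    ext g
    rw [hΨ, lt_apply, hΨ, inner_rt, rt_mul]
  · intro h
    have h1 : Ψ w ∈ W.map Ψ := ⟨w, hw, rfl⟩
    rw [h, Submodule.mem_bot] at h1
    have h2 := hΨ w 1
    rw [h1, rt_one] at h2
    simp only [WithLp.ofLp_zero, Pi.zero_apply] at h2
    exact hw0 (inner_self_eq_zero.1 h2.symm)

end

section
variable {α : Type} [Fintype α] [DecidableEq α]

/-- existence of a minimal bi-invariant subspace -/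
theorem exists_minBi {G : Type} [Group G] [Fintype G] [DecidableEq G] (I : Submodule ℝ (L2 G))
    (hI : BiInv I) (hne : I ≠ ⊥) : ∃ K : Submodule ℝ (L2 G), MinBi K ∧ K ≤ I := by
  classical
  obtain ⟨n, hn⟩ : ∃ n, n = Module.finrank ℝ I := ⟨_, rfl⟩
  induction n using Nat.strong_induction_on generalizing I with
  | _ n ih =>
    by_cases h : ∃ K' : Submodule ℝ (L2 G), K' ≤ I ∧ BiInv K' ∧ K' ≠ ⊥ ∧ K' ≠ I
    · obtain ⟨K', h1, h2, h3, h4⟩ := h
      have hlt : Module.finrank ℝ K' < n := by
        rw [hn]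
        exact Submodule.finrank_lt_finrank_of_lt (lt_of_le_of_ne h1 h4)
      obtain ⟨K, hK, hKI⟩ := ih _ hlt K' h2 h3 rfl
      exact ⟨K, hK, hKI.trans h1⟩
    · push Not at h
      refine ⟨I, ⟨hI, hne, ?_⟩, le_rfl⟩
      intro K' h1 h2
      by_cases h3 : K' = ⊥
      · exact Or.inl h3
      · exact Or.inr (h K' h1 h2 h3)

/-- orthogonal decomposition, without the bound on the number of blocks -/
theorem exists_blocks_aux {G : Type} [Group G] [Fintype G] [DecidableEq G] (I : Submodule ℝ (L2 G))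
    (hI : BiInv I) :
    ∃ (M : ℕ) (K : Fin M → Submodule ℝ (L2 G)), (∀ i, MinBi (K i)) ∧ (∀ i, K i ≤ I) ∧
      (∀ i i', i ≠ i' → K i ≤ (K i')ᗮ) ∧ (⨆ i, K i) = I := by
  classical
  obtain ⟨n, hn⟩ : ∃ n, n = Module.finrank ℝ I := ⟨_, rfl⟩
  induction n using Nat.strong_induction_on generalizing I with
  | _ n ih =>
    by_cases hne : I = ⊥
    · refine ⟨0, Fin.elim0, fun i => i.elim0, fun i => i.elim0, fun i => i.elim0, ?_⟩
      rw [hne]; simp
    · obtain ⟨K0, hK0, hK0I⟩ := exists_minBi I hI hne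
      have hbi : BiInv (I ⊓ K0ᗮ) := hI.inf hK0.1.orth
      have hlt : Module.finrank ℝ (I ⊓ K0ᗮ : Submodule ℝ (L2 G)) < n := by
        rw [hn]
        refine Submodule.finrank_lt_finrank_of_lt (lt_of_le_of_ne inf_le_left ?_)
        intro h
        obtain ⟨v, hv, hv0⟩ := Submodule.exists_mem_ne_zero_of_ne_bot hK0.2.1
        have h1 : v ∈ I ⊓ K0ᗮ := by rw [h]; exact hK0I hv
        have h2 : inner ℝ v v = 0 := (Submodule.mem_orthogonal _ _).1 h1.2 v hv
        exact hv0 (inner_self_eq_zero.1 h2)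
      obtain ⟨M, K, hK1, hK2, hK3, hK4⟩ := ih _ hlt _ hbi rfl
      refine ⟨M + 1, Fin.cons K0 K, ?_, ?_, ?_, ?_⟩
      · intro i
        refine Fin.cases ?_ ?_ i
        · simpa using hK0
        · intro j; simpa using hK1 j
      · intro i
        refine Fin.cases ?_ ?_ i
        · simpa using hK0I
        · intro j; simpa using (hK2 j).trans inf_le_left
      · have hort : ∀ j, K j ≤ K0ᗮ := fun j => (hK2 j).trans inf_le_right
        have hort' : ∀ j, K0 ≤ (K j)ᗮ := fun j =>
          (Submodule.le_orthogonal_orthogonal K0).trans (Submodule.orthogonal_le (hort j))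
        intro i i'
        refine Fin.cases ?_ ?_ i
        · refine Fin.cases ?_ ?_ i'
          · intro h; exact absurd rfl h
          · intro j' _; simpa using hort' j'
        · intro j
          refine Fin.cases ?_ ?_ i'
          · intro _; simpa using hort j
          · intro j' h
            simpa using hK3 j j' (fun hh => h (by rw [hh]))
      · apply le_antisymm
        · refine iSup_le fun i => ?_
          refine Fin.cases ?_ ?_ i
          · simpa using hK0I
          · intro j; simpa using (hK2 j).trans inf_le_left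
        · have h1 : K0 ⊔ (K0ᗮ ⊓ I) = I :=
            Submodule.sup_orthogonal_inf_of_hasOrthogonalProjection hK0I
          have h2 : K0 ≤ ⨆ i, (Fin.cons K0 K : Fin (M + 1) → Submodule ℝ (L2 G)) i := by
            have := le_iSup (Fin.cons K0 K : Fin (M + 1) → Submodule ℝ (L2 G)) 0
            simpa using this
          have h3 : (⨆ i, K i) ≤ ⨆ i, (Fin.cons K0 K : Fin (M + 1) → Submodule ℝ (L2 G)) i := by
            refine iSup_le fun j => ?_
            have := le_iSup (Fin.cons K0 K : Fin (M + 1) → Submodule ℝ (L2 G)) j.succ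
            simpa using this
          rw [hK4, inf_comm] at h3
          calc I = K0 ⊔ (K0ᗮ ⊓ I) := h1.symm
            _ ≤ _ := sup_le h2 h3

/-- `pr K (dl 1)` is a class function -/
theorem pr_dl_conj {G : Type} [Group G] [Fintype G] [DecidableEq G] {K : Submodule ℝ (L2 G)}
    (hK : BiInv K) (a g : G) : pr K (dl 1) (a * g * a⁻¹) = pr K (dl 1) g := by
  have h1 : lt a⁻¹ (rt a⁻¹ (pr K (dl 1))) = pr K (dl 1) := by
    rw [← pr_rt hK.2, ← pr_lt hK.1]
    simp
  have h2 := congrArg (fun f : L2 G => f g) h1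
  simpa [mul_assoc] using h2

theorem pr_dl_ne_zero {G : Type} [Group G] [Fintype G] [DecidableEq G] {K : Submodule ℝ (L2 G)}
    (hK : BiInv K) (hne : K ≠ ⊥) : pr K (dl 1) ≠ 0 := by
  intro h
  apply hne
  rw [eq_bot_iff]
  intro f hf
  rw [Submodule.mem_bot, ← pr_of_mem hf, eq_sum_dl f, map_sum]
  refine Finset.sum_eq_zero fun x _ => ?_
  have h1 : pr K (dl x) = lt x (pr K (dl 1)) := by rw [← pr_lt hK.1]; simp
  rw [map_smul, h1, h]
  simp

/-- Every bi-invariant subspace of `L²(S_n)` is the orthogonal sum of at most `p(n)` minimal ones.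
Proof: existence by induction on the dimension (`InvL.orth`, `InvR.orth`); `pr (K i) (dl 1)` are
nonzero pairwise orthogonal class functions, hence linearly independent in a space of functions
factoring through `Equiv.Perm.partition` (`Equiv.Perm.partition_eq_of_isConj`). -/
theorem exists_blocks (I : Submodule ℝ (L2 (Perm α))) (hI : BiInv I) :
    ∃ (M : ℕ) (K : Fin M → Submodule ℝ (L2 (Perm α))),
      M ≤ Fintype.card (Nat.Partition (Fintype.card α)) ∧ (∀ i, MinBi (K i)) ∧ (∀ i, K i ≤ I) ∧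
      (∀ i i', i ≠ i' → K i ≤ (K i')ᗮ) ∧ (⨆ i, K i) = I := by
  classical
  obtain ⟨M, K, h1, h2, h3, h4⟩ := exists_blocks_aux I hI
  refine ⟨M, K, ?_, h1, h2, h3, h4⟩
  let v : Fin M → L2 (Perm α) := fun i => pr (K i) (dl 1)
  have hv0 : ∀ i, v i ≠ 0 := fun i => pr_dl_ne_zero (h1 i).1 (h1 i).2.1
  have hvo : Pairwise fun i j => inner ℝ (v i) (v j) = 0 := by
    intro i j hij
    have h5 : v j ∈ (K i)ᗮ := h3 j i (Ne.symm hij) (pr_mem _ _)
    exact (Submodule.mem_orthogonal _ _).1 h5 _ (pr_mem _ _)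
  have hli : LinearIndependent ℝ v := linearIndependent_of_ne_zero_of_inner_eq_zero hv0 hvo
  let R : (Nat.Partition (Fintype.card α) → ℝ) →ₗ[ℝ] L2 (Perm α) :=
    { toFun := fun φ => WithLp.toLp 2 (fun g => φ g.partition)
      map_add' := fun u v => by ext g; simp
      map_smul' := fun c u => by ext g; simp }
  have hR : ∀ i, v i ∈ LinearMap.range R := by
    intro i
    refine ⟨fun p => if h : ∃ g : Perm α, g.partition = p then v i h.choose else 0, ?_⟩
    ext g
    change (if h : ∃ g' : Perm α, g'.partition = g.partition then v i h.choose else 0) = v i g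
    have hex : ∃ g' : Perm α, g'.partition = g.partition := ⟨g, rfl⟩
    rw [dif_pos hex]
    have hc : IsConj hex.choose g := Equiv.Perm.partition_eq_of_isConj.2 hex.choose_spec
    obtain ⟨c, hc⟩ := isConj_iff.1 hc
    have h7 := pr_dl_conj (h1 i).1 c hex.choose
    rw [hc] at h7
    exact h7.symm
  have hle : Submodule.span ℝ (Set.range v) ≤ LinearMap.range R := by
    rw [Submodule.span_le]
    rintro _ ⟨i, rfl⟩
    exact hR i
  have h6 : Module.finrank ℝ (Submodule.span ℝ (Set.range v)) = M := by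
    rw [finrank_span_eq_card hli]; simp
  calc M = Module.finrank ℝ (Submodule.span ℝ (Set.range v)) := h6.symm
    _ ≤ Module.finrank ℝ (LinearMap.range R) := Submodule.finrank_mono hle
    _ ≤ Module.finrank ℝ (Nat.Partition (Fintype.card α) → ℝ) := LinearMap.finrank_range_le R
    _ = Fintype.card (Nat.Partition (Fintype.card α)) := Module.finrank_fintype_fun_eq_card ℝ

end

end Crest.Agent.R155
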