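import Mathlib

/-!
# Real group algebra of a finite group as a Euclidean space

`L2 G = EuclideanSpace ℝ G`, convolution `conv`, point masses `dl`, adjoint `adj`.
-/

set_option autoImplicit false
set_option linter.unusedSectionVars false

namespace Crest.Agent.R155

open scoped RealInnerProductSpace

/-- functions on the finite set `G` with the Euclidean inner product `∑ g, f g * h g`. -/
abbrev L2 (G : Type*) [Fintype G] := EuclideanSpace ℝ G

section Conv

variable {G : Type*} [Group G] [Fintype G]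

/-- Convolution `(a ⋆ f)(g) = ∑ x, a x * f (x⁻¹ g)`. -/
noncomputable def conv (a f : L2 G) : L2 G := WithLp.toLp 2 fun g => ∑ x, a x * f (x⁻¹ * g)

open Classical in
/-- Point mass at `g`. -/
noncomputable def dl (g : G) : L2 G := WithLp.toLp 2 fun x => if x = g then (1 : ℝ) else 0

/-- Adjoint `a*(g) = a(g⁻¹)`. -/
noncomputable def adj (a : L2 G) : L2 G := WithLp.toLp 2 fun g => a g⁻¹

theorem conv_apply (a f : L2 G) (g : G) : conv a f g = ∑ x, a x * f (x⁻¹ * g) := rfl

theorem adj_apply (a : L2 G) (g : G) : adj a g = a g⁻¹ := rfl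

open Classical in
theorem dl_apply (g x : G) : dl g x = if x = g then (1 : ℝ) else 0 := rfl

theorem inner_def (f h : L2 G) : ⟪f, h⟫ = ∑ g, f g * h g := by
  simp [PiLp.inner_apply, mul_comm]

theorem normSq_def (f : L2 G) : ‖f‖ ^ 2 = ∑ g, f g ^ 2 := by
  rw [EuclideanSpace.norm_sq_eq]
  simp

/-- alternative formula -/
theorem conv_apply' (a f : L2 G) (g : G) : conv a f g = ∑ y, a (g * y⁻¹) * f y := by
  rw [conv_apply]
  refine Fintype.sum_equiv ((Equiv.inv G).trans (Equiv.mulRight g)) _ _ fun x => ?_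
  simp

theorem conv_add_right (a f h : L2 G) : conv a (f + h) = conv a f + conv a h := by
  ext g
  simp [conv_apply, mul_add, Finset.sum_add_distrib]

theorem conv_add_left (a b f : L2 G) : conv (a + b) f = conv a f + conv b f := by
  ext g
  simp [conv_apply, add_mul, Finset.sum_add_distrib]

theorem conv_smul_right (c : ℝ) (a f : L2 G) : conv a (c • f) = c • conv a f := by
  ext g
  simp only [conv_apply, PiLp.smul_apply, smul_eq_mul, Finset.mul_sum]
  exact Finset.sum_congr rfl fun x _ => by ring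

theorem conv_smul_left (c : ℝ) (a f : L2 G) : conv (c • a) f = c • conv a f := by
  ext g
  simp only [conv_apply, PiLp.smul_apply, smul_eq_mul, Finset.mul_sum]
  exact Finset.sum_congr rfl fun x _ => by ring

/-- left multiplication as a linear map in both variables -/
noncomputable def convL : L2 G →ₗ[ℝ] L2 G →ₗ[ℝ] L2 G :=
  LinearMap.mk₂ ℝ conv conv_add_left conv_smul_left conv_add_right conv_smul_right

@[simp] theorem convL_apply (a f : L2 G) : convL a f = conv a f := rfl

theorem conv_zero_right (a : L2 G) : conv a 0 = 0 := (convL a).map_zero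

theorem conv_zero_left (a : L2 G) : conv 0 a = 0 := by
  rw [← convL_apply, map_zero]; rfl

theorem conv_sub_right (a f h : L2 G) : conv a (f - h) = conv a f - conv a h :=
  (convL a).map_sub f h

theorem conv_sub_left (a b f : L2 G) : conv (a - b) f = conv a f - conv b f := by
  rw [← convL_apply, map_sub]; rfl

theorem conv_neg_right (a f : L2 G) : conv a (-f) = -conv a f := (convL a).map_neg f

theorem conv_neg_left (a f : L2 G) : conv (-a) f = -conv a f := by
  rw [← convL_apply, map_neg]; rfl

theorem conv_sum_right {ι : Type*} (s : Finset ι) (a : L2 G) (f : ι → L2 G) :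
    conv a (∑ i ∈ s, f i) = ∑ i ∈ s, conv a (f i) := map_sum (convL a) f s

theorem conv_sum_left {ι : Type*} (s : Finset ι) (a : ι → L2 G) (f : L2 G) :
    conv (∑ i ∈ s, a i) f = ∑ i ∈ s, conv (a i) f := by
  rw [← convL_apply, map_sum]; simp

theorem conv_dl_left (g : G) (f : L2 G) (x : G) : conv (dl g) f x = f (g⁻¹ * x) := by
  classical
  simp [conv_apply, dl_apply]

theorem conv_dl_right (g : G) (f : L2 G) (x : G) : conv f (dl g) x = f (x * g⁻¹) := by
  classical
  simp [conv_apply', dl_apply]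

theorem conv_assoc (a b f : L2 G) : conv (conv a b) f = conv a (conv b f) := by
  ext g
  simp only [conv_apply, Finset.sum_mul, Finset.mul_sum]
  rw [Finset.sum_comm]
  refine Finset.sum_congr rfl fun x _ => ?_
  refine Fintype.sum_equiv (Equiv.mulLeft x⁻¹) _ _ fun y => ?_
  simp [mul_assoc]

theorem dl_mul (g h : G) : conv (dl g) (dl h) = dl (g * h) := by
  ext x
  rw [conv_dl_left, dl_apply, dl_apply]
  congr 1
  rw [eq_iff_iff]
  constructor
  · intro e; rw [← e]; group
  · intro e; rw [e]; group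

@[simp] theorem conv_one_left (f : L2 G) : conv (dl 1) f = f := by
  ext x; simp [conv_dl_left]

@[simp] theorem conv_one_right (f : L2 G) : conv f (dl 1) = f := by
  ext x; simp [conv_dl_right]

theorem sum_smul_dl (f : L2 G) : f = ∑ g, f g • dl g := by
  classical
  ext x
  simp [dl_apply]

theorem conv_eq_sum_left (a f : L2 G) : conv a f = ∑ g, a g • conv (dl g) f := by
  conv_lhs => rw [sum_smul_dl a, conv_sum_left]
  simp [conv_smul_left]

theorem conv_eq_sum_right (a f : L2 G) : conv a f = ∑ g, f g • conv a (dl g) := by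
  conv_lhs => rw [sum_smul_dl f, conv_sum_right]
  simp [conv_smul_right]

theorem adj_adj (a : L2 G) : adj (adj a) = a := by
  ext g; simp [adj_apply]

theorem adj_add (a b : L2 G) : adj (a + b) = adj a + adj b := by
  ext g; simp [adj_apply]

theorem adj_sub (a b : L2 G) : adj (a - b) = adj a - adj b := by
  ext g; simp [adj_apply]

theorem adj_smul (c : ℝ) (a : L2 G) : adj (c • a) = c • adj a := by
  ext g; simp [adj_apply]

theorem adj_dl (g : G) : adj (dl g) = dl g⁻¹ := by
  ext x
  rw [adj_apply, dl_apply, dl_apply]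
  congr 1
  rw [eq_iff_iff]
  exact inv_eq_iff_eq_inv

theorem adj_conv (a b : L2 G) : adj (conv a b) = conv (adj b) (adj a) := by
  ext g
  rw [adj_apply, conv_apply, conv_apply']
  refine Fintype.sum_equiv (Equiv.inv G) _ _ fun x => ?_
  simp only [adj_apply]
  rw [mul_comm]
  simp

theorem norm_adj (a : L2 G) : ‖adj a‖ = ‖a‖ := by
  have h : ‖adj a‖ ^ 2 = ‖a‖ ^ 2 := by
    rw [normSq_def, normSq_def]
    exact Fintype.sum_equiv (Equiv.inv G) _ _ fun x => by simp [adj_apply]
  have h1 := norm_nonneg (adj a)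
  have h2 := norm_nonneg a
  nlinarith [sq_nonneg (‖adj a‖ - ‖a‖), sq_nonneg (‖adj a‖ + ‖a‖)]

theorem inner_adj (a b : L2 G) : ⟪adj a, adj b⟫ = ⟪a, b⟫ := by
  rw [inner_def, inner_def]
  exact Fintype.sum_equiv (Equiv.inv G) _ _ fun x => by simp [adj_apply]

theorem inner_dl (f : L2 G) (g : G) : ⟪f, dl g⟫ = f g := by
  classical
  rw [inner_def]; simp [dl_apply]

theorem inner_conv_dl (g : G) (f h : L2 G) :
    ⟪conv (dl g) f, h⟫ = ⟪f, conv (dl g⁻¹) h⟫ := by
  rw [inner_def, inner_def]
  refine Fintype.sum_equiv (Equiv.mulLeft g⁻¹) _ _ fun x => ?_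
  simp [conv_dl_left]

theorem inner_conv_left (a f h : L2 G) : ⟪conv a f, h⟫ = ⟪f, conv (adj a) h⟫ := by
  rw [conv_eq_sum_left, sum_inner, conv_eq_sum_left, inner_sum]
  refine Fintype.sum_equiv (Equiv.inv G) _ _ fun x => ?_
  rw [inner_smul_left, inner_smul_right, inner_conv_dl]
  simp [adj_apply]

theorem inner_conv_right (a f h : L2 G) : ⟪conv f a, h⟫ = ⟪f, conv h (adj a)⟫ := by
  rw [← inner_adj, adj_conv, inner_conv_left, ← inner_adj, adj_conv, adj_adj, adj_adj, adj_adj]

theorem norm_conv_dl_left (g : G) (f : L2 G) : ‖conv (dl g) f‖ = ‖f‖ := by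
  have h : ‖conv (dl g) f‖ ^ 2 = ‖f‖ ^ 2 := by
    rw [← real_inner_self_eq_norm_sq, ← real_inner_self_eq_norm_sq, inner_conv_dl, ← conv_assoc,
      dl_mul]
    simp
  have h1 := norm_nonneg (conv (dl g) f)
  have h2 := norm_nonneg f
  nlinarith [sq_nonneg (‖conv (dl g) f‖ - ‖f‖), sq_nonneg (‖conv (dl g) f‖ + ‖f‖)]

theorem norm_conv_dl_right (g : G) (f : L2 G) : ‖conv f (dl g)‖ = ‖f‖ := by
  rw [← norm_adj, adj_conv, adj_dl, norm_conv_dl_left, norm_adj]

end Conv

end Crest.Agent.R155
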