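import Mathlib

/-!
R155, Part R, task ProdDim: pure linear algebra; dimension of a module over commuting families.
-/

set_option autoImplicit false
set_option linter.unusedSectionVars false
set_option linter.unusedVariables false

namespace Crest.Agent.R155

/-- Dichotomy for invariant subspaces of a minimal invariant subspace. -/
theorem prodDim_bot_or_top {V : Type} [AddCommGroup V] [Module ℂ V]
    (A : Set (V →ₗ[ℂ] V)) (U : Submodule ℂ V) (hU : ∀ x ∈ A, ∀ u ∈ U, x u ∈ U)
    (hmin : ∀ W : Submodule ℂ V, (∀ x ∈ A, ∀ u ∈ W, x u ∈ W) → W ≤ U → W ≠ ⊥ → W = U)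
    (K : Submodule ℂ U) (hK : ∀ x (hx : x ∈ A) (u : U), u ∈ K → (⟨x u, hU x hx u u.2⟩ : U) ∈ K) :
    K = ⊥ ∨ K = ⊤ := by
  by_cases hb : K = ⊥
  · exact Or.inl hb
  right
  have h1 : K.map U.subtype = U := by
    refine hmin _ ?_ ?_ ?_
    · rintro x hx _ ⟨u, hu, rfl⟩
      exact ⟨_, hK x hx u hu, rfl⟩
    · rintro _ ⟨u, hu, rfl⟩
      exact u.2
    · intro h
      apply hb
      rw [eq_bot_iff]
      intro u hu
      have : (u : V) ∈ K.map U.subtype := ⟨u, hu, rfl⟩
      rw [h, Submodule.mem_bot] at this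
      rw [Submodule.mem_bot]
      exact Subtype.ext this
  rw [eq_top_iff]
  intro u _
  have : (u : V) ∈ K.map U.subtype := by rw [h1]; exact u.2
  obtain ⟨w, hw, hwu⟩ := this
  have : w = u := Subtype.ext hwu
  exact this ▸ hw

/-- Schur's lemma: equivariant endomorphisms of a minimal invariant subspace are scalars. -/
theorem prodDim_schur {V : Type} [AddCommGroup V] [Module ℂ V] [FiniteDimensional ℂ V]
    (A : Set (V →ₗ[ℂ] V)) (U : Submodule ℂ V) (hU : ∀ x ∈ A, ∀ u ∈ U, x u ∈ U) (hU0 : U ≠ ⊥)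
    (hmin : ∀ W : Submodule ℂ V, (∀ x ∈ A, ∀ u ∈ W, x u ∈ W) → W ≤ U → W ≠ ⊥ → W = U)
    (ψ : U →ₗ[ℂ] U)
    (hψ : ∀ x (hx : x ∈ A) (u : U), ψ ⟨x u, hU x hx u u.2⟩ = ⟨x (ψ u), hU x hx _ (ψ u).2⟩) :
    ∃ c : ℂ, ∀ u, ψ u = c • u := by
  haveI : Nontrivial U := Submodule.nontrivial_iff_ne_bot.2 hU0
  obtain ⟨c, hc⟩ := Module.End.exists_eigenvalue ψ
  refine ⟨c, fun u => ?_⟩
  have h := prodDim_bot_or_top A U hU hmin (Module.End.eigenspace ψ c) (by
    intro x hx w hw
    rw [Module.End.mem_eigenspace_iff] at hw ⊢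
    rw [hψ x hx w]
    apply Subtype.ext
    simp [hw])
  rcases h with h | h
  · exact absurd h hc
  · have : u ∈ Module.End.eigenspace ψ c := by rw [h]; trivial
    exact Module.End.mem_eigenspace_iff.1 this

/-- Linearly independent equivariant maps from a minimal invariant subspace have independent
ranges. -/
theorem prodDim_indep {V : Type} [AddCommGroup V] [Module ℂ V] [FiniteDimensional ℂ V]
    (A : Set (V →ₗ[ℂ] V)) (U : Submodule ℂ V) (hU : ∀ x ∈ A, ∀ u ∈ U, x u ∈ U) (hU0 : U ≠ ⊥)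
    (hmin : ∀ W : Submodule ℂ V, (∀ x ∈ A, ∀ u ∈ W, x u ∈ W) → W ≤ U → W ≠ ⊥ → W = U)
    (q : ℕ) : ∀ (φ : Fin q → (U →ₗ[ℂ] V)),
      (∀ j x (hx : x ∈ A) (u : U), φ j ⟨x u, hU x hx u u.2⟩ = x (φ j u)) →
      LinearIndependent ℂ φ → ∀ u : Fin q → U, ∑ j, φ j (u j) = 0 → u = 0 := by
  induction q with
  | zero => intro φ _ _ u _; exact Subsingleton.elim _ _
  | succ q ih =>
    intro φ hφ hlin u hu
    rw [linearIndependent_finSucc] at hlin
    obtain ⟨hlin', h0⟩ := hlin
    have ih' := ih (Fin.tail φ) (fun j => hφ j.succ) hlin'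
    -- the map `T`
    let T : (Fin q → U) →ₗ[ℂ] V := ∑ j, (Fin.tail φ j).comp (LinearMap.proj j)
    have hT : ∀ w, T w = ∑ j, Fin.tail φ j (w j) := by
      intro w; simp [T, LinearMap.sum_apply]
    have hTinj : Function.Injective T := by
      rw [← LinearMap.ker_eq_bot, LinearMap.ker_eq_bot']
      intro w hw
      exact ih' w (by rw [← hT]; exact hw)
    have hTeq : ∀ x (hx : x ∈ A) (w : Fin q → U),
        T (fun j => ⟨x (w j), hU x hx _ (w j).2⟩) = x (T w) := by
      intro x hx w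
      rw [hT, hT, map_sum]
      exact Finset.sum_congr rfl fun j _ => hφ j.succ x hx (w j)
    have hdich := prodDim_bot_or_top A U hU hmin ((LinearMap.range T).comap (φ 0)) (by
      rintro x hx w ⟨v, hv⟩
      refine ⟨fun j => ⟨x (v j), hU x hx _ (v j).2⟩, ?_⟩
      rw [hTeq x hx v, hv, hφ 0 x hx w])
    rcases hdich with hK | hK
    · -- trivial intersection
      rw [Fin.sum_univ_succ] at hu
      have h1 : u 0 ∈ (LinearMap.range T).comap (φ 0) := by
        refine ⟨-(Fin.tail u), ?_⟩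
        rw [map_neg, hT, eq_comm]
        exact eq_neg_of_add_eq_zero_left hu
      rw [hK, Submodule.mem_bot] at h1
      rw [h1, map_zero, zero_add] at hu
      have h2 := ih' (Fin.tail u) hu
      funext j
      refine Fin.cases ?_ (fun j => ?_) j
      · exact h1
      · exact congrFun h2 j
    · -- contradiction with linear independence
      exfalso
      apply h0
      have hr : ∀ w : U, φ 0 w ∈ LinearMap.range T := by
        intro w
        have : w ∈ (LinearMap.range T).comap (φ 0) := by rw [hK]; trivial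
        exact this
      let e : U →ₗ[ℂ] (Fin q → U) :=
        ((LinearEquiv.ofInjective T hTinj).symm : LinearMap.range T →ₗ[ℂ] (Fin q → U)).comp
          ((φ 0).codRestrict (LinearMap.range T) hr)
      have he : ∀ w, T (e w) = φ 0 w := by
        intro w
        have := (LinearEquiv.ofInjective T hTinj).apply_symm_apply
          ((φ 0).codRestrict (LinearMap.range T) hr w)
        exact congrArg Subtype.val this
      have heq : ∀ x (hx : x ∈ A) (w : U), e ⟨x w, hU x hx w w.2⟩ =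
          fun j => ⟨x (e w j), hU x hx _ (e w j).2⟩ := by
        intro x hx w
        apply hTinj
        rw [he, hφ 0 x hx w, hTeq x hx (e w), he]
      have hsc : ∀ j, ∃ c : ℂ, ∀ w, e w j = c • w := by
        intro j
        refine prodDim_schur A U hU hU0 hmin ((LinearMap.proj j).comp e) ?_
        intro x hx w
        have := congrFun (heq x hx w) j
        exact this
      choose c hc using hsc
      have : φ 0 = ∑ j, c j • Fin.tail φ j := by
        ext w
        rw [← he w, hT, LinearMap.sum_apply]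
        refine Finset.sum_congr rfl fun j _ => ?_
        rw [hc j w, map_smul, LinearMap.smul_apply]
      rw [this]
      exact Submodule.sum_mem _ fun j _ => Submodule.smul_mem _ _
        (Submodule.subset_span ⟨j, rfl⟩)

/-- Proof: let `U ≠ 0` be `A`-invariant of minimal dimension, `dim U ≥ a`, and
`Q = {φ : U →ₗ V | φ (x u) = x (φ u) for x ∈ A}`. `B` acts on `Q` by composition; for `0 ≠ u₀ ∈ U` the
map `φ ↦ φ u₀` is injective on `Q` (the kernel of `φ` is `A`-invariant) with `B`-invariant image, so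
`dim Q ≥ b`. If `φ_1..φ_q` are linearly independent in `Q` then `∑ φ_j (u_j) = 0` forces all
`u_j = 0`: in a relation of minimal support the coordinates are `A`-endomorphisms of `U` of one
coordinate, which are scalars (eigenvalue over `ℂ`, minimality of `U`), contradicting linear
independence. So `V` contains a copy of `U^q`. -/
theorem dim_mul_of_commuting {V : Type} [AddCommGroup V] [Module ℂ V] [FiniteDimensional ℂ V]
    [Nontrivial V] (A B : Set (V →ₗ[ℂ] V)) (hAB : ∀ x ∈ A, ∀ y ∈ B, ∀ v, x (y v) = y (x v))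
    (a b : ℕ)
    (hA : ∀ U : Submodule ℂ V, (∀ x ∈ A, ∀ u ∈ U, x u ∈ U) → U ≠ ⊥ → a ≤ Module.finrank ℂ U)
    (hB : ∀ U : Submodule ℂ V, (∀ x ∈ B, ∀ u ∈ U, x u ∈ U) → U ≠ ⊥ → b ≤ Module.finrank ℂ U) :
    a * b ≤ Module.finrank ℂ V := by
  classical
  -- a minimal invariant subspace
  obtain ⟨U, ⟨hU, hU0⟩, hUmin⟩ : ∃ U : Submodule ℂ V,
      ((∀ x ∈ A, ∀ u ∈ U, x u ∈ U) ∧ U ≠ ⊥) ∧
      ∀ W : Submodule ℂ V, ((∀ x ∈ A, ∀ u ∈ W, x u ∈ W) ∧ W ≠ ⊥) →
        Module.finrank ℂ U ≤ Module.finrank ℂ W := by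
    have hne : ∃ n, ∃ U : Submodule ℂ V,
        ((∀ x ∈ A, ∀ u ∈ U, x u ∈ U) ∧ U ≠ ⊥) ∧ Module.finrank ℂ U = n :=
      ⟨_, ⊤, ⟨fun _ _ _ _ => trivial, top_ne_bot⟩, rfl⟩
    obtain ⟨U, hU, hUn⟩ := Nat.find_spec hne
    refine ⟨U, hU, fun W hW => ?_⟩
    rw [hUn]
    exact Nat.find_min' hne ⟨W, hW, rfl⟩
  have hmin : ∀ W : Submodule ℂ V, (∀ x ∈ A, ∀ u ∈ W, x u ∈ W) → W ≤ U → W ≠ ⊥ → W = U := by
    intro W hW hWU hW0
    exact Submodule.eq_of_le_of_finrank_le hWU (hUmin W ⟨hW, hW0⟩)
  -- the space of equivariant maps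
  let Q : Submodule ℂ (U →ₗ[ℂ] V) :=
    { carrier := {φ | ∀ x (hx : x ∈ A) (u : U), φ ⟨x u, hU x hx u u.2⟩ = x (φ u)}
      add_mem' := by
        intro φ ψ hφ hψ x hx u
        simp only [LinearMap.add_apply, map_add, hφ x hx u, hψ x hx u]
      zero_mem' := by intro x hx u; simp
      smul_mem' := by
        intro c φ hφ x hx u
        simp only [LinearMap.smul_apply, map_smul, hφ x hx u] }
  have hQ : ∀ φ : U →ₗ[ℂ] V, φ ∈ Q ↔
      ∀ x (hx : x ∈ A) (u : U), φ ⟨x u, hU x hx u u.2⟩ = x (φ u) := fun φ => Iff.rfl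
  obtain ⟨u₀, hu₀, hu₀0⟩ := Submodule.exists_mem_ne_zero_of_ne_bot hU0
  -- evaluation at `u₀`
  let ev : Q →ₗ[ℂ] V := (LinearMap.applyₗ (⟨u₀, hu₀⟩ : U)).comp Q.subtype
  have hev : ∀ φ : Q, ev φ = (φ : U →ₗ[ℂ] V) ⟨u₀, hu₀⟩ := fun φ => rfl
  have hevinj : Function.Injective ev := by
    rw [← LinearMap.ker_eq_bot, LinearMap.ker_eq_bot']
    intro φ hφ
    have h := prodDim_bot_or_top A U hU hmin (LinearMap.ker (φ : U →ₗ[ℂ] V)) (by
      intro x hx w hw
      rw [LinearMap.mem_ker] at hw ⊢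
      rw [(hQ _).1 φ.2 x hx w, hw, map_zero])
    rcases h with h | h
    · exfalso
      have : (⟨u₀, hu₀⟩ : U) ∈ LinearMap.ker (φ : U →ₗ[ℂ] V) := hφ
      rw [h, Submodule.mem_bot] at this
      exact hu₀0 (congrArg Subtype.val this)
    · apply Subtype.ext
      exact LinearMap.ker_eq_top.1 h
  have hb : b ≤ Module.finrank ℂ Q := by
    rw [← LinearMap.finrank_range_of_inj hevinj]
    refine hB _ ?_ ?_
    · rintro y hy _ ⟨φ, rfl⟩
      refine ⟨⟨y.comp (φ : U →ₗ[ℂ] V), ?_⟩, rfl⟩
      intro x hx u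
      simp only [LinearMap.comp_apply]
      rw [(hQ _).1 φ.2 x hx u, hAB x hx y hy]
    · intro h
      have : u₀ ∈ LinearMap.range ev := ⟨⟨U.subtype, fun x hx u => rfl⟩, rfl⟩
      rw [h, Submodule.mem_bot] at this
      exact hu₀0 this
  have ha : a ≤ Module.finrank ℂ U := hA U hU hU0
  -- the copy of `U^q`
  let bs := Module.finBasis ℂ Q
  let φ : Fin (Module.finrank ℂ Q) → (U →ₗ[ℂ] V) := fun j => (bs j : U →ₗ[ℂ] V)
  have hφlin : LinearIndependent ℂ φ :=
    bs.linearIndependent.map' Q.subtype (Submodule.ker_subtype Q)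
  have hind := prodDim_indep A U hU hU0 hmin _ φ (fun j => (hQ _).1 (bs j).2) hφlin
  let T : (Fin (Module.finrank ℂ Q) → U) →ₗ[ℂ] V := ∑ j, (φ j).comp (LinearMap.proj j)
  have hTinj : Function.Injective T := by
    rw [← LinearMap.ker_eq_bot, LinearMap.ker_eq_bot']
    intro w hw
    refine hind w ?_
    rw [← hw]
    simp [T, LinearMap.sum_apply]
  have h1 := LinearMap.finrank_le_finrank_of_injective hTinj
  rw [Module.finrank_pi_fintype] at h1
  simp only [Finset.sum_const, Finset.card_univ, Fintype.card_fin, smul_eq_mul] at h1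
  calc a * b ≤ Module.finrank ℂ U * Module.finrank ℂ Q := Nat.mul_le_mul ha hb
    _ = Module.finrank ℂ Q * Module.finrank ℂ U := Nat.mul_comm _ _
    _ ≤ _ := h1

/-- Induction on `n` from `dim_mul_of_commuting` (apply the induction hypothesis inside every nonzero
subspace invariant under all of `A 0, …, A (n-1)`). -/
theorem dim_pow_of_commuting {n : ℕ} {V : Type} [AddCommGroup V] [Module ℂ V]
    [FiniteDimensional ℂ V] [Nontrivial V] (A : Fin n → Set (V →ₗ[ℂ] V))
    (hA : ∀ i i', i ≠ i' → ∀ x ∈ A i, ∀ y ∈ A i', ∀ v, x (y v) = y (x v)) (y : ℕ)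
    (h : ∀ i, ∀ U : Submodule ℂ V, (∀ x ∈ A i, ∀ u ∈ U, x u ∈ U) → U ≠ ⊥ →
      y ≤ Module.finrank ℂ U) :
    y ^ n ≤ Module.finrank ℂ V := by
  classical
  induction n generalizing V with
  | zero =>
    rw [pow_zero]
    exact Module.finrank_pos
  | succ n ih =>
    rw [pow_succ]
    refine dim_mul_of_commuting (⋃ i : Fin n, A i.succ) (A 0) ?_ (y ^ n) y ?_ (h 0)
    · intro x hx z hz v
      rw [Set.mem_iUnion] at hx
      obtain ⟨i, hi⟩ := hx
      exact hA i.succ 0 (Fin.succ_ne_zero i) x hi z hz v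
    · intro U hU hU0
      haveI : Nontrivial U := Submodule.nontrivial_iff_ne_bot.2 hU0
      have hU' : ∀ i : Fin n, ∀ x ∈ A i.succ, ∀ u ∈ U, x u ∈ U := fun i x hx u hu =>
        hU x (Set.mem_iUnion.2 ⟨i, hx⟩) u hu
      refine ih (V := U)
        (fun i => {x' : U →ₗ[ℂ] U | ∃ x ∈ A i.succ, ∀ u : U, ((x' u : U) : V) = x u}) ?_ ?_
      · rintro i i' hii' x' ⟨x, hx, hxx⟩ z' ⟨z, hz, hzz⟩ v
        apply Subtype.ext
        rw [hxx, hzz, hzz, hxx]
        exact hA i.succ i'.succ (fun e => hii' (Fin.succ_injective _ e)) x hx z hz v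
      · intro i W hW hW0
        have h1 := h i.succ (W.map U.subtype) (by
          rintro x hx _ ⟨w, hw, rfl⟩
          have hr : ∀ u ∈ U, x u ∈ U := hU' i x hx
          have := hW (x.restrict hr) ⟨x, hx, fun u => rfl⟩ w hw
          exact ⟨_, this, rfl⟩) (by
          intro hb
          apply hW0
          rw [eq_bot_iff]
          intro u hu
          have : (u : V) ∈ W.map U.subtype := ⟨u, hu, rfl⟩
          rw [hb, Submodule.mem_bot] at this
          rw [Submodule.mem_bot]
          exact Subtype.ext this)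
        rwa [Submodule.finrank_map_subtype_eq] at h1

/-- Real version, by complexification (`ℂ ⊗[ℝ] V` or `V × V`): for a nonzero complex `A i`-invariant
`Z`, the real parts of elements of `Z` form a nonzero real `A i`-invariant subspace of real
dimension at most `2 dim_ℂ Z`. -/
theorem real_dim_pow_of_commuting {n : ℕ} {V : Type} [AddCommGroup V] [Module ℝ V]
    [FiniteDimensional ℝ V] [Nontrivial V] (A : Fin n → Set (V →ₗ[ℝ] V))
    (hA : ∀ i i', i ≠ i' → ∀ x ∈ A i, ∀ y ∈ A i', ∀ v, x (y v) = y (x v)) (y : ℕ)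
    (h : ∀ i, ∀ U : Submodule ℝ V, (∀ x ∈ A i, ∀ u ∈ U, x u ∈ U) → U ≠ ⊥ →
      2 * y ≤ Module.finrank ℝ U) :
    y ^ n ≤ Module.finrank ℝ V := by
  classical
  open scoped TensorProduct in
  have hfin : Module.finrank ℂ (ℂ ⊗[ℝ] V) = Module.finrank ℝ V := Module.finrank_baseChange
  rw [← hfin]
  haveI : Nontrivial (TensorProduct ℝ ℂ V) := by
    apply Module.nontrivial_of_finrank_pos (R := ℂ)
    rw [hfin]
    exact Module.finrank_pos
  -- real part
  let re : TensorProduct ℝ ℂ V →ₗ[ℝ] V :=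
    (TensorProduct.lid ℝ V : TensorProduct ℝ ℝ V →ₗ[ℝ] V).comp
      (TensorProduct.map Complex.reLm LinearMap.id)
  have hre : ∀ (c : ℂ) (v : V), re (c ⊗ₜ[ℝ] v) = c.re • v := by
    intro c v; simp [re]
  have hdec : ∀ z : TensorProduct ℝ ℂ V,
      z = (1 : ℂ) ⊗ₜ[ℝ] (re z) - Complex.I ⊗ₜ[ℝ] (re (Complex.I • z)) := by
    intro z
    induction z using TensorProduct.induction_on with
    | zero => simp
    | tmul c v =>
      rw [TensorProduct.smul_tmul', hre, hre, TensorProduct.tmul_smul, TensorProduct.tmul_smul,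
        TensorProduct.smul_tmul', TensorProduct.smul_tmul', ← TensorProduct.sub_tmul]
      congr 1
      apply Complex.ext <;> simp
    | add z w hz hw =>
      rw [smul_add, map_add, map_add, TensorProduct.tmul_add, TensorProduct.tmul_add]
      conv_lhs => rw [hz, hw]
      abel
  have hcomm : ∀ (x : V →ₗ[ℝ] V) (z : TensorProduct ℝ ℂ V),
      re (x.baseChange ℂ z) = x (re z) := by
    intro x z
    induction z using TensorProduct.induction_on with
    | zero => simp
    | tmul c v => rw [LinearMap.baseChange_tmul, hre, hre, map_smul]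
    | add z w hz hw => rw [map_add, map_add, hz, hw, map_add, map_add]
  refine dim_pow_of_commuting (fun i => (fun x : V →ₗ[ℝ] V => x.baseChange ℂ) '' A i) ?_ y ?_
  · rintro i i' hii' _ ⟨x, hx, rfl⟩ _ ⟨z, hz, rfl⟩ v
    induction v using TensorProduct.induction_on with
    | zero => simp
    | tmul c v => simp only [LinearMap.baseChange_tmul, hA i i' hii' x hx z hz v]
    | add v w hv hw => simp only [map_add, hv, hw]
  · intro i Z hZ hZ0
    have h1 := h i ((Z.restrictScalars ℝ).map re) (by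
      rintro x hx _ ⟨z, hz, rfl⟩
      exact ⟨x.baseChange ℂ z, hZ _ ⟨x, hx, rfl⟩ z hz, hcomm x z⟩) (by
      intro hb
      apply hZ0
      rw [eq_bot_iff]
      intro z hz
      have e1 : re z = 0 := by
        have : re z ∈ (Z.restrictScalars ℝ).map re := ⟨z, hz, rfl⟩
        rwa [hb, Submodule.mem_bot] at this
      have e2 : re (Complex.I • z) = 0 := by
        have : re (Complex.I • z) ∈ (Z.restrictScalars ℝ).map re :=
          ⟨Complex.I • z, Z.smul_mem _ hz, rfl⟩
        rwa [hb, Submodule.mem_bot] at this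
      rw [Submodule.mem_bot, hdec z, e1, e2]
      simp)
    have h2 : Module.finrank ℝ ((Z.restrictScalars ℝ).map re) ≤
        Module.finrank ℝ (Z.restrictScalars ℝ) := Submodule.finrank_map_le _ _
    have h3 : Module.finrank ℝ (Z.restrictScalars ℝ) = 2 * Module.finrank ℂ Z := by
      have := Module.finrank_mul_finrank ℝ ℂ Z
      rw [Complex.finrank_real_complex] at this
      exact this.symm
    omega

end Crest.Agent.R155
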