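import Crest.Agent.R155.SmallIdeal
import Crest.Agent.R155.ProdDim

/-!
R155, Part R, task CoverSmall: cover property of minimal blocks by small ideals.

Proof. `X ≤ K` nonzero left invariant with `dim X ≤ dim W < y^8` (`MinBi.exists_left`).
`e_i = cvH (jj i) (idem (smallIdeal H (2y-1)))` are commuting projections. Let
`X₀ = {u ∈ X | ∀ i, e_i u = 0}`; it is invariant under all `lt (jj i h)` (`e_i` commutes with
`lt (jj i h)` because `smallIdeal` is bi-invariant, and with `lt (jj i' h)` by `hcomm`). If `X₀ ≠ ⊥`: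
a nonzero subspace `U` of `X₀` invariant under the `lt (jj i h)` of dimension `≤ 2y-1` would have
`e_i = 1` on it, contradiction; so `real_dim_pow_of_commuting` gives `y^8 ≤ dim X₀ ≤ dim X < y^8`.
So `X₀ = ⊥`. If `v ∈ K` and all `e_i v = 0`, then for every `b`, `pr X (rt b⁻¹ v) ∈ X₀ = ⊥`, so
`v ⟂ rt b X` for all `b`; by minimality of `K` the orthogonal complement of all `rt b X` in `K` is `⊥`.
-/

set_option autoImplicit false
set_option linter.unusedSectionVars false
set_option linter.unusedVariables false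

namespace Crest.Agent.R155

open Finset Equiv

variable {G : Type} [Group G] [Fintype G] [DecidableEq G]
variable {H : Type} [Group H] [Fintype H] [DecidableEq H]

/-- convolution along `j` by the idempotent of a bi-invariant ideal commutes with the translations
by elements of the range of `j`. -/
theorem CoverSmall.cvH_idem_lt (j : H →* G) {I : Submodule ℝ (L2 H)} (hI : BiInv I) (h : H)
    (u : L2 G) : cvH j (idem I) (lt (j h) u) = lt (j h) (cvH j (idem I) u) := by
  apply ext_res j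
  intro g
  rw [res_cvH_idem j hI.2, res_lt, pr_lt hI.1, res_lt, res_cvH_idem j hI.2]

theorem CoverSmall.cvH_lt_comm (j : H →* G) (e : H → ℝ) (a : G) (ha : ∀ h, j h * a = a * j h)
    (u : L2 G) : cvH j e (lt a u) = lt a (cvH j e u) := by
  simp only [cvH_apply', map_sum, map_smul]
  refine Finset.sum_congr rfl fun h _ => ?_
  rw [← lt_mul, ← lt_mul, ha]

/-- the part of `K` orthogonal to all right translates of a nonzero `X ≤ K` vanishes. -/
theorem CoverSmall.eq_zero_of_orth {K : Submodule ℝ (L2 G)} (hK : MinBi K)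
    {X : Submodule ℝ (L2 G)} (hXK : X ≤ K) (hX : InvL X) (hne : X ≠ ⊥) (v : L2 G) (hv : v ∈ K)
    (h : ∀ b : G, ∀ x ∈ X, inner ℝ v (rt b x) = 0) : v = 0 := by
  let N : Submodule ℝ (L2 G) :=
    { carrier := {w | w ∈ K ∧ ∀ b : G, ∀ x ∈ X, inner ℝ w (rt b x) = 0}
      add_mem' := by
        rintro a b ⟨ha, ha'⟩ ⟨hb, hb'⟩
        refine ⟨K.add_mem ha hb, fun c x hx => ?_⟩
        rw [inner_add_left, ha' c x hx, hb' c x hx, add_zero]
      zero_mem' := ⟨K.zero_mem, fun c x hx => inner_zero_left _⟩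
      smul_mem' := by
        rintro c a ⟨ha, ha'⟩
        refine ⟨K.smul_mem c ha, fun b x hx => ?_⟩
        rw [inner_smul_left, ha' b x hx, mul_zero] }
  have hN : ∀ w, w ∈ N ↔ w ∈ K ∧ ∀ b : G, ∀ x ∈ X, inner ℝ w (rt b x) = 0 := fun w => Iff.rfl
  have hNK : N ≤ K := fun w hw => hw.1
  have hL : InvL N := by
    intro a w hw
    rw [hN] at hw ⊢
    refine ⟨hK.1.1 a w hw.1, fun b x hx => ?_⟩
    rw [inner_lt, lt_rt]
    exact hw.2 b _ (hX _ _ hx)
  have hR : InvR N := by
    intro a w hw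
    rw [hN] at hw ⊢
    refine ⟨hK.1.2 a w hw.1, fun b x hx => ?_⟩
    rw [inner_rt, ← rt_mul]
    exact hw.2 _ x hx
  rcases hK.2.2 N hNK ⟨hL, hR⟩ with h1 | h1
  · have : v ∈ N := (hN v).2 ⟨hv, h⟩
    rw [h1] at this
    exact (Submodule.mem_bot ℝ).1 this
  · exfalso
    apply hne
    rw [Submodule.eq_bot_iff]
    intro x hx
    have hxN : x ∈ N := by rw [h1]; exact hXK hx
    have := hxN.2 1 x hx
    rw [rt_one] at this
    exact inner_self_eq_zero.1 this

theorem small_cover (jj : Fin 8 → (H →* G))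
    (hcomm : ∀ i i', i ≠ i' → ∀ h h', jj i h * jj i' h' = jj i' h' * jj i h)
    (K : Submodule ℝ (L2 G)) (hK : MinBi K) (W : Submodule ℝ (L2 G)) (hWK : W ≤ K)
    (hW : InvR W) (hne : W ≠ ⊥) (y : ℕ) (hy : Module.finrank ℝ W < y ^ 8)
    (v : L2 G) (hv : v ∈ K)
    (h0 : ∀ i, cvH (jj i) (idem (smallIdeal H (2 * y - 1))) v = 0) : v = 0 := by
  obtain ⟨X, hXK, hX, hXne, hXdim⟩ := hK.exists_left hWK hW hne
  set I : Submodule ℝ (L2 H) := smallIdeal H (2 * y - 1) with hI
  have hIbi : BiInv I := smallIdeal_biInv _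
  -- the common kernel inside `X`
  set X₀ : Submodule ℝ (L2 G) := X ⊓ ⨅ i, LinearMap.ker (cvH (jj i) (idem I)) with hX₀
  have memX₀ : ∀ u, u ∈ X₀ ↔ u ∈ X ∧ ∀ i, cvH (jj i) (idem I) u = 0 := by
    intro u
    simp [hX₀, Submodule.mem_inf, Submodule.mem_iInf]
  have inv₀ : ∀ i h, ∀ u ∈ X₀, lt (jj i h) u ∈ X₀ := by
    intro i h u hu
    rw [memX₀] at hu ⊢
    refine ⟨hX _ _ hu.1, fun i' => ?_⟩
    by_cases hii : i' = i
    · subst hii
      rw [CoverSmall.cvH_idem_lt _ hIbi, hu.2, map_zero]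
    · rw [CoverSmall.cvH_lt_comm _ _ _ (fun h' => hcomm i' i hii h' h), hu.2, map_zero]
  have hbot : X₀ = ⊥ := by
    by_contra hne0
    have : Nontrivial X₀ := Submodule.nontrivial_iff_ne_bot.2 hne0
    -- the operators
    let A : Fin 8 → Set (X₀ →ₗ[ℝ] X₀) := fun i =>
      Set.range (fun h : H => (((lt (jj i h)).toLinearEquiv : L2 G →ₗ[ℝ] L2 G).restrict
        (inv₀ i h)))
    have hA : ∀ i i', i ≠ i' → ∀ x ∈ A i, ∀ y ∈ A i', ∀ v, x (y v) = y (x v) := by
      rintro i i' hii _ ⟨h, rfl⟩ _ ⟨h', rfl⟩ v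
      apply Subtype.ext
      simp only [LinearMap.restrict_apply]
      change lt (jj i h) (lt (jj i' h') (v : L2 G)) = lt (jj i' h') (lt (jj i h) (v : L2 G))
      rw [← lt_mul, ← lt_mul, hcomm i i' hii]
    have hdim := real_dim_pow_of_commuting A hA y (by
      intro i U hU hUne
      by_contra hlt
      push Not at hlt
      apply hUne
      rw [Submodule.eq_bot_iff]
      intro u hu
      have hfix := cvH_idem_smallIdeal (jj i) (2 * y - 1) (U.map X₀.subtype) (by
        rintro h _ ⟨w, hw, rfl⟩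
        exact ⟨_, hU _ ⟨h, rfl⟩ w hw, rfl⟩) (by
        rw [Submodule.finrank_map_subtype_eq]
        omega) (u : L2 G) ⟨u, hu, rfl⟩
      have hz := ((memX₀ (u : L2 G)).1 u.2).2 i
      rw [← hI, hz] at hfix
      exact Subtype.ext hfix.symm)
    have h1 : Module.finrank ℝ X₀ ≤ Module.finrank ℝ X :=
      Submodule.finrank_mono inf_le_left
    omega
  apply CoverSmall.eq_zero_of_orth hK hXK hX hXne v hv
  intro b x hx
  have h1 : inner ℝ v (rt b x) = inner ℝ (rt b⁻¹ v) x := by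
    rw [inner_rt, inv_inv]
  have h2 : pr X (rt b⁻¹ v) ∈ X₀ := by
    rw [memX₀]
    refine ⟨pr_mem _ _, fun i => ?_⟩
    rw [← pr_cvH hX, cvH_rt, h0 i, map_zero, map_zero]
  rw [hbot, Submodule.mem_bot] at h2
  rw [h1, ← pr_of_mem hx, ← inner_pr_left, h2, inner_zero_left]

end Crest.Agent.R155
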