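import Mathlib

/-!
R155 (Thorp shuffle), Part R: definitions for analysis on `L²(G)`, `G` a finite group.
-/

set_option autoImplicit false
set_option linter.unusedSectionVars false
set_option linter.unusedSimpArgs false
set_option linter.unusedVariables false

namespace Crest.Agent.R155

open Finset Equiv

section L2
variable {G : Type} [Group G] [Fintype G] [DecidableEq G]
variable {H : Type} [Group H] [Fintype H] [DecidableEq H]

/-- Real functions on a finite type with the (unnormalised) `ℓ²` inner product. -/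
abbrev L2 (G : Type) [Fintype G] : Type := EuclideanSpace ℝ G

/-- The point mass at `g`. -/
noncomputable def dl (g : G) : L2 G := EuclideanSpace.single g (1 : ℝ)

/-- Left translation `(lt a f) g = f (a⁻¹ * g)`. -/
noncomputable def lt (a : G) : L2 G ≃ₗᵢ[ℝ] L2 G :=
  LinearIsometryEquiv.piLpCongrLeft 2 ℝ ℝ (Equiv.mulLeft a)

/-- Right translation `(rt b f) g = f (g * b)`. -/
noncomputable def rt (b : G) : L2 G ≃ₗᵢ[ℝ] L2 G :=
  LinearIsometryEquiv.piLpCongrLeft 2 ℝ ℝ (Equiv.mulRight b⁻¹)

/-- `K` is invariant under all left translations. -/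
def InvL (K : Submodule ℝ (L2 G)) : Prop := ∀ a : G, ∀ f ∈ K, lt a f ∈ K

/-- `K` is invariant under all right translations. -/
def InvR (K : Submodule ℝ (L2 G)) : Prop := ∀ b : G, ∀ f ∈ K, rt b f ∈ K

/-- `K` is invariant under all left and right translations. -/
def BiInv (K : Submodule ℝ (L2 G)) : Prop := InvL K ∧ InvR K

/-- Minimal nonzero bi-invariant subspace. -/
def MinBi (K : Submodule ℝ (L2 G)) : Prop :=
  BiInv K ∧ K ≠ ⊥ ∧ ∀ K' : Submodule ℝ (L2 G), K' ≤ K → BiInv K' → K' = ⊥ ∨ K' = K

/-- Left convolution by a function `e` on `H`, transported by a homomorphism `j : H →* G`: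
`cvH j e f = ∑ h, e h • lt (j h) f`. -/
noncomputable def cvH (j : H →* G) (e : H → ℝ) : L2 G →ₗ[ℝ] L2 G :=
  ∑ h : H, e h • ((lt (j h)).toLinearEquiv : L2 G →ₗ[ℝ] L2 G)

/-- Left convolution by a function on `G` itself. -/
noncomputable def cv (F : G → ℝ) : L2 G →ₗ[ℝ] L2 G := cvH (MonoidHom.id G) F

/-- Orthogonal projection onto `K`. -/
noncomputable def pr (K : Submodule ℝ (L2 G)) : L2 G →ₗ[ℝ] L2 G :=
  (K.starProjection : L2 G →L[ℝ] L2 G)

/-- The "identity element" of a bi-invariant subspace `I`: the projection of the point mass at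
`1` onto `I`, as a function. -/
noncomputable def idem (I : Submodule ℝ (L2 H)) : H → ℝ := fun h => (pr I (dl 1)) h

/-- `j` conjugated by `g`. -/
def cj (g : G) (j : H →* G) : H →* G := (MulAut.conj g).toMonoidHom.comp j

/-- Restriction of `f ∈ L²(G)` to the right coset `j(H) g`, as a function on `H`. -/
noncomputable def res (j : H →* G) (g : G) : L2 G →ₗ[ℝ] L2 H where
  toFun f := WithLp.toLp 2 (fun h => f (j h * g))
  map_add' f f' := by ext h; simp
  map_smul' c f := by ext h; simp

/-- Sum of all left invariant subspaces of dimension at most `x`. -/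
noncomputable def smallIdeal (H : Type) [Group H] [Fintype H] (x : ℕ) : Submodule ℝ (L2 H) :=
  sSup {U : Submodule ℝ (L2 H) | InvL U ∧ Module.finrank ℝ U ≤ x}

end L2

section Juntas
variable (α : Type) [Fintype α] [DecidableEq α]

/-- Indicator of `{g | g (a i) = b i for all i}`. -/
noncomputable def jf {α : Type} [Fintype α] [DecidableEq α] {k : ℕ} (a b : Fin k ↪ α) :
    L2 (Perm α) :=
  WithLp.toLp 2 (fun g => if ∀ i, g (a i) = b i then (1 : ℝ) else 0)

/-- Span of the indicators of `g ∘ a = b` for `k`-tuples. -/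
noncomputable def junta (k : ℕ) : Submodule ℝ (L2 (Perm α)) :=
  Submodule.span ℝ (Set.range (fun p : (Fin k ↪ α) × (Fin k ↪ α) => jf p.1 p.2))

/-- Multiplication by the sign character. -/
noncomputable def sgnMul : L2 (Perm α) →ₗ[ℝ] L2 (Perm α) where
  toFun f := WithLp.toLp 2 (fun g => ((Equiv.Perm.sign g : ℤ) : ℝ) * f g)
  map_add' f f' := by ext h; simp [mul_add]
  map_smul' c f := by ext h; simp [mul_left_comm]

/-- Sign times juntas. -/
noncomputable def sjunta (k : ℕ) : Submodule ℝ (L2 (Perm α)) := (junta α k).map (sgnMul α)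

/-- Level `k` : `k`-juntas orthogonal to `(k-1)`-juntas. -/
noncomputable def lev (k : ℕ) : Submodule ℝ (L2 (Perm α)) := junta α k ⊓ (junta α (k-1))ᗮ

end Juntas

theorem force_eqnsR : True := by
  have := @cj.eq_1
  have := @lt.eq_1
  have := @rt.eq_1
  have := @dl.eq_1
  have := @cvH.eq_1
  have := @cv.eq_1
  have := @pr.eq_1
  have := @idem.eq_1
  have := @res.eq_1
  have := @jf.eq_1
  have := @junta.eq_1
  have := @sgnMul.eq_1
  have := @sjunta.eq_1
  have := @lev.eq_1
  have := @smallIdeal.eq_1
  have := @InvL.eq_1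
  have := @InvR.eq_1
  have := @BiInv.eq_1
  have := @MinBi.eq_1
  trivial

end Crest.Agent.R155
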