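import Crest.Agent.R155.Junta

/-!
R155, Part R, task Embeds: symmetric groups of an eighth of the points inside `Perm α`;
covering of juntas.
-/

set_option autoImplicit false
set_option linter.unusedSectionVars false
set_option linter.unusedVariables false

namespace Crest.Agent.R155

open Finset Equiv

section
variable {α : Type} [Fintype α] [DecidableEq α]

/-- `Perm (Fin r)` inside `Perm α` along an embedding. -/
noncomputable abbrev via {r : ℕ} (ι : Fin r ↪ α) : Perm (Fin r) →* Perm α :=
  Equiv.Perm.viaEmbeddingHom ι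

theorem via_apply {r : ℕ} (ι : Fin r ↪ α) (h : Perm (Fin r)) (x : Fin r) :
    via ι h (ι x) = ι (h x) := by
  rw [via, Equiv.Perm.viaEmbeddingHom_apply, Equiv.Perm.viaEmbedding_apply]

theorem via_apply_of {r : ℕ} (ι : Fin r ↪ α) (h : Perm (Fin r)) (x : α) (hx : x ∉ Set.range ι) :
    via ι h x = x := by
  rw [via, Equiv.Perm.viaEmbeddingHom_apply, Equiv.Perm.viaEmbedding_apply_of_notMem _ _ _ hx]

theorem cj_via {r : ℕ} (ι : Fin r ↪ α) (a : Perm α) :
    cj a (via ι) = via (ι.trans a.toEmbedding) := by
  apply MonoidHom.ext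
  intro h
  apply Equiv.ext
  intro x
  have e1 : cj a (via ι) h x = a (via ι h (a⁻¹ x)) := by
    simp [cj, MulAut.conj_apply, Equiv.Perm.mul_apply]
  rw [e1]
  by_cases hx : x ∈ Set.range (ι.trans a.toEmbedding)
  · obtain ⟨y, rfl⟩ := hx
    rw [via_apply]
    have : a⁻¹ ((ι.trans a.toEmbedding) y) = ι y := by simp
    rw [this, via_apply]
    rfl
  · rw [via_apply_of _ _ _ hx, via_apply_of]
    · simp
    · rintro ⟨y, hy⟩
      apply hx
      refine ⟨y, ?_⟩
      simp [hy]

theorem via_injective {r : ℕ} (ι : Fin r ↪ α) : Function.Injective (via ι) :=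
  Equiv.Perm.viaEmbeddingHom_injective ι

/-- ranges disjoint implies commuting -/
theorem via_comm {r : ℕ} (ι ι' : Fin r ↪ α) (hd : ∀ x y, ι x ≠ ι' y) (h h' : Perm (Fin r)) :
    via ι h * via ι' h' = via ι' h' * via ι h := by
  apply Equiv.ext
  intro x
  rw [Equiv.Perm.mul_apply, Equiv.Perm.mul_apply]
  by_cases hx : x ∈ Set.range ι
  · obtain ⟨y, rfl⟩ := hx
    have h1 : ∀ z : Fin r, ι z ∉ Set.range ι' := by
      rintro z ⟨w, hw⟩
      exact hd z w hw.symm
    rw [via_apply_of _ _ _ (h1 y), via_apply, via_apply_of _ _ _ (h1 _)]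
  · rw [via_apply_of ι h x hx]
    by_cases hx' : x ∈ Set.range ι'
    · obtain ⟨y, rfl⟩ := hx'
      have h1 : ∀ z : Fin r, ι' z ∉ Set.range ι := by
        rintro z ⟨w, hw⟩
        exact hd w z hw
      rw [via_apply, via_apply_of _ _ _ (h1 _)]
    · rw [via_apply_of ι' h' x hx', via_apply_of ι h x hx]

/-- a partition of `α` in eight parts of size `r`, all translates of one. -/
theorem exists_parts {r : ℕ} (h : Fintype.card α = 8 * r) :
    ∃ (ι : Fin r ↪ α) (a : Fin 8 → Perm α), ∀ i i', i ≠ i' → ∀ x y, a i (ι x) ≠ a i' (ι y) := by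
  have hc : Fintype.card (Fin 8 × Fin r) = Fintype.card α := by
    simp [h]
  let e : Fin 8 × Fin r ≃ α := Fintype.equivOfCardEq hc
  refine ⟨⟨fun x => e (0, x), fun x y hxy => ?_⟩, fun i =>
    (e.symm.trans (((Equiv.addRight i : Fin 8 ≃ Fin 8)).prodCongr (Equiv.refl (Fin r)))).trans e, ?_⟩
  · have := e.injective hxy
    simpa using this
  · intro i i' hii x y hxy
    apply hii
    have h1 : e (0 + i, x) = e (0 + i', y) := by
      simpa using hxy
    have h2 := e.injective h1
    simpa using (Prod.ext_iff.1 h2).1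

/-- Cover property of juntas. Proof: it suffices `⟪v, jf a b⟫ = 0`. For some `i` at most `k/8` of the
`b t` are in `range (ι i)` (pigeonhole); then every `res (via (ι i)) g (jf a b)` is `0` or the
indicator of a partial assignment of size `≤ k/8`, so in `junta (Fin r) (k/8)`, so
`cvH _ (idem _) (jf a b) = jf a b` by `cvH_idem_of_res`, and
`⟪v, jf a b⟫ = ⟪v, P jf a b⟫ = ⟪P v, jf a b⟫ = 0`. -/
theorem junta_cover {r k : ℕ} (hcard : Fintype.card α = 8 * r) (ι : Fin 8 → (Fin r ↪ α))
    (hdisj : ∀ i i', i ≠ i' → ∀ x y, ι i x ≠ ι i' y) (v : L2 (Perm α)) (hv : v ∈ junta α k)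
    (h0 : ∀ i, cvH (via (ι i)) (idem (junta (Fin r) (k / 8))) v = 0) : v = 0 := by
  classical
  -- it suffices that `v` is orthogonal to all generators
  have key : ∀ a b : Fin k ↪ α, inner ℝ v (jf a b) = 0 := by
    intro a b
    have hk : k ≤ 8 * r := by
      have := Fintype.card_le_of_embedding b
      simpa [hcard] using this
    -- pigeonhole
    obtain ⟨i, hi⟩ : ∃ i : Fin 8,
        (Finset.univ.filter fun y : Fin r => ι i y ∈ Set.range b).card ≤ k / 8 := by
      by_contra hcon
      push Not at hcon
      have h1 : ∑ i : Fin 8, (Finset.univ.filter fun y : Fin r => ι i y ∈ Set.range b).card ≤ k := by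
        let f : (Σ i : Fin 8, {y : Fin r // ι i y ∈ Set.range b}) → Fin k :=
          fun p => p.2.2.choose
        have hf : ∀ p, b (f p) = ι p.1 p.2.1 := fun p => p.2.2.choose_spec
        have hinj : Function.Injective f := by
          rintro ⟨i, y, hy⟩ ⟨i', y', hy'⟩ hpq
          have e1 := hf ⟨i, y, hy⟩
          have e2 := hf ⟨i', y', hy'⟩
          rw [hpq, e2] at e1
          by_cases hii : i = i'
          · subst hii
            have := (ι i).injective e1
            dsimp only at this
            subst this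
            rfl
          · exact absurd e1.symm (hdisj i i' hii _ _)
        have := Fintype.card_le_of_injective f hinj
        rw [Fintype.card_sigma, Fintype.card_fin] at this
        simpa [Fintype.card_subtype] using this
      have h2 : 8 * (k / 8 + 1) ≤
          ∑ i : Fin 8, (Finset.univ.filter fun y : Fin r => ι i y ∈ Set.range b).card := by
        have : ∑ i : Fin 8, (k / 8 + 1) ≤
          ∑ i : Fin 8, (Finset.univ.filter fun y : Fin r => ι i y ∈ Set.range b).card :=
          Finset.sum_le_sum fun i _ => hcon i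
        simpa using this
      omega
    -- a superset of size exactly `k / 8`
    obtain ⟨u, hu1, hu2, hu3⟩ := Finset.exists_subsuperset_card_eq
      (Finset.subset_univ (Finset.univ.filter fun y : Fin r => ι i y ∈ Set.range b)) hi
      (by simp only [Finset.card_univ, Fintype.card_fin]; omega)
    let c : Fin (k / 8) ↪ Fin r := (u.orderEmbOfFin hu3).toEmbedding
    have hc : ∀ y : Fin r, ι i y ∈ Set.range b → ∃ t, c t = y := by
      intro y hy
      have : y ∈ u := hu1 (by simpa using hy)
      have h3 : y ∈ Set.range (u.orderEmbOfFin hu3) := by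
        rw [Finset.range_orderEmbOfFin]; exact this
      exact h3
    have hfix : ∀ g : Perm α, res (via (ι i)) g (jf a b) ∈ junta (Fin r) (k / 8) := by
      intro g
      apply mem_junta_of_fixL c
      intro h hh
      rw [← res_lt, lt_jf]
      congr 2
      ext t
      by_cases ht : b t ∈ Set.range (ι i)
      · obtain ⟨y, hy⟩ := ht
        obtain ⟨s, hs⟩ := hc y ⟨t, hy.symm⟩
        have : (b.trans (via (ι i) h).toEmbedding) t = via (ι i) h (b t) := rfl
        rw [this, ← hy, via_apply, ← hs, hh s]
      · have : (b.trans (via (ι i) h).toEmbedding) t = via (ι i) h (b t) := rfl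
        rw [this, via_apply_of _ _ _ ht]
    have hP : cvH (via (ι i)) (idem (junta (Fin r) (k / 8))) (jf a b) = jf a b :=
      cvH_idem_of_res _ (junta_biInv _).2 hfix
    rw [← hP, ← inner_cvH_idem _ (junta_biInv _).1, h0 i, inner_zero_left]
  have hall : ∀ w ∈ junta α k, inner ℝ v w = 0 := by
    intro w hw
    refine Submodule.span_induction (p := fun w _ => inner ℝ v w = 0) ?_ ?_ ?_ ?_ hw
    · rintro _ ⟨p, rfl⟩
      exact key p.1 p.2
    · simp
    · intro x y _ _ hx hy
      rw [inner_add_right, hx, hy, add_zero]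
    · intro c x _ hx
      rw [inner_smul_right, hx, mul_zero]
  have := hall v hv
  exact inner_self_eq_zero.1 this

end

end Crest.Agent.R155
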