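import Crest.Agent.R155.BasicR

/-!
R155, Part R, task Family: random family of conjugates and the telescoping bound.
-/

set_option autoImplicit false
set_option linter.unusedSectionVars false
set_option linter.unusedVariables false

namespace Crest.Agent.R155

open Finset Equiv

/-! ### abstract facts on commuting projections -/

section abstract_proj
variable {V : Type*} [NormedAddCommGroup V] [InnerProductSpace ℝ V]

theorem proj_pythag (P : V →ₗ[ℝ] V) (hid : ∀ v, P (P v) = P v)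
    (hsym : ∀ v w, inner ℝ (P v) w = inner ℝ v (P w)) (v : V) :
    ‖v‖ ^ 2 = ‖P v‖ ^ 2 + ‖v - P v‖ ^ 2 := by
  have h : inner ℝ (P v) (v - P v) = 0 := by
    rw [hsym, map_sub, hid, sub_self, inner_zero_right]
  have h2 := norm_add_sq_real (P v) (v - P v)
  rw [h, add_sub_cancel] at h2
  linarith

/-- The composition of `1 - P_i` over a list. -/
noncomputable def prodCompl {ι : Type*} (P : ι → V →ₗ[ℝ] V) : List ι → V → V
  | [], v => v
  | i :: l, v => prodCompl P l v - P i (prodCompl P l v)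

variable {ι : Type*} (P : ι → V →ₗ[ℝ] V)

theorem prodCompl_comm {i : ι} (l : List ι) (hc : ∀ i' ∈ l, ∀ v, P i (P i' v) = P i' (P i v))
    (v : V) : P i (prodCompl P l v) = prodCompl P l (P i v) := by
  induction l with
  | nil => rfl
  | cons i' l ih =>
    simp only [prodCompl]
    have ih' := ih (fun i'' h => hc i'' (List.mem_cons_of_mem _ h))
    rw [map_sub, hc i' List.mem_cons_self, ih']

theorem norm_prodCompl_le (hid : ∀ i v, P i (P i v) = P i v)
    (hsym : ∀ i v w, inner ℝ (P i v) w = inner ℝ v (P i w)) (l : List ι) (v : V) :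
    ‖prodCompl P l v‖ ≤ ‖v‖ := by
  induction l with
  | nil => exact le_rfl
  | cons i l ih =>
    simp only [prodCompl]
    refine le_trans ?_ ih
    have := proj_pythag (P i) (hid i) (hsym i) (prodCompl P l v)
    have h1 : ‖prodCompl P l v - P i (prodCompl P l v)‖ ^ 2 ≤ ‖prodCompl P l v‖ ^ 2 := by
      nlinarith [sq_nonneg ‖P i (prodCompl P l v)‖]
    exact (pow_le_pow_iff_left₀ (norm_nonneg _) (norm_nonneg _) two_ne_zero).1 h1

theorem norm_sq_le_prodCompl (hid : ∀ i v, P i (P i v) = P i v)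
    (hsym : ∀ i v w, inner ℝ (P i v) w = inner ℝ v (P i w))
    (hcomm : ∀ i i', i ≠ i' → ∀ v, P i (P i' v) = P i' (P i v)) (l : List ι) (hl : l.Nodup)
    (v : V) : ‖v‖ ^ 2 ≤ (l.map (fun i => ‖P i v‖ ^ 2)).sum + ‖prodCompl P l v‖ ^ 2 := by
  induction l with
  | nil => simp [prodCompl]
  | cons i l ih =>
    rw [List.nodup_cons] at hl
    have ih' := ih hl.2
    have h1 := proj_pythag (P i) (hid i) (hsym i) (prodCompl P l v)
    have h2 : P i (prodCompl P l v) = prodCompl P l (P i v) :=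
      prodCompl_comm P l (fun i' hi' => hcomm i i' (fun h => hl.1 (h ▸ hi'))) v
    have h3 : ‖prodCompl P l (P i v)‖ ^ 2 ≤ ‖P i v‖ ^ 2 :=
      pow_le_pow_left₀ (norm_nonneg _) (norm_prodCompl_le P hid hsym l _) 2
    simp only [prodCompl, List.map_cons, List.sum_cons]
    rw [← h2] at h3
    linarith

theorem prodCompl_kill (hid : ∀ i v, P i (P i v) = P i v)
    (hcomm : ∀ i i', i ≠ i' → ∀ v, P i (P i' v) = P i' (P i v)) (l : List ι) (v : V) {i : ι}
    (hi : i ∈ l) : P i (prodCompl P l v) = 0 := by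
  classical
  induction l with
  | nil => simp at hi
  | cons i' l ih =>
    simp only [prodCompl]
    by_cases h : i = i'
    · subst h
      rw [map_sub, hid, sub_self]
    · have hi' : i ∈ l := by
        rcases List.mem_cons.1 hi with h' | h'
        · exact absurd h' h
        · exact h'
      rw [map_sub, hcomm i i' h, ih hi', map_zero, sub_zero]

theorem prodCompl_mem (K : Submodule ℝ V) (hK : ∀ i, ∀ v ∈ K, P i v ∈ K) (l : List ι) (v : V)
    (hv : v ∈ K) : prodCompl P l v ∈ K := by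
  induction l with
  | nil => exact hv
  | cons i l ih => exact K.sub_mem ih (hK i _ ih)

/-- Union bound for commuting projections with no common kernel on `K`. -/
theorem norm_sq_le_sum_of_kill [Fintype ι] (hid : ∀ i v, P i (P i v) = P i v)
    (hsym : ∀ i v w, inner ℝ (P i v) w = inner ℝ v (P i w))
    (hcomm : ∀ i i', i ≠ i' → ∀ v, P i (P i' v) = P i' (P i v))
    (K : Submodule ℝ V) (hK : ∀ i, ∀ v ∈ K, P i v ∈ K)
    (hkill : ∀ v ∈ K, (∀ i, P i v = 0) → v = 0) (v : V) (hv : v ∈ K) :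
    ‖v‖ ^ 2 ≤ ∑ i, ‖P i v‖ ^ 2 := by
  have h1 := norm_sq_le_prodCompl P hid hsym hcomm (Finset.univ : Finset ι).toList
    (Finset.nodup_toList _) v
  have h2 : prodCompl P (Finset.univ : Finset ι).toList v = 0 := by
    apply hkill _ (prodCompl_mem P K hK _ v hv)
    intro i
    exact prodCompl_kill P hid hcomm _ v (by simp)
  rw [h2, norm_zero, Finset.sum_map_toList] at h1
  simpa using h1

end abstract_proj

section
variable {G : Type} [Group G] [Fintype G] [DecidableEq G]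
variable {H : Type} [Group H] [Fintype H] [DecidableEq H]

/-- conjugation: `cvH (cj g j) e = lt g ∘ cvH j e ∘ lt g⁻¹`. -/
theorem cvH_cj (g : G) (j : H →* G) (e : H → ℝ) (f : L2 G) :
    cvH (cj g j) e f = lt g (cvH j e (lt g⁻¹ f)) := by
  rw [cvH_apply', cvH_apply', map_sum]
  refine Finset.sum_congr rfl fun h _ => ?_
  rw [map_smul, ← lt_mul, ← lt_mul]
  rfl

theorem cj_cj (g a : G) (j : H →* G) : cj g (cj a j) = cj (g * a) j := by
  ext h
  simp [cj, mul_assoc]

/-- Eight commuting conjugates `P_i` of the projection `cvH j (idem I)` such that no nonzero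
vector of `K` is killed by all of them: then on average over all conjugates
`‖P_g v‖² ≥ ‖v‖²/8`.
Proof: `w = ∏ (1 - P_i) v ∈ K` is killed by all `P_i`, so `w = 0`, so (commuting orthogonal
projections, union bound) `‖v‖² ≤ ∑_i ‖P_i v‖²` for all `v ∈ K`; apply this to `lt g⁻¹ v` and sum
over `g` (`‖P_i (lt g⁻¹ v)‖ = ‖P_{g a_i} v‖`). -/
theorem cover_of_commuting (j : H →* G) (a : Fin 8 → G)
    (hcomm : ∀ i i', i ≠ i' → ∀ h h', cj (a i) j h * cj (a i') j h' = cj (a i') j h' * cj (a i) j h)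
    (K : Submodule ℝ (L2 G)) (hK : InvL K) (I : Submodule ℝ (L2 H)) (hI : BiInv I)
    (hkill : ∀ v ∈ K, (∀ i, cvH (cj (a i) j) (idem I) v = 0) → v = 0) (v : L2 G) (hv : v ∈ K) :
    (Fintype.card G : ℝ) * ‖v‖ ^ 2 ≤ 8 * ∑ g : G, ‖cvH (cj g j) (idem I) v‖ ^ 2 := by
  have key : ∀ g : G, ‖v‖ ^ 2 ≤ ∑ i : Fin 8, ‖cvH (cj (g * a i) j) (idem I) v‖ ^ 2 := by
    intro g
    have h1 := norm_sq_le_sum_of_kill (fun i : Fin 8 => cvH (cj (a i) j) (idem I))
      (fun i v => cvH_idem_idem _ hI.2 v) (fun i v w => inner_cvH_idem _ hI.1 v w)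
      (fun i i' hii' v => cvH_comm _ _ (hcomm i i' hii') _ _ v) K
      (fun i v hv => cvH_mem hK _ _ hv) hkill (lt g⁻¹ v) (hK _ _ hv)
    rw [norm_lt] at h1
    refine h1.trans (le_of_eq ?_)
    refine Finset.sum_congr rfl fun i _ => ?_
    rw [← cj_cj, cvH_cj g (cj (a i) j), norm_lt]
  calc (Fintype.card G : ℝ) * ‖v‖ ^ 2 = ∑ _g : G, ‖v‖ ^ 2 := by simp
    _ ≤ ∑ g : G, ∑ i : Fin 8, ‖cvH (cj (g * a i) j) (idem I) v‖ ^ 2 :=
        Finset.sum_le_sum fun g _ => key g
    _ = ∑ i : Fin 8, ∑ g : G, ‖cvH (cj (g * a i) j) (idem I) v‖ ^ 2 := Finset.sum_comm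
    _ = ∑ _i : Fin 8, ∑ g : G, ‖cvH (cj g j) (idem I) v‖ ^ 2 := by
        refine Finset.sum_congr rfl fun i _ => ?_
        exact Equiv.sum_comp (Equiv.mulRight (a i)) (fun g => ‖cvH (cj g j) (idem I) v‖ ^ 2)
    _ = _ := by simp

/-- Averaging over one more random conjugate. -/
theorem exists_conj_step (j : H →* G) {C : Type} [Fintype C] (K : C → Submodule ℝ (L2 G))
    (I : C → Submodule ℝ (L2 H)) (hI : ∀ c, BiInv (I c)) (N : C → ℕ)
    (hcov : ∀ c, ∀ v ∈ K c,
      (Fintype.card G : ℝ) * ‖v‖ ^ 2 ≤ 8 * ∑ g : G, ‖cvH (cj g j) (idem (I c)) v‖ ^ 2)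
    (n : ℕ) {J : C → Type} [∀ c, Fintype (J c)] (u : ∀ c, J c → L2 G)
    (hu : ∀ c i, u c i ∈ K c) :
    ∃ x : G, ∑ c, 4 * (7 / 8 : ℝ) ^ (N c - (n + 1)) *
        (∑ i, ‖if n < N c then u c i - cvH (cj x j) (idem (I c)) (u c i) else u c i‖ ^ 2) ≤
      ∑ c, 4 * (7 / 8 : ℝ) ^ (N c - n) * (∑ i, ‖u c i‖ ^ 2) := by
  have hcard : (0 : ℝ) < Fintype.card G := by exact_mod_cast Fintype.card_pos
  have hsumle : ∑ x : G, ∑ c, 4 * (7 / 8 : ℝ) ^ (N c - (n + 1)) *
        (∑ i, ‖if n < N c then u c i - cvH (cj x j) (idem (I c)) (u c i) else u c i‖ ^ 2) ≤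
      ∑ x : G, ∑ c, 4 * (7 / 8 : ℝ) ^ (N c - n) * (∑ i, ‖u c i‖ ^ 2) := by
    rw [Finset.sum_comm]
    rw [Finset.sum_comm (s := (Finset.univ : Finset G))]
    apply Finset.sum_le_sum
    intro c _
    by_cases hn : n < N c
    · simp only [hn, if_true]
      rw [← Finset.mul_sum, Finset.sum_comm]
      have hstep : ∀ i, ∑ x : G, ‖u c i - cvH (cj x j) (idem (I c)) (u c i)‖ ^ 2 ≤
          7 / 8 * (Fintype.card G * ‖u c i‖ ^ 2) := by
        intro i
        have h1 : ∀ x : G, ‖u c i - cvH (cj x j) (idem (I c)) (u c i)‖ ^ 2 =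
            ‖u c i‖ ^ 2 - ‖cvH (cj x j) (idem (I c)) (u c i)‖ ^ 2 := by
          intro x
          have := proj_pythag (cvH (cj x j) (idem (I c))) (fun v => cvH_idem_idem _ (hI c).2 v)
            (fun v w => inner_cvH_idem _ (hI c).1 v w) (u c i)
          linarith
        rw [Finset.sum_congr rfl fun x _ => h1 x, Finset.sum_sub_distrib]
        have h2 := hcov c (u c i) (hu c i)
        simp only [Finset.sum_const, Finset.card_univ, nsmul_eq_mul]
        linarith
      have hpow : (7 / 8 : ℝ) ^ (N c - n) = 7 / 8 * (7 / 8 : ℝ) ^ (N c - (n + 1)) := by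
        have : N c - n = (N c - (n + 1)) + 1 := by omega
        rw [this, pow_succ]
        ring
      calc 4 * (7 / 8 : ℝ) ^ (N c - (n + 1)) *
            ∑ i, ∑ x : G, ‖u c i - cvH (cj x j) (idem (I c)) (u c i)‖ ^ 2
          ≤ 4 * (7 / 8 : ℝ) ^ (N c - (n + 1)) *
            ∑ i, 7 / 8 * (Fintype.card G * ‖u c i‖ ^ 2) := by
            apply mul_le_mul_of_nonneg_left _ (by positivity)
            exact Finset.sum_le_sum fun i _ => hstep i
        _ = ∑ x : G, 4 * (7 / 8 : ℝ) ^ (N c - n) * (∑ i, ‖u c i‖ ^ 2) := by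
            rw [← Finset.mul_sum, ← Finset.mul_sum, hpow]
            simp only [Finset.sum_const, Finset.card_univ, nsmul_eq_mul]
            ring
    · have e1 : N c - (n + 1) = N c - n := by omega
      simp only [hn, if_false, e1]
      exact le_rfl
  by_contra hcon
  push Not at hcon
  have := Finset.sum_lt_sum_of_nonempty (s := (Finset.univ : Finset G)) Finset.univ_nonempty
    (fun x _ => hcon x)
  linarith

/-- Existence of one family `g 0, g 1, ...` good for all classes `c` simultaneously.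
Proof: for `Y_N = (1 - P_{g (N-1)}) ⋯ (1 - P_{g 0})` and an orthonormal basis `(v_j)` of `K c`,
averaging over `g : Fin Nmax → G` gives `E ∑_j ‖Y_N v_j‖² ≤ (7/8)^N dim (K c)`; so by `hsum` and
the union bound some family has `∑_j ‖Y_{N c} v_j‖² ≤ 1/4`, hence `‖Y_{N c} v‖ ≤ ‖v‖/2` on `K c`,
for all `c`.  Telescoping: `v = Y_N v + ∑_{i<N} P_{g i} Y_i v`, so with `s` the operator norm of
`T` on `K c`: `s ≤ s/2 + N c * B`. -/
theorem exists_family (j : H →* G) {C : Type} [Fintype C] (K : C → Submodule ℝ (L2 G))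
    (hK : ∀ c, InvL (K c)) (I : C → Submodule ℝ (L2 H)) (hI : ∀ c, BiInv (I c)) (N : C → ℕ)
    (Nmax : ℕ) (hN : ∀ c, N c ≤ Nmax)
    (hcov : ∀ c, ∀ v ∈ K c,
      (Fintype.card G : ℝ) * ‖v‖ ^ 2 ≤ 8 * ∑ g : G, ‖cvH (cj g j) (idem (I c)) v‖ ^ 2)
    (hsum : ∑ c, 4 * (7 / 8 : ℝ) ^ (N c) * (Module.finrank ℝ (K c) : ℝ) < 1) :
    ∃ g : ℕ → G, ∀ c, ∀ (T : L2 G →ₗ[ℝ] L2 G) (B : ℝ),
      (∀ i < N c, ∀ w ∈ K c, ‖T (cvH (cj (g i) j) (idem (I c)) w)‖ ≤ B * ‖w‖) →
      ∀ v ∈ K c, ‖T v‖ ≤ 2 * (N c : ℝ) * B * ‖v‖ := by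
  classical
  -- orthonormal bases
  let b : ∀ c, OrthonormalBasis (Fin (Module.finrank ℝ (K c))) ℝ (K c) :=
    fun c => stdOrthonormalBasis ℝ (K c)
  -- states: a linear endomorphism for every class
  let stp : ℕ → G → (C → (L2 G →ₗ[ℝ] L2 G)) → (C → (L2 G →ₗ[ℝ] L2 G)) := fun n x Y c =>
    if n < N c then Y c - (cvH (cj x j) (idem (I c))) ∘ₗ Y c else Y c
  let Φ : ℕ → (C → (L2 G →ₗ[ℝ] L2 G)) → ℝ := fun n Y =>
    ∑ c, 4 * (7 / 8 : ℝ) ^ (N c - n) * (∑ i, ‖Y c (b c i : L2 G)‖ ^ 2)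
  let good : (C → (L2 G →ₗ[ℝ] L2 G)) → Prop := fun Y => ∀ c, ∀ v ∈ K c, Y c v ∈ K c ∧ ‖Y c v‖ ≤ ‖v‖
  have hchoice : ∀ (n : ℕ) (Y : C → (L2 G →ₗ[ℝ] L2 G)), ∃ x : G,
      good Y → Φ (n + 1) (stp n x Y) ≤ Φ n Y := by
    intro n Y
    by_cases hY : good Y
    · obtain ⟨x, hx⟩ := exists_conj_step j K I hI N hcov n
        (J := fun c => Fin (Module.finrank ℝ (K c))) (fun c i => Y c (b c i : L2 G))
        (fun c i => (hY c _ (b c i).2).1)
      refine ⟨x, fun _ => ?_⟩
      refine le_trans (le_of_eq ?_) hx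
      refine Finset.sum_congr rfl fun c _ => ?_
      congr 1
      refine Finset.sum_congr rfl fun i _ => ?_
      by_cases hn : n < N c
      · simp [stp, hn]
      · simp [stp, hn]
    · exact ⟨1, fun h => absurd h hY⟩
  choose ch hch using hchoice
  let st : ℕ → (C → (L2 G →ₗ[ℝ] L2 G)) := fun n =>
    Nat.rec (fun _ => LinearMap.id) (fun n Y => stp n (ch n Y) Y) n
  have hst0 : st 0 = fun _ => LinearMap.id := rfl
  have hstS : ∀ n, st (n + 1) = stp n (ch n (st n)) (st n) := fun n => rfl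
  have hgood : ∀ n, good (st n) := by
    intro n
    induction n with
    | zero => intro c v hv; exact ⟨hv, le_rfl⟩
    | succ n ih =>
      intro c v hv
      rw [hstS]
      have ihc := ih c v hv
      by_cases hn : n < N c
      · simp only [stp, hn, if_true, LinearMap.sub_apply, LinearMap.comp_apply]
        refine ⟨(K c).sub_mem ihc.1 (cvH_mem (hK c) _ _ ihc.1), ?_⟩
        refine le_trans ?_ ihc.2
        have := proj_pythag (cvH (cj (ch n (st n)) j) (idem (I c)))
          (fun v => cvH_idem_idem _ (hI c).2 v)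
          (fun v w => inner_cvH_idem _ (hI c).1 v w) (st n c v)
        refine (pow_le_pow_iff_left₀ (norm_nonneg _) (norm_nonneg _) two_ne_zero).1 ?_
        nlinarith [sq_nonneg ‖cvH (cj (ch n (st n)) j) (idem (I c)) (st n c v)‖]
      · simp only [stp, hn, if_false]
        exact ihc
  have hΦ : ∀ n, Φ n (st n) ≤ Φ 0 (st 0) := by
    intro n
    induction n with
    | zero => exact le_rfl
    | succ n ih =>
      refine le_trans ?_ ih
      rw [hstS]
      exact hch n (st n) (hgood n)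
  have hΦ0 : Φ 0 (st 0) < 1 := by
    refine lt_of_le_of_lt (le_of_eq ?_) hsum
    refine Finset.sum_congr rfl fun c _ => ?_
    have h1 : ∀ i, ‖(b c i : L2 G)‖ = 1 := fun i => (b c).orthonormal.1 i
    simp [hst0, h1]
  refine ⟨fun n => ch n (st n), ?_⟩
  intro c T B hB v hv
  -- the final operator on `K c`
  have hstab : ∀ n, N c ≤ n → st n c = st (N c) c := by
    intro n hn
    induction n, hn using Nat.le_induction with
    | base => rfl
    | succ n hn ih =>
      rw [hstS]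
      have : ¬ n < N c := by omega
      simp only [stp, this, if_false]
      exact ih
  have hfinal : ∑ i, ‖st (N c) c (b c i : L2 G)‖ ^ 2 ≤ 1 / 4 := by
    have h1 := (hΦ (N c)).trans_lt hΦ0
    have h2 : 4 * (7 / 8 : ℝ) ^ (N c - N c) * (∑ i, ‖st (N c) c (b c i : L2 G)‖ ^ 2) ≤
        Φ (N c) (st (N c)) := by
      refine Finset.single_le_sum (f := fun c' => 4 * (7 / 8 : ℝ) ^ (N c' - N c) *
        (∑ i, ‖st (N c) c' (b c' i : L2 G)‖ ^ 2)) (fun c' _ => by positivity) (Finset.mem_univ c)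
    rw [Nat.sub_self, pow_zero] at h2
    linarith
  -- contraction by 1/2
  have hhalf : ∀ w ∈ K c, ‖st (N c) c w‖ ≤ ‖w‖ / 2 := by
    intro w hw
    have h1 : w = ∑ i, (inner ℝ (b c i) (⟨w, hw⟩ : K c)) • (b c i : L2 G) := by
      have := (b c).sum_repr' (⟨w, hw⟩ : K c)
      have h2 := congrArg (fun u : K c => (u : L2 G)) this
      simp only [Submodule.coe_sum, Submodule.coe_smul] at h2
      exact h2.symm
    have h3 : ∑ i, (inner ℝ (b c i) (⟨w, hw⟩ : K c)) ^ 2 = ‖w‖ ^ 2 := by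
      have := (b c).sum_sq_norm_inner_right (⟨w, hw⟩ : K c)
      simpa using this
    have h4 : ‖st (N c) c w‖ ≤
        ∑ i, |inner ℝ (b c i) (⟨w, hw⟩ : K c)| * ‖st (N c) c (b c i : L2 G)‖ := by
      conv_lhs => rw [h1]
      rw [map_sum]
      refine (norm_sum_le _ _).trans (Finset.sum_le_sum fun i _ => ?_)
      rw [map_smul, norm_smul, Real.norm_eq_abs]
    have h5 : (∑ i, |inner ℝ (b c i) (⟨w, hw⟩ : K c)| * ‖st (N c) c (b c i : L2 G)‖) ^ 2 ≤
        (∑ i, |inner ℝ (b c i) (⟨w, hw⟩ : K c)| ^ 2) *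
          ∑ i, ‖st (N c) c (b c i : L2 G)‖ ^ 2 :=
      Finset.sum_mul_sq_le_sq_mul_sq _ _ _
    simp only [sq_abs] at h5
    rw [h3] at h5
    have h6 : (∑ i, |inner ℝ (b c i) (⟨w, hw⟩ : K c)| * ‖st (N c) c (b c i : L2 G)‖) ^ 2 ≤
        (‖w‖ / 2) ^ 2 := by
      nlinarith [sq_nonneg ‖w‖]
    have h7 := (pow_le_pow_iff_left₀ (Finset.sum_nonneg fun i _ => by positivity)
      (by positivity) two_ne_zero).1 h6
    exact h4.trans h7
  -- telescoping
  have htel : ∀ n ≤ N c, ∀ w ∈ K c, ‖T w‖ ≤ ‖T (st n c w)‖ + n * (B * ‖w‖) := by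
    intro n hn w hw
    induction n with
    | zero => simp [hst0]
    | succ n ih =>
      have hn' : n < N c := by omega
      have ih' := ih (by omega)
      have h1 : st n c w = st (n + 1) c w +
          cvH (cj (ch n (st n)) j) (idem (I c)) (st n c w) := by
        rw [hstS]
        simp only [stp, hn', if_true, LinearMap.sub_apply, LinearMap.comp_apply, sub_add_cancel]
      have h2 : ‖T (st n c w)‖ ≤ ‖T (st (n + 1) c w)‖ +
          ‖T (cvH (cj (ch n (st n)) j) (idem (I c)) (st n c w))‖ := by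
        conv_lhs => rw [h1, map_add]
        exact norm_add_le _ _
      have h3 := hB n hn' (st n c w) (hgood n c w hw).1
      have h4 : B * ‖st n c w‖ ≤ B * ‖w‖ := by
        rcases le_or_gt 0 B with hB0 | hB0
        · exact mul_le_mul_of_nonneg_left (hgood n c w hw).2 hB0
        · -- then `w = 0`
          have h5 := hB n hn' w hw
          have h6 : 0 ≤ B * ‖w‖ := le_trans (norm_nonneg _) h5
          have h7 : ‖w‖ = 0 := by
            by_contra hne
            have : 0 < ‖w‖ := lt_of_le_of_ne (norm_nonneg _) (Ne.symm hne)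
            nlinarith
          have h8 := (hgood n c w hw).2
          have h9 : ‖st n c w‖ = 0 := le_antisymm (h7 ▸ h8) (norm_nonneg _)
          rw [h7, h9]
      push_cast
      linarith
  -- operator norm
  let T' : K c →L[ℝ] L2 G := LinearMap.toContinuousLinearMap (T ∘ₗ (K c).subtype)
  have hT' : ∀ w : K c, T' w = T (w : L2 G) := fun w => rfl
  have hTle : ∀ w ∈ K c, ‖T w‖ ≤ ‖T'‖ * ‖w‖ := by
    intro w hw
    have := T'.le_opNorm ⟨w, hw⟩
    simpa [hT'] using this
  have hpos : 0 ≤ ‖T'‖ / 2 + N c * B ∨ v = 0 := by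
    by_cases hB0 : 0 ≤ B
    · left; positivity
    · right
      push Not at hB0
      rcases Nat.eq_zero_or_pos (N c) with h0 | h0
      · -- `‖v‖ ≤ ‖v‖/2`
        have := hhalf v hv
        rw [h0, hst0] at this
        simp only [LinearMap.id_apply] at this
        have h1 : ‖v‖ = 0 := by linarith [norm_nonneg v]
        exact norm_eq_zero.1 h1
      · have h5 := hB 0 h0 v hv
        have h6 : 0 ≤ B * ‖v‖ := le_trans (norm_nonneg _) h5
        have h7 : ‖v‖ = 0 := by
          by_contra hne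
          have : 0 < ‖v‖ := lt_of_le_of_ne (norm_nonneg _) (Ne.symm hne)
          nlinarith
        exact norm_eq_zero.1 h7
  rcases hpos with hpos | hv0
  · have hop : ‖T'‖ ≤ ‖T'‖ / 2 + N c * B := by
      refine ContinuousLinearMap.opNorm_le_bound T' hpos ?_
      intro w
      have h1 := htel (N c) le_rfl (w : L2 G) w.2
      have h2 := hTle (st (N c) c (w : L2 G)) (hgood (N c) c _ w.2).1
      have h3 := hhalf (w : L2 G) w.2
      have h4 : ‖T'‖ * ‖st (N c) c (w : L2 G)‖ ≤ ‖T'‖ * (‖(w : L2 G)‖ / 2) :=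
        mul_le_mul_of_nonneg_left h3 (ContinuousLinearMap.opNorm_nonneg T')
      rw [hT']
      have h5 : ‖w‖ = ‖(w : L2 G)‖ := rfl
      rw [h5]
      nlinarith
    have h6 : ‖T'‖ ≤ 2 * N c * B := by linarith
    exact (hTle v hv).trans (mul_le_mul_of_nonneg_right h6 (norm_nonneg _))
  · rw [hv0]; simp

end

end Crest.Agent.R155
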