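import Crest.Agent.R155.BasicR

/-!
R155, Part R, task HS: operator norm from Hilbert-Schmidt norm and a dimension lower bound.
-/

set_option autoImplicit false
set_option linter.unusedSectionVars false
set_option linter.unusedVariables false

namespace Crest.Agent.R155

open Finset Equiv

section
variable {G : Type} [Group G] [Fintype G] [DecidableEq G]
variable {H : Type} [Group H] [Fintype H] [DecidableEq H]

/-- For an orthonormal family `b`, `∑ ‖T (b i)‖² ≤ ∑_g ‖T (dl g)‖²` (Hilbert-Schmidt norm; Parseval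
`‖T b_i‖² = ∑_g ⟪T b_i, dl g⟫² = ∑_g ⟪b_i, T† dl g⟫²`, Bessel in `i`, Parseval again). -/
theorem sum_norm_le_hs (T : L2 G →ₗ[ℝ] L2 G) {ι : Type} [Fintype ι] (b : ι → L2 G)
    (hb : Orthonormal ℝ b) : ∑ i, ‖T (b i)‖ ^ 2 ≤ ∑ g, ‖T (dl g)‖ ^ 2 := by
  have h1 : ∀ i, ‖T (b i)‖ ^ 2 = ∑ g, (inner ℝ (b i) (T.adjoint (dl g))) ^ 2 := by
    intro i
    rw [norm_sq_def]
    refine Finset.sum_congr rfl fun g _ => ?_
    rw [LinearMap.adjoint_inner_right, inner_dl']
  have h2 : ∀ g, ∑ i, (inner ℝ (b i) (T.adjoint (dl g))) ^ 2 ≤ ‖T.adjoint (dl g)‖ ^ 2 := by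
    intro g
    have := hb.sum_inner_products_le (x := T.adjoint (dl g)) (s := Finset.univ)
    simpa using this
  have h3 : ∑ g, ‖T.adjoint (dl g)‖ ^ 2 = ∑ g, ‖T (dl g)‖ ^ 2 := by
    have h4 : ∀ g, ‖T.adjoint (dl g)‖ ^ 2 = ∑ h, (T (dl h) g) ^ 2 := by
      intro g
      rw [norm_sq_def]
      refine Finset.sum_congr rfl fun h _ => ?_
      rw [← inner_dl h, LinearMap.adjoint_inner_right, inner_dl']
    rw [Finset.sum_congr rfl fun g _ => h4 g, Finset.sum_comm]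
    refine Finset.sum_congr rfl fun h _ => ?_
    rw [norm_sq_def]
  rw [Finset.sum_congr rfl fun i _ => h1 i, Finset.sum_comm, ← h3]
  exact Finset.sum_le_sum fun g _ => h2 g

/-- If every nonzero right invariant subspace of `K` has dimension at least `d` and `T` commutes
with right translations then `d ‖T v‖² ≤ ‖T‖²_HS ‖v‖²` on `K`.
Proof: `S = (T|K)† (T|K)` on `K` is symmetric and commutes with `rt b`; its top eigenspace
(`LinearMap.IsSymmetric.hasEigenvalue_iSup_of_finiteDimensional`) is a nonzero right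
invariant subspace; sum `‖T b_i‖²` over an orthonormal basis of it. -/
theorem opnorm_of_hs (K : Submodule ℝ (L2 G)) (hK : InvR K) (T : L2 G →ₗ[ℝ] L2 G)
    (hT : ∀ b f, T (rt b f) = rt b (T f)) (d : ℕ)
    (hd : ∀ W : Submodule ℝ (L2 G), W ≤ K → InvR W → W ≠ ⊥ → d ≤ Module.finrank ℝ W)
    (v : L2 G) (hv : v ∈ K) :
    (d : ℝ) * ‖T v‖ ^ 2 ≤ (∑ g, ‖T (dl g)‖ ^ 2) * ‖v‖ ^ 2 := by
  classical
  rcases eq_or_ne v 0 with rfl | hv0
  · simp
  let A : K →ₗ[ℝ] L2 G := T.comp K.subtype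
  let S : K →ₗ[ℝ] K := A.adjoint.comp A
  have hS : ∀ x y : K, inner ℝ (S x) y = inner ℝ (T x) (T y) := by
    intro x y
    change inner ℝ (A.adjoint (A x)) y = _
    rw [LinearMap.adjoint_inner_left]
    rfl
  have hS' : ∀ x y : K, inner ℝ x (S y) = inner ℝ (T x) (T y) := by
    intro x y
    change inner ℝ x (A.adjoint (A y)) = _
    rw [LinearMap.adjoint_inner_right]
    rfl
  have hsym : S.IsSymmetric := fun x y => by rw [hS, hS']
  have hnt : Nontrivial K := ⟨⟨⟨v, hv⟩, 0, fun h => hv0 (congrArg Subtype.val h)⟩⟩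
  have hev := hsym.hasEigenvalue_iSup_of_finiteDimensional
  set lam : ℝ := ⨆ x : { x : K // x ≠ 0 }, RCLike.re (inner ℝ (S x) (x : K)) / ‖(x : K)‖ ^ 2
    with hlam
  have hev' : Module.End.HasEigenvalue S lam := hev
  -- the bound from the Rayleigh quotient
  have hbdd : BddAbove (Set.range fun x : { x : K // x ≠ 0 } =>
      RCLike.re (inner ℝ (S x) (x : K)) / ‖(x : K)‖ ^ 2) := by
    refine ⟨‖LinearMap.toContinuousLinearMap S‖, ?_⟩
    rintro _ ⟨x, rfl⟩
    have hx : 0 < ‖(x : K)‖ := norm_pos_iff.2 x.2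
    simp only [RCLike.re_to_real]
    rw [div_le_iff₀ (by positivity)]
    have h1 := real_inner_le_norm (S x) (x : K)
    have h2 : ‖S x‖ ≤ ‖LinearMap.toContinuousLinearMap S‖ * ‖(x : K)‖ :=
      (LinearMap.toContinuousLinearMap S).le_opNorm x
    calc inner ℝ (S x) (x : K) ≤ ‖S x‖ * ‖(x : K)‖ := h1
      _ ≤ ‖LinearMap.toContinuousLinearMap S‖ * ‖(x : K)‖ * ‖(x : K)‖ := by gcongr
      _ = _ := by ring
  have hle : ‖T v‖ ^ 2 ≤ lam * ‖v‖ ^ 2 := by
    have hvp : 0 < ‖v‖ := norm_pos_iff.2 hv0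
    have h1 := le_ciSup hbdd ⟨⟨v, hv⟩, fun h => hv0 (congrArg Subtype.val h)⟩
    simp only [RCLike.re_to_real] at h1
    rw [hS, real_inner_self_eq_norm_sq] at h1
    have h2 : ‖T v‖ ^ 2 / ‖v‖ ^ 2 ≤ lam := h1
    rwa [div_le_iff₀ (by positivity)] at h2
  -- the eigenspace
  let W : Submodule ℝ (L2 G) := (Module.End.eigenspace S lam).map K.subtype
  have hWK : W ≤ K := by
    rintro _ ⟨x, _, rfl⟩
    exact x.2
  have hmem : ∀ x : K, x ∈ Module.End.eigenspace S lam ↔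
      ∀ y : K, inner ℝ (T x) (T y) = lam * inner ℝ (x : L2 G) (y : L2 G) := by
    intro x
    rw [Module.End.mem_eigenspace_iff]
    constructor
    · intro h y
      rw [← hS, h, inner_smul_left]
      rfl
    · intro h
      refine ext_inner_right ℝ fun y => ?_
      rw [hS, h y, inner_smul_left]
      rfl
  have hWinv : InvR W := by
    rintro a _ ⟨x, hx, rfl⟩
    have hx' := (hmem x).1 hx
    refine ⟨⟨rt a x, hK _ _ x.2⟩, (hmem _).2 fun y => ?_, rfl⟩
    have h1 := hx' ⟨rt a⁻¹ y, hK _ _ y.2⟩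
    simp only at h1 ⊢
    rw [hT, inner_rt, inner_rt, ← hT, h1]
  have hWne : W ≠ ⊥ := by
    obtain ⟨x, hx⟩ := hev'.exists_hasEigenvector
    intro h
    have h1 : (x : L2 G) ∈ W := ⟨x, hx.1, rfl⟩
    rw [h, Submodule.mem_bot] at h1
    exact hx.2 (Subtype.ext h1)
  have hdW := hd W hWK hWinv hWne
  let b := stdOrthonormalBasis ℝ W
  have hb : Orthonormal ℝ (fun i => ((b i : W) : L2 G)) :=
    b.orthonormal.comp_linearIsometry W.subtypeₗᵢ
  have h5 := sum_norm_le_hs T _ hb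
  have h6 : ∀ i, ‖T ((b i : W) : L2 G)‖ ^ 2 = lam := by
    intro i
    obtain ⟨x, hx, hxi⟩ := (b i).2
    have h7 := (hmem x).1 hx x
    have h8 : (x : L2 G) = ((b i : W) : L2 G) := hxi
    rw [h8, real_inner_self_eq_norm_sq, real_inner_self_eq_norm_sq] at h7
    rw [h7]
    have : ‖((b i : W) : L2 G)‖ = 1 := hb.1 i
    rw [this]; simp
  rw [Finset.sum_congr rfl fun i _ => h6 i] at h5
  simp only [Finset.sum_const, Finset.card_univ, Fintype.card_fin, nsmul_eq_mul] at h5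
  have hlam0 : 0 ≤ lam := by
    by_contra hc
    push Not at hc
    have hvp : 0 < ‖v‖ := norm_pos_iff.2 hv0
    have : lam * ‖v‖ ^ 2 < 0 := mul_neg_of_neg_of_pos hc (by positivity)
    have := sq_nonneg ‖T v‖
    linarith
  calc (d : ℝ) * ‖T v‖ ^ 2 ≤ (Module.finrank ℝ W : ℝ) * (lam * ‖v‖ ^ 2) := by
        gcongr
    _ = (Module.finrank ℝ W : ℝ) * lam * ‖v‖ ^ 2 := by ring
    _ ≤ _ := by gcongr

/-- Cauchy-Schwarz: `(∑_h F(g j(h)⁻¹) e(h))² ≤ M ∑_h F(g j(h)⁻¹) e(h)²`, then sum over `g`. -/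
theorem hs_bound (j : H →* G) (F : G → ℝ) (hF : ∀ g, 0 ≤ F g) (hF1 : ∑ g, F g ≤ 1) (M : ℝ)
    (hM : ∀ g, ∑ h, F (g * j h) ≤ M) (e : H → ℝ) :
    ∑ g, ‖cv F (cvH j e (dl g))‖ ^ 2 ≤ (Fintype.card G : ℝ) * (M * ∑ h, e h ^ 2) := by
  have hval : ∀ g x, cv F (cvH j e (dl g)) x = ∑ h, e h * F (x * g⁻¹ * j h⁻¹) := by
    intro g x
    rw [cv_apply]
    simp only [cvH_apply, dl_apply, mul_ite, mul_one, mul_zero]
    simp only [Finset.mul_sum]
    rw [Finset.sum_comm]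
    refine Finset.sum_congr rfl fun h _ => ?_
    have h1 : ∀ a : G, (F a * if (j h)⁻¹ * (a⁻¹ * x) = g then e h else 0) =
        if a = x * g⁻¹ * j h⁻¹ then e h * F a else 0 := by
      intro a
      have : (j h)⁻¹ * (a⁻¹ * x) = g ↔ a = x * g⁻¹ * j h⁻¹ := by
        rw [map_inv]
        constructor
        · rintro rfl; group
        · rintro rfl; group
      by_cases hc : a = x * g⁻¹ * j h⁻¹
      · rw [if_pos hc, if_pos (this.2 hc), mul_comm]
      · rw [if_neg hc, if_neg (fun h' => hc (this.1 h')), mul_zero]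
    rw [Finset.sum_congr rfl fun a _ => h1 a]
    simp
  have hM0 : 0 ≤ M := le_trans (Finset.sum_nonneg fun h _ => hF _) (hM 1)
  have hM' : ∀ y, ∑ h, F (y * j h⁻¹) ≤ M := by
    intro y
    rw [← Equiv.sum_comp (Equiv.inv H)]
    simpa using hM y
  have hcs : ∀ y, (∑ h, e h * F (y * j h⁻¹)) ^ 2 ≤ M * ∑ h, F (y * j h⁻¹) * e h ^ 2 := by
    intro y
    have h1 := Finset.sum_sq_le_sum_mul_sum_of_sq_le_mul Finset.univ
      (r := fun h => e h * F (y * j h⁻¹)) (f := fun h => F (y * j h⁻¹))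
      (g := fun h => F (y * j h⁻¹) * e h ^ 2) (fun h _ => hF _)
      (fun h _ => mul_nonneg (hF _) (sq_nonneg _)) (fun h _ => le_of_eq (by ring))
    refine h1.trans ?_
    exact mul_le_mul_of_nonneg_right (hM' y)
      (Finset.sum_nonneg fun h _ => mul_nonneg (hF _) (sq_nonneg _))
  have hg : ∀ g, ‖cv F (cvH j e (dl g))‖ ^ 2 ≤ M * ∑ h, e h ^ 2 := by
    intro g
    rw [norm_sq_def]
    calc ∑ x, (cv F (cvH j e (dl g)) x) ^ 2 ≤
        ∑ x, M * ∑ h, F (x * g⁻¹ * j h⁻¹) * e h ^ 2 := by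
          refine Finset.sum_le_sum fun x _ => ?_
          rw [hval]
          exact hcs _
      _ = M * ∑ h, (∑ x, F (x * g⁻¹ * j h⁻¹)) * e h ^ 2 := by
          rw [← Finset.mul_sum, Finset.sum_comm]
          simp only [Finset.sum_mul]
      _ = M * ∑ h, (∑ x, F x) * e h ^ 2 := by
          congr 1
          refine Finset.sum_congr rfl fun h _ => ?_
          congr 1
          have := Equiv.sum_comp (Equiv.mulRight (g⁻¹ * j h⁻¹)) F
          simpa [mul_assoc] using this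
      _ ≤ M * ∑ h, e h ^ 2 := by
          refine mul_le_mul_of_nonneg_left (Finset.sum_le_sum fun h _ => ?_) hM0
          have := mul_le_mul_of_nonneg_right hF1 (sq_nonneg (e h))
          simpa using this
  calc ∑ g, ‖cv F (cvH j e (dl g))‖ ^ 2 ≤ ∑ g : G, M * ∑ h, e h ^ 2 :=
        Finset.sum_le_sum fun g _ => hg g
    _ = _ := by simp

/-- Combination of the above with `card_mul_sum_idem_sq`. -/
theorem opnorm_conv (K : Submodule ℝ (L2 G)) (hK : InvR K) (d : ℕ)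
    (hd : ∀ W : Submodule ℝ (L2 G), W ≤ K → InvR W → W ≠ ⊥ → d ≤ Module.finrank ℝ W)
    (j : H →* G) (F : G → ℝ) (hF : ∀ g, 0 ≤ F g) (hF1 : ∑ g, F g ≤ 1) (M : ℝ)
    (hM : ∀ g, ∑ h, F (g * j h) ≤ M) (I : Submodule ℝ (L2 H)) (hI : BiInv I)
    (v : L2 G) (hv : v ∈ K) :
    (d : ℝ) * ‖cv F (cvH j (idem I) v)‖ ^ 2 ≤
      ((Fintype.card G : ℝ) * M / (Fintype.card H : ℝ) * (Module.finrank ℝ I : ℝ)) * ‖v‖ ^ 2 := by
  have h1 := opnorm_of_hs K hK ((cv F).comp (cvH j (idem I)))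
    (fun b f => by simp only [LinearMap.comp_apply, cvH_rt, cv_rt]) d hd v hv
  simp only [LinearMap.comp_apply] at h1
  refine h1.trans (mul_le_mul_of_nonneg_right ?_ (sq_nonneg _))
  refine (hs_bound j F hF hF1 M hM (idem I)).trans (le_of_eq ?_)
  have hH : (Fintype.card H : ℝ) ≠ 0 := by exact_mod_cast Fintype.card_ne_zero
  rw [← card_mul_sum_idem_sq hI.1]
  field_simp

end

end Crest.Agent.R155
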