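import Crest.Agent.R155.BasicR

/-!
R155, Part R, task Junta: basic facts on juntas.
-/

set_option autoImplicit false
set_option linter.unusedSectionVars false
set_option linter.unusedVariables false

namespace Crest.Agent.R155

open Finset Equiv

section
variable {α : Type} [Fintype α] [DecidableEq α]

theorem jf_apply {k : ℕ} (a b : Fin k ↪ α) (g : Perm α) :
    jf a b g = if ∀ i, g (a i) = b i then (1 : ℝ) else 0 := rfl

theorem junta_apply_inv_self (g : Perm α) (x : α) : g (g⁻¹ x) = x := by simp

theorem junta_inv_apply_self (g : Perm α) (x : α) : g⁻¹ (g x) = x := by simp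

theorem junta_sgnMul_apply (f : L2 (Perm α)) (g : Perm α) :
    sgnMul α f g = ((Equiv.Perm.sign g : ℤ) : ℝ) * f g := rfl

theorem lt_jf {k : ℕ} (a b : Fin k ↪ α) (h : Perm α) :
    lt h (jf a b) = jf a (b.trans h.toEmbedding) := by
  ext g
  rw [lt_apply, jf_apply, jf_apply]
  have : (∀ i, (h⁻¹ * g) (a i) = b i) ↔ (∀ i, g (a i) = (b.trans h.toEmbedding) i) := by
    refine forall_congr' fun i => ?_
    rw [Perm.mul_apply, Perm.inv_eq_iff_eq]
    rfl
  simp only [this]

theorem rt_jf {k : ℕ} (a b : Fin k ↪ α) (h : Perm α) :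
    rt h (jf a b) = jf (a.trans h.toEmbedding) b := by
  ext g
  rw [rt_apply, jf_apply, jf_apply]
  rfl

theorem junta_jf_mem {k : ℕ} (a b : Fin k ↪ α) : jf a b ∈ junta α k :=
  Submodule.subset_span ⟨(a, b), rfl⟩

theorem junta_biInv (k : ℕ) : BiInv (junta α k) := by
  constructor
  · rw [invL_iff_map]
    intro h
    unfold junta
    rw [Submodule.map_span_le]
    rintro _ ⟨⟨a, b⟩, rfl⟩
    have : ((lt h).toLinearEquiv : L2 (Perm α) →ₗ[ℝ] L2 (Perm α)) (jf a b)
        = jf a (b.trans h.toEmbedding) := lt_jf a b h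
    rw [this]
    exact junta_jf_mem _ _
  · rw [invR_iff_map]
    intro h
    unfold junta
    rw [Submodule.map_span_le]
    rintro _ ⟨⟨a, b⟩, rfl⟩
    have : ((rt h).toLinearEquiv : L2 (Perm α) →ₗ[ℝ] L2 (Perm α)) (jf a b)
        = jf (a.trans h.toEmbedding) b := rt_jf a b h
    rw [this]
    exact junta_jf_mem _ _

theorem junta_lt_sgnMul (h : Perm α) (f : L2 (Perm α)) :
    lt h (sgnMul α f) = ((Equiv.Perm.sign h : ℤ) : ℝ) • sgnMul α (lt h f) := by
  ext g
  rw [lt_apply, junta_sgnMul_apply, WithLp.ofLp_smul, Pi.smul_apply, junta_sgnMul_apply, lt_apply]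
  simp only [Perm.sign_mul, Perm.sign_inv, smul_eq_mul]
  push_cast
  ring

theorem junta_rt_sgnMul (h : Perm α) (f : L2 (Perm α)) :
    rt h (sgnMul α f) = ((Equiv.Perm.sign h : ℤ) : ℝ) • sgnMul α (rt h f) := by
  ext g
  rw [rt_apply, junta_sgnMul_apply, WithLp.ofLp_smul, Pi.smul_apply, junta_sgnMul_apply, rt_apply]
  simp only [Perm.sign_mul, smul_eq_mul]
  push_cast
  ring

theorem sjunta_biInv (k : ℕ) : BiInv (sjunta α k) := by
  constructor
  · rintro h _ ⟨f, hf, rfl⟩
    rw [junta_lt_sgnMul]
    exact (sjunta α k).smul_mem _ ⟨_, (junta_biInv k).1 h f hf, rfl⟩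
  · rintro h _ ⟨f, hf, rfl⟩
    rw [junta_rt_sgnMul]
    exact (sjunta α k).smul_mem _ ⟨_, (junta_biInv k).2 h f hf, rfl⟩

theorem lev_biInv (k : ℕ) : BiInv (lev α k) :=
  (junta_biInv k).inf (junta_biInv (k - 1)).orth

/-- A function fixed by the right translations by permutations fixing a `k`-tuple pointwise is a
`k`-junta (it only depends on `g ∘ a`). -/
theorem mem_junta_of_fixR {k : ℕ} (a : Fin k ↪ α) (w : L2 (Perm α))
    (hw : ∀ h : Perm α, (∀ i, h (a i) = a i) → rt h w = w) : w ∈ junta α k := by
  classical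
  let c : (Fin k ↪ α) → ℝ := fun b =>
    if h : ∃ g : Perm α, ∀ i, g (a i) = b i then w h.choose else 0
  have hc : ∀ g : Perm α, c (a.trans g.toEmbedding) = w g := by
    intro g
    have hex : ∃ g' : Perm α, ∀ i, g' (a i) = (a.trans g.toEmbedding) i := ⟨g, fun i => rfl⟩
    have h1 : c (a.trans g.toEmbedding) = w hex.choose := dif_pos hex
    have h2 : ∀ i, hex.choose (a i) = g (a i) := hex.choose_spec
    rw [h1]
    have h3 := hw (g⁻¹ * hex.choose) (fun i => by
      rw [Perm.mul_apply, h2 i, junta_inv_apply_self])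
    have h4 := congrArg (fun u : L2 (Perm α) => u g) h3
    simp only [rt_apply] at h4
    rw [mul_inv_cancel_left] at h4
    exact h4
  have key : w = ∑ b : Fin k ↪ α, c b • jf a b := by
    ext g
    simp only [WithLp.ofLp_sum, WithLp.ofLp_smul, Finset.sum_apply, Pi.smul_apply, smul_eq_mul]
    rw [Finset.sum_eq_single (a.trans g.toEmbedding)]
    · have h1 : ∀ i, g (a i) = (a.trans g.toEmbedding) i := fun i => rfl
      rw [hc, jf_apply, if_pos h1, mul_one]
    · intro b _ hb
      rw [jf_apply, if_neg, mul_zero]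
      intro h
      apply hb
      ext i
      exact (h i).symm
    · intro h
      exact absurd (Finset.mem_univ _) h
  rw [key]
  exact Submodule.sum_mem _ fun b _ => Submodule.smul_mem _ _ (junta_jf_mem a b)

theorem mem_junta_of_fixL {k : ℕ} (b : Fin k ↪ α) (w : L2 (Perm α))
    (hw : ∀ h : Perm α, (∀ i, h (b i) = b i) → lt h w = w) : w ∈ junta α k := by
  classical
  let c : (Fin k ↪ α) → ℝ := fun a =>
    if h : ∃ g : Perm α, ∀ i, g (a i) = b i then w h.choose else 0
  have hc : ∀ g : Perm α, c (b.trans (g⁻¹ : Perm α).toEmbedding) = w g := by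
    intro g
    have hex : ∃ g' : Perm α, ∀ i, g' ((b.trans (g⁻¹ : Perm α).toEmbedding) i) = b i :=
      ⟨g, fun i => junta_apply_inv_self g (b i)⟩
    have h1 : c (b.trans (g⁻¹ : Perm α).toEmbedding) = w hex.choose := dif_pos hex
    have h2 : ∀ i, hex.choose (g⁻¹ (b i)) = b i := hex.choose_spec
    rw [h1]
    have h3 := hw (g * hex.choose⁻¹) (fun i => by
      rw [Perm.mul_apply]
      have : hex.choose⁻¹ (b i) = g⁻¹ (b i) := by
        rw [Perm.inv_eq_iff_eq]; exact (h2 i).symm
      rw [this, junta_apply_inv_self])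
    have h4 := congrArg (fun u : L2 (Perm α) => u g) h3
    simp only [lt_apply] at h4
    rw [mul_inv_rev, inv_inv, inv_mul_cancel_right] at h4
    exact h4
  have key : w = ∑ a : Fin k ↪ α, c a • jf a b := by
    ext g
    simp only [WithLp.ofLp_sum, WithLp.ofLp_smul, Finset.sum_apply, Pi.smul_apply, smul_eq_mul]
    rw [Finset.sum_eq_single (b.trans (g⁻¹ : Perm α).toEmbedding)]
    · have h1 : ∀ i, g ((b.trans (g⁻¹ : Perm α).toEmbedding) i) = b i :=
        fun i => junta_apply_inv_self g (b i)
      rw [hc, jf_apply, if_pos h1, mul_one]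
    · intro a _ ha
      rw [jf_apply, if_neg, mul_zero]
      intro h
      apply ha
      ext i
      show a i = g⁻¹ (b i)
      rw [Perm.eq_inv_iff_eq]
      exact h i
    · intro h
      exact absurd (Finset.mem_univ _) h
  rw [key]
  exact Submodule.sum_mem _ fun a _ => Submodule.smul_mem _ _ (junta_jf_mem a b)

/-- `1[g a' = b'] = ∑_y 1[g (a', x) = (b', y)]`. -/
theorem junta_mono {j k : ℕ} (h : j ≤ k) (hk : k ≤ Fintype.card α) : junta α j ≤ junta α k := by
  classical
  unfold junta
  rw [Submodule.span_le]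
  rintro _ ⟨⟨a, b⟩, rfl⟩
  obtain ⟨T, hT1, hT2⟩ := Finset.exists_superset_card_eq (s := univ.map a) (n := k)
    (by simpa using h) hk
  let e : Fin k ↪ α := (T.equivFinOfCardEq hT2).symm.toEmbedding.trans
    (Function.Embedding.subtype _)
  apply mem_junta_of_fixR e
  intro g hg
  rw [rt_jf]
  congr 1
  ext i
  have h1 : a i ∈ T := hT1 (by simp)
  have h2 := hg (T.equivFinOfCardEq hT2 ⟨a i, h1⟩)
  simpa [e] using h2

theorem junta_jf_reindex {k : ℕ} (σ : Perm (Fin k)) (a b : Fin k ↪ α) :
    jf (σ.toEmbedding.trans a) (σ.toEmbedding.trans b) = jf a b := by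
  ext g
  rw [jf_apply, jf_apply]
  have : (∀ i, g ((σ.toEmbedding.trans a) i) = (σ.toEmbedding.trans b) i) ↔
      ∀ i, g (a i) = b i :=
    ⟨fun h i => by simpa using h (σ.symm i), fun h i => h (σ i)⟩
  simp only [this]

/-- The span is generated by one function per partial bijection of size `k`. -/
theorem finrank_junta_le (k : ℕ) :
    Module.finrank ℝ (junta α k) ≤ (Fintype.card α).choose k ^ 2 * k.factorial := by
  classical
  let e : {S : Finset α // S ∈ powersetCard k univ} → (Fin k ↪ α) := fun S =>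
    (S.1.equivFinOfCardEq (Finset.mem_powersetCard.1 S.2).2).symm.toEmbedding.trans
      (Function.Embedding.subtype _)
  let F : {S : Finset α // S ∈ powersetCard k univ} × (Fin k ↪ α) → L2 (Perm α) :=
    fun p => jf (e p.1) p.2
  have hle : junta α k ≤ Submodule.span ℝ (Set.range F) := by
    unfold junta
    rw [Submodule.span_le]
    rintro _ ⟨⟨a, b⟩, rfl⟩
    have hS : univ.map a ∈ powersetCard k (univ : Finset α) := by simp
    have hmem : ∀ i, e ⟨univ.map a, hS⟩ i ∈ Set.range a := by
      intro i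
      have h1 : e ⟨univ.map a, hS⟩ i ∈ univ.map a :=
        (((univ.map a).equivFinOfCardEq (Finset.mem_powersetCard.1 hS).2).symm i).2
      simpa using h1
    choose s hs using hmem
    have hinj : Function.Injective s := by
      intro i j hij
      apply (e ⟨univ.map a, hS⟩).injective
      rw [← hs i, ← hs j, hij]
    let σ : Perm (Fin k) := Equiv.ofBijective s (Finite.injective_iff_bijective.1 hinj)
    have h1 : σ.toEmbedding.trans a = e ⟨univ.map a, hS⟩ := by
      ext i; exact hs i
    show jf a b ∈ _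
    rw [← junta_jf_reindex σ a b, h1]
    exact Submodule.subset_span ⟨(⟨univ.map a, hS⟩, σ.toEmbedding.trans b), rfl⟩
  calc Module.finrank ℝ (junta α k) ≤ Module.finrank ℝ (Submodule.span ℝ (Set.range F)) :=
        Submodule.finrank_mono hle
    _ ≤ Fintype.card ({S : Finset α // S ∈ powersetCard k univ} × (Fin k ↪ α)) := by
        have h := finrank_range_le_card (R := ℝ) F
        unfold Set.finrank at h
        convert h
    _ = (Fintype.card α).choose k ^ 2 * k.factorial := by
        rw [Fintype.card_prod, Fintype.card_embedding_eq, Fintype.card_fin,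
          Nat.descFactorial_eq_factorial_mul_choose]
        rw [Fintype.card_coe, Finset.card_powersetCard, Finset.card_univ]
        ring

/-- `0`-juntas are the constants. -/
theorem mem_junta_zero (f : L2 (Perm α)) : f ∈ junta α 0 ↔ ∀ g, f g = f 1 := by
  constructor
  · intro hf
    unfold junta at hf
    induction hf using Submodule.span_induction with
    | mem x hx =>
      obtain ⟨⟨a, b⟩, rfl⟩ := hx
      intro g
      simp [jf_apply]
    | zero => intro g; simp
    | add x y _ _ hx hy => intro g; simp [hx g, hy g]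
    | smul c x _ hx => intro g; simp [hx g]
  · intro hf
    have key : f = f 1 • jf (Function.Embedding.ofIsEmpty : Fin 0 ↪ α)
        (Function.Embedding.ofIsEmpty : Fin 0 ↪ α) := by
      ext g
      simp [jf_apply, hf g]
    rw [key]
    exact Submodule.smul_mem _ _ (junta_jf_mem _ _)

theorem finrank_lev_le (k : ℕ) :
    Module.finrank ℝ (lev α k) ≤ (Fintype.card α).choose k ^ 2 * k.factorial :=
  (Submodule.finrank_mono inf_le_left).trans (finrank_junta_le k)

theorem junta_top_of_card : junta α (Fintype.card α) = ⊤ := by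
  rw [eq_top_iff]
  intro w _
  apply mem_junta_of_fixR (Fintype.equivFin α).symm.toEmbedding
  intro h hh
  have : h = 1 := by
    ext x
    simpa using hh (Fintype.equivFin α x)
  rw [this, rt_one]

end

end Crest.Agent.R155
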