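import Crest.Agent.R155.DefsN
import Crest.Agent.R155.Junta

/-!
R155, task Law: the law of `t` shuffles as a function on `Perm (Fin (2m))`.
-/

set_option autoImplicit false
set_option linter.unusedSectionVars false
set_option linter.unusedVariables false

namespace Crest.Agent.R155

open Finset Equiv Crest.ProbabilityR.Shuffle

/-- the law of the position map after `t` shuffles -/
noncomputable def law (m t : ℕ) (g : Perm (Fin (2 * m))) : ℝ :=
  Crest.FinProb.uniformProb {cs : Fin t → Fin m → Bool | iterPos m t cs = ⇑g}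

theorem tv_eq_law (m t : ℕ) : tvFromUniform m t =
    (1 / 2) * ∑ g : Perm (Fin (2 * m)), |law m t g - 1 / ((2 * m).factorial : ℝ)| := rfl

theorem law_nonneg (m t : ℕ) (g : Perm (Fin (2 * m))) : 0 ≤ law m t g := by
  unfold law Crest.FinProb.uniformProb
  positivity

theorem stepPos_inj (m : ℕ) (c : Fin m → Bool) : Function.Injective (stepPos m c) := by
  intro x y h
  have hx := x.isLt
  have hy := y.isLt
  have hmx : x.val % m < m := Nat.mod_lt _ (by omega)
  have hmy : y.val % m < m := Nat.mod_lt _ (by omega)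
  have hval : (stepPos m c x).val = (stepPos m c y).val := by rw [h]
  simp only [stepPos] at hval
  have hmod : x.val % m = y.val % m := by
    split at hval <;> split at hval <;> omega
  have hc : c ⟨x.val % m, hmx⟩ = c ⟨y.val % m, hmy⟩ := by
    congr 1
    exact Fin.ext hmod
  rw [hc] at hval
  have hhalf : (m ≤ x.val) ↔ (m ≤ y.val) := by
    by_cases h1 : m ≤ x.val <;> by_cases h2 : m ≤ y.val <;>
      cases hcy : c ⟨y.val % m, hmy⟩ <;> simp [h1, h2, hcy] at hval ⊢ <;> omega
  apply Fin.ext
  have e1 := Nat.mod_add_div x.val m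
  have e2 := Nat.mod_add_div y.val m
  have d1 : x.val / m < 2 := Nat.div_lt_of_lt_mul (by omega)
  have d2 : y.val / m < 2 := Nat.div_lt_of_lt_mul (by omega)
  have hd : x.val / m = y.val / m := by
    have hm : 0 < m := by omega
    by_cases h1 : m ≤ x.val
    · have h2 := hhalf.1 h1
      have a1 : 1 ≤ x.val / m := (Nat.le_div_iff_mul_le hm).2 (by omega)
      have a2 : 1 ≤ y.val / m := (Nat.le_div_iff_mul_le hm).2 (by omega)
      omega
    · have h2 : ¬ m ≤ y.val := fun h => h1 (hhalf.2 h)
      rw [Nat.div_eq_of_lt (by omega), Nat.div_eq_of_lt (by omega)]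
  rw [← e1, ← e2, hmod, hd]

theorem iterPos_inj (m : ℕ) : ∀ (t : ℕ) (cs : Fin t → Fin m → Bool),
    Function.Injective (iterPos m t cs)
  | 0, _ => fun _ _ h => h
  | t + 1, cs => fun _ _ h =>
      iterPos_inj m t (fun i => cs i.castSucc) (stepPos_inj m (cs (Fin.last t)) h)

/-- The permutation of positions driven by the bit table `cs`. -/
noncomputable def permOf (m t : ℕ) (cs : Fin t → Fin m → Bool) : Perm (Fin (2 * m)) :=
  Equiv.ofBijective (iterPos m t cs)
    (Finite.injective_iff_bijective.1 (iterPos_inj m t cs))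

theorem coe_permOf (m t : ℕ) (cs : Fin t → Fin m → Bool) : ⇑(permOf m t cs) = iterPos m t cs := rfl

theorem iterPos_eq_iff (m t : ℕ) (cs : Fin t → Fin m → Bool) (g : Perm (Fin (2 * m))) :
    iterPos m t cs = ⇑g ↔ permOf m t cs = g := by
  constructor
  · intro h
    apply Equiv.ext
    intro x
    exact congrFun h x
  · rintro rfl; rfl

/-- every run is a bijection -/
theorem exists_perm (m t : ℕ) (cs : Fin t → Fin m → Bool) :
    ∃ g : Perm (Fin (2 * m)), iterPos m t cs = ⇑g := ⟨permOf m t cs, rfl⟩

theorem law_eq_avg (m t : ℕ) (g : Perm (Fin (2 * m))) :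
    law m t g = avg (fun cs : Fin t → Fin m → Bool => if permOf m t cs = g then (1 : ℝ) else 0) := by
  classical
  unfold law Crest.FinProb.uniformProb avg
  congr 1
  rw [Finset.sum_ite, Finset.sum_const_zero, add_zero, Finset.sum_const, nsmul_eq_mul, mul_one]
  congr 2
  ext cs
  simp [iterPos_eq_iff]

/-- averages of functions of the run -/
theorem avg_iterPos (m t : ℕ) (X : (Fin (2 * m) → Fin (2 * m)) → ℝ) :
    avg (fun cs : Fin t → Fin m → Bool => X (iterPos m t cs)) = ∑ g, law m t g * X ⇑g := by
  classical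
  simp only [law_eq_avg, avg]
  simp only [div_mul_eq_mul_div, Finset.sum_mul, ← Finset.sum_div]
  congr 1
  rw [Finset.sum_comm]
  refine Finset.sum_congr rfl fun cs _ => ?_
  simp [ite_mul, coe_permOf]

theorem law_sum (m t : ℕ) : ∑ g, law m t g = 1 := by
  have h := avg_iterPos m t (fun _ => 1)
  simp only [mul_one] at h
  rw [← h]
  simp [avg]

theorem iterPos_add (m t : ℕ) : ∀ (s : ℕ) (cs : Fin (t + s) → Fin m → Bool) (x : Fin (2 * m)),
    iterPos m (t + s) cs x =
      iterPos m s (fun i => cs (Fin.natAdd t i)) (iterPos m t (fun i => cs (Fin.castAdd s i)) x)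
  | 0, cs, x => rfl
  | s + 1, cs, x => by
    have h := iterPos_add m t s (fun i => cs i.castSucc) x
    change stepPos m (cs (Fin.last (t + s))) (iterPos m (t + s) (fun i => cs i.castSucc) x) = _
    rw [h]
    rfl

/-- `σ_{s+t} = σ'_s ∘ σ_t` -/
theorem law_add (m s t : ℕ) (g : Perm (Fin (2 * m))) :
    law m (s + t) g = ∑ a, law m s a * law m t (a⁻¹ * g) := by
  classical
  rw [add_comm s t]
  have hperm : ∀ cs : Fin (t + s) → Fin m → Bool, permOf m (t + s) cs =
      permOf m s (fun i => cs (Fin.natAdd t i)) * permOf m t (fun i => cs (Fin.castAdd s i)) := by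
    intro cs
    apply Equiv.ext
    intro x
    rw [Perm.mul_apply, coe_permOf, coe_permOf, coe_permOf]
    exact iterPos_add m t s cs x
  rw [law_eq_avg]
  have h1 : avg (fun cs : Fin (t + s) → Fin m → Bool =>
      if permOf m (t + s) cs = g then (1 : ℝ) else 0) =
      avg (fun c1 : Fin s → Fin m → Bool => law m t ((permOf m s c1)⁻¹ * g)) := by
    unfold avg
    rw [← Equiv.sum_comp (Fin.appendEquiv t s), Fintype.sum_prod_type, Finset.sum_comm]
    simp only [law_eq_avg, avg, ← Finset.sum_div]
    rw [div_div]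
    congr 1
    · refine Finset.sum_congr rfl fun c1 _ => Finset.sum_congr rfl fun c2 _ => ?_
      rw [hperm]
      have e1 : (fun i => (Fin.appendEquiv t s (c2, c1)) (Fin.natAdd t i)) = c1 := by
        funext i
        simp [Fin.appendEquiv]
      have e2 : (fun i => (Fin.appendEquiv t s (c2, c1)) (Fin.castAdd s i)) = c2 := by
        funext i
        simp [Fin.appendEquiv]
      rw [e1, e2]
      congr 1
      rw [eq_iff_iff]
      constructor
      · intro h; rw [← h]; group
      · intro h; rw [h]; group
    · rw [← Nat.cast_mul]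
      congr 1
      simp only [Fintype.card_fun, Fintype.card_fin, Fintype.card_bool]
      rw [pow_add]
  rw [h1]
  have h2 := avg_iterPos m s (fun φ => if h : ∃ a : Perm (Fin (2 * m)), ⇑a = φ then
    law m t ((Classical.choose h)⁻¹ * g) else 0)
  have key : ∀ a : Perm (Fin (2 * m)), (if h : ∃ b : Perm (Fin (2 * m)), ⇑b = ⇑a then
    law m t ((Classical.choose h)⁻¹ * g) else 0) = law m t (a⁻¹ * g) := by
    intro a
    have hex : ∃ b : Perm (Fin (2 * m)), ⇑b = ⇑a := ⟨a, rfl⟩
    rw [dif_pos hex]
    have : Classical.choose hex = a := DFunLike.coe_injective (Classical.choose_spec hex)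
    rw [this]
  simp only [key] at h2
  rw [← h2]
  unfold avg
  congr 1
  refine Finset.sum_congr rfl fun c1 _ => ?_
  exact (key (permOf m s c1)).symm

/-- the same as a statement in `L²`. -/
theorem law_add_dl (m s t : ℕ) (u : L2 (Perm (Fin (2 * m)))) :
    cv (law m (s + t)) u = cv (law m s) (cv (law m t) u) := by
  ext g
  rw [cv_apply, cv_apply]
  simp only [cv_apply, law_add, Finset.sum_mul]
  rw [Finset.sum_comm]
  refine Finset.sum_congr rfl fun a _ => ?_
  rw [Finset.mul_sum, ← Equiv.sum_comp (Equiv.mulLeft a)]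
  refine Finset.sum_congr rfl fun b _ => ?_
  simp [mul_assoc]

theorem tv_mono (m s t : ℕ) : tvFromUniform m (s + t) ≤ tvFromUniform m t := by
  rw [tv_eq_law, tv_eq_law]
  refine mul_le_mul_of_nonneg_left ?_ (by norm_num)
  have h1 : ∀ g, law m (s + t) g - 1 / ((2 * m).factorial : ℝ) =
      ∑ a, law m s a * (law m t (a⁻¹ * g) - 1 / ((2 * m).factorial : ℝ)) := by
    intro g
    rw [law_add]
    simp only [mul_sub, Finset.sum_sub_distrib, ← Finset.sum_mul, law_sum, one_mul]
  calc ∑ g, |law m (s + t) g - 1 / ((2 * m).factorial : ℝ)|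
      ≤ ∑ g, ∑ a, law m s a * |law m t (a⁻¹ * g) - 1 / ((2 * m).factorial : ℝ)| := by
        refine Finset.sum_le_sum fun g _ => ?_
        rw [h1]
        refine (Finset.abs_sum_le_sum_abs _ _).trans (Finset.sum_le_sum fun a _ => ?_)
        rw [abs_mul, abs_of_nonneg (law_nonneg m s a)]
    _ = ∑ a, law m s a * ∑ g, |law m t (a⁻¹ * g) - 1 / ((2 * m).factorial : ℝ)| := by
        rw [Finset.sum_comm]
        simp only [Finset.mul_sum]
    _ = ∑ a, law m s a * ∑ g, |law m t g - 1 / ((2 * m).factorial : ℝ)| := by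
        refine Finset.sum_congr rfl fun a _ => ?_
        congr 1
        exact Equiv.sum_comp (Equiv.mulLeft a⁻¹)
          (fun g => |law m t g - 1 / ((2 * m).factorial : ℝ)|)
    _ = ∑ g, |law m t g - 1 / ((2 * m).factorial : ℝ)| := by
        rw [← Finset.sum_mul, law_sum, one_mul]

/-- flip one coin -/
def flipAt {m : ℕ} (u : Fin m) (c : Fin m → Bool) : Fin m → Bool :=
  Function.update c u (!(c u))

theorem flipAt_flipAt {m : ℕ} (u : Fin m) (c : Fin m → Bool) : flipAt u (flipAt u c) = c := by
  funext v
  by_cases h : v = u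
  · subst h; simp [flipAt]
  · simp [flipAt, h]

/-- the pair of positions -/
def pairSwap {m : ℕ} (u : Fin m) : Perm (Fin (2 * m)) :=
  Equiv.swap ⟨2 * u.val, by have := u.isLt; omega⟩ ⟨2 * u.val + 1, by have := u.isLt; omega⟩

theorem stepPos_flip {m : ℕ} (u : Fin m) (c : Fin m → Bool) (x : Fin (2 * m)) :
    stepPos m (flipAt u c) x = pairSwap u (stepPos m c x) := by
  have hx := x.isLt
  have hu := u.isLt
  have hmx : x.val % m < m := Nat.mod_lt _ (by omega)
  unfold pairSwap
  by_cases h : (⟨x.val % m, hmx⟩ : Fin m) = u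
  · have hv : x.val % m = u.val := by rw [← h]
    have hfl : flipAt u c ⟨x.val % m, hmx⟩ = !(c ⟨x.val % m, hmx⟩) := by
      rw [h]; simp [flipAt]
    have e1 : (stepPos m c x) = ⟨2 * u.val, by omega⟩ ∨
        (stepPos m c x) = ⟨2 * u.val + 1, by omega⟩ := by
      simp only [stepPos, Fin.ext_iff]
      split
      · right; omega
      · left; omega
    rcases e1 with e1 | e1
    · rw [e1, Equiv.swap_apply_left]
      have e1' := congrArg Fin.val e1
      apply Fin.ext
      simp only [stepPos, hfl] at e1' ⊢
      by_cases h1 : m ≤ x.val <;> cases hc : c ⟨x.val % m, hmx⟩ <;>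
        simp [h1, hc] at e1' ⊢ <;> omega
    · rw [e1, Equiv.swap_apply_right]
      have e1' := congrArg Fin.val e1
      apply Fin.ext
      simp only [stepPos, hfl] at e1' ⊢
      by_cases h1 : m ≤ x.val <;> cases hc : c ⟨x.val % m, hmx⟩ <;>
        simp [h1, hc] at e1' ⊢ <;> omega
  · have hfl : flipAt u c ⟨x.val % m, hmx⟩ = c ⟨x.val % m, hmx⟩ := by
      simp [flipAt, h]
    have hv : x.val % m ≠ u.val := fun h' => h (Fin.ext h')
    have e0 : stepPos m (flipAt u c) x = stepPos m c x := by
      apply Fin.ext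
      simp only [stepPos, hfl]
    rw [e0]
    symm
    apply Equiv.swap_apply_of_ne_of_ne
    · intro h'
      have := congrArg Fin.val h'
      simp only [stepPos] at this
      split at this <;> omega
    · intro h'
      have := congrArg Fin.val h'
      simp only [stepPos] at this
      split at this <;> omega

/-- flip one coin of the last row -/
theorem law_one_swap {m : ℕ} (u : Fin m) (g : Perm (Fin (2 * m))) :
    law m 1 (pairSwap u * g) = law m 1 g := by
  classical
  rw [law_eq_avg, law_eq_avg]
  unfold avg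
  congr 1
  let e : (Fin 1 → Fin m → Bool) ≃ (Fin 1 → Fin m → Bool) :=
    { toFun := fun cs i => flipAt u (cs i)
      invFun := fun cs i => flipAt u (cs i)
      left_inv := fun cs => by funext i; exact flipAt_flipAt u _
      right_inv := fun cs => by funext i; exact flipAt_flipAt u _ }
  rw [← Equiv.sum_comp e]
  refine Finset.sum_congr rfl fun cs _ => ?_
  have : permOf m 1 (e cs) = pairSwap u * permOf m 1 cs := by
    apply Equiv.ext
    intro x
    rw [Perm.mul_apply, coe_permOf, coe_permOf]
    exact stepPos_flip u (cs (Fin.last 0)) x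
  rw [this]
  simp

/-- One layer kills the sign times low juntas (adjoint version): for `f = sgn · jf a b` with
`2k ≤ ...` some pair `{2u, 2u+1}` avoids `range b`; `law m 1 (swap (2u) (2u+1) * g) = law m 1 g`. -/
theorem law_one_kill (m k : ℕ) (hk : k < m) (f : L2 (Perm (Fin (2 * m))))
    (hf : f ∈ sjunta (Fin (2 * m)) k) : cv (fun g => law m 1 g⁻¹) f = 0 := by
  classical
  obtain ⟨f0, hf0, rfl⟩ := hf
  have key : junta (Fin (2 * m)) k ≤
      LinearMap.ker ((cv (fun g => law m 1 g⁻¹)).comp (sgnMul (Fin (2 * m)))) := by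
    unfold junta
    rw [Submodule.span_le]
    rintro _ ⟨⟨a, b⟩, rfl⟩
    rw [SetLike.mem_coe, LinearMap.mem_ker, LinearMap.comp_apply]
    -- find u
    obtain ⟨u, hu⟩ : ∃ u : Fin m, ∀ i, (b i).val / 2 ≠ u.val := by
      by_contra hcon
      push Not at hcon
      have hsurj : Function.Surjective (fun i : Fin k =>
          (⟨(b i).val / 2, by have := (b i).isLt; omega⟩ : Fin m)) := by
        intro u
        obtain ⟨i, hi⟩ := hcon u
        exact ⟨i, Fin.ext hi⟩
      have := Fintype.card_le_of_surjective _ hsurj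
      simp at this
      omega
    have hfix : ∀ i, pairSwap u (b i) = b i := by
      intro i
      unfold pairSwap
      apply Equiv.swap_apply_of_ne_of_ne
      · intro h
        have := congrArg Fin.val h
        exact hu i (by simp only at this; omega)
      · intro h
        have := congrArg Fin.val h
        exact hu i (by simp only at this; omega)
    have hsign : Perm.sign (pairSwap u) = -1 := by
      unfold pairSwap
      apply Perm.sign_swap
      intro h
      have := congrArg Fin.val h
      simp at this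
    have hinv : (pairSwap u)⁻¹ = pairSwap u := by
      unfold pairSwap
      exact Equiv.swap_inv _ _
    ext g
    rw [cv_apply]
    change _ = (0 : ℝ)
    set F : Perm (Fin (2 * m)) → ℝ := fun x => law m 1 x⁻¹ * (sgnMul (Fin (2 * m)) (jf a b)) (x⁻¹ * g)
      with hF
    have hanti : ∀ x, F (x * pairSwap u) = - F x := by
      intro x
      simp only [hF]
      have e1 : (x * pairSwap u)⁻¹ = pairSwap u * x⁻¹ := by rw [mul_inv_rev, hinv]
      rw [e1, law_one_swap]
      have e2 : (sgnMul (Fin (2 * m)) (jf a b)) (pairSwap u * x⁻¹ * g) =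
          - (sgnMul (Fin (2 * m)) (jf a b)) (x⁻¹ * g) := by
        change ((Equiv.Perm.sign (pairSwap u * x⁻¹ * g) : ℤ) : ℝ) *
            (if ∀ i, (pairSwap u * x⁻¹ * g) (a i) = b i then (1 : ℝ) else 0) =
          - (((Equiv.Perm.sign (x⁻¹ * g) : ℤ) : ℝ) *
            (if ∀ i, (x⁻¹ * g) (a i) = b i then (1 : ℝ) else 0))
        rw [mul_assoc (pairSwap u), Perm.sign_mul, hsign]
        have e3 : (∀ i, (pairSwap u * (x⁻¹ * g)) (a i) = b i) ↔ (∀ i, (x⁻¹ * g) (a i) = b i) := by
          refine forall_congr' fun i => ?_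
          rw [Perm.mul_apply]
          conv_lhs => rw [← hfix i]
          exact (pairSwap u).injective.eq_iff
        simp only [e3]
        push_cast
        ring
      rw [e2]
      ring
    have hsum : ∑ x, F x = - ∑ x, F x := by
      conv_lhs => rw [← Equiv.sum_comp (Equiv.mulRight (pairSwap u))]
      rw [← Finset.sum_neg_distrib]
      exact Finset.sum_congr rfl fun x _ => hanti x
    have : ∑ x, F x = 0 := by linarith
    exact this
  have := key hf0
  rw [LinearMap.mem_ker, LinearMap.comp_apply] at this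
  exact this

end Crest.Agent.R155
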