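import Crest.Agent.R155.Junta

/-!
R155, Part R, task LevelDim: nonzero right invariant subspaces of level `k` are large.

Proof. Let `n = card α`, `c = (n-k)/k ≥ k`.
(a) Some `w ≠ 0` in `W` is fixed by `rt h` for all `h` fixing a `k`-tuple `a` pointwise: otherwise
    `pr W (jf a b) = 0` for all `a b`, so `W ⊥ junta α k`, contradiction (`pr W` commutes with `rt`).
(b) For `i` and `x ∉ range a`: `⟪w, rt (swap (a i) x) w⟫ = -‖w‖²/(n-k)`, because
    `w + ∑_{x ∉ range a} rt (swap (a i) x) w` is fixed by `rt h` for `h` fixing the other `k-1`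
    points, so is in `junta (k-1) ⊓ W = 0`, and the inner products for different `x` are equal.
(c) Choose disjoint `C_i` in the complement of `range a`, `|C_i| = c`, `E_i v = (c+1)⁻¹ (v + ∑_{x∈C_i}
    rt (swap (a i) x) v)` on vectors fixed by `Sym(C_i)`; with `E_i` the average of `rt` over
    `Sym({a_i} ∪ C_i)`, commuting projections, `‖E_i w‖² ≤ ‖w‖²/(c+1)`, so by the union bound
    (`k < c + 1`) `w' = ∏ (1 - E_i) w ≠ 0`.
(d) `∑_{y ∈ ∏ C_i} ∏_i (1 - rt (swap (a i) (y i))) w = (c+1)^k ∏ (1 - E_i) w ≠ 0`, so for some `y`, hence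
    (symmetry) for every `y ∈ ∏ C_i`, `v_y = ∏_i (1 - rt (swap (a i) (y i))) w ≠ 0`.
(e) `w_x = ∏_i rt (swap (a i) (x i)) w`, `x ∈ ∏ C_i`: `⟪w_x, v_y⟫ = 0` for `x ≠ y` (if `x i ≠ y i`,
    `τ = swap (a i) (y i)` has `rt τ w_x = w_x` and `rt τ v_y = - v_y`), and
    `⟪w_y, v_y⟫ = (-1)^k 2^(-k) ‖v_y‖² ≠ 0`. So the `c^k` vectors `w_x` are linearly independent.
-/

set_option autoImplicit false
set_option linter.unusedSectionVars false
set_option linter.unusedVariables false
set_option linter.unusedSimpArgs false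

namespace Crest.Agent.R155

open Finset Equiv

namespace LD

section abstract_part
variable {V : Type*} [NormedAddCommGroup V] [InnerProductSpace ℝ V]
variable {k c : ℕ}

theorem swapL {β : Type*} [DecidableEq β] (a b z : β) : (Equiv.swap a b z = a) = (z = b) :=
  propext (by rw [Equiv.swap_apply_eq_iff, Equiv.swap_apply_left])

theorem swapR {β : Type*} [DecidableEq β] (a b z : β) : (Equiv.swap a b z = b) = (z = a) :=
  propext (by rw [Equiv.swap_apply_eq_iff, Equiv.swap_apply_right])

theorem swapO {β : Type*} [DecidableEq β] (a b c z : β) (h : c ≠ a) (h' : c ≠ b) :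
    (Equiv.swap a b z = c) = (z = c) :=
  propext (by rw [Equiv.swap_apply_eq_iff, Equiv.swap_apply_of_ne_of_ne h h'])

/-- multilinear expression. -/
noncomputable def Ph (w : (Fin k → Fin (c + 1)) → V) (f : Fin k → Fin (c + 1) → ℝ) : V :=
  ∑ x, (∏ i, f i (x i)) • w x

/-- there are isometries permuting the vectors. -/
def Eqv (w : (Fin k → Fin (c + 1)) → V) : Prop :=
  ∀ g : Fin k → Perm (Fin (c + 1)), ∃ ρ : V →ₗᵢ[ℝ] V, ∀ x, ρ (w x) = w (fun i => g i (x i))

theorem ph_map {w : (Fin k → Fin (c + 1)) → V} (g : Fin k → Perm (Fin (c + 1)))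
    (ρ : V →ₗᵢ[ℝ] V) (hρ : ∀ x, ρ (w x) = w (fun i => g i (x i)))
    (f : Fin k → Fin (c + 1) → ℝ) : ρ (Ph w f) = Ph w (fun i z => f i ((g i).symm z)) := by
  unfold Ph
  rw [map_sum]
  simp only [map_smul, hρ]
  conv_rhs => rw [← Equiv.sum_comp (Equiv.piCongrRight g)]
  refine Finset.sum_congr rfl fun x _ => ?_
  simp [Equiv.piCongrRight]
  rfl

theorem ph_update (w : (Fin k → Fin (c + 1)) → V) (f : Fin k → Fin (c + 1) → ℝ) (i : Fin k)
    (h : Fin (c + 1) → ℝ) :
    Ph w (Function.update f i h) = ∑ x, (h (x i) * ∏ j ∈ univ.erase i, f j (x j)) • w x := by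
  unfold Ph
  refine Finset.sum_congr rfl fun x _ => ?_
  congr 1
  rw [← Finset.mul_prod_erase univ _ (Finset.mem_univ i)]
  rw [Function.update_self]
  congr 1
  refine Finset.prod_congr rfl fun j hj => ?_
  rw [Function.update_of_ne (Finset.ne_of_mem_erase hj)]

theorem ph_update_add (w : (Fin k → Fin (c + 1)) → V) (f : Fin k → Fin (c + 1) → ℝ) (i : Fin k)
    (h h' : Fin (c + 1) → ℝ) :
    Ph w (Function.update f i (fun z => h z + h' z)) =
      Ph w (Function.update f i h) + Ph w (Function.update f i h') := by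
  rw [ph_update, ph_update, ph_update, ← Finset.sum_add_distrib]
  refine Finset.sum_congr rfl fun x _ => ?_
  rw [← add_smul]; congr 1; ring

theorem ph_update_sum {ι : Type*} (s : Finset ι) (w : (Fin k → Fin (c + 1)) → V)
    (f : Fin k → Fin (c + 1) → ℝ) (i : Fin k)
    (h : ι → Fin (c + 1) → ℝ) :
    Ph w (Function.update f i (fun z => ∑ a ∈ s, h a z)) =
      ∑ a ∈ s, Ph w (Function.update f i (h a)) := by
  simp only [ph_update]
  rw [Finset.sum_comm]
  refine Finset.sum_congr rfl fun x _ => ?_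
  rw [← Finset.sum_smul, Finset.sum_mul]

theorem ph_smul (w : (Fin k → Fin (c + 1)) → V) (f : Fin k → Fin (c + 1) → ℝ) (ε : Fin k → ℝ) :
    Ph w (fun i z => ε i * f i z) = (∏ i, ε i) • Ph w f := by
  unfold Ph
  rw [Finset.smul_sum]
  refine Finset.sum_congr rfl fun x _ => ?_
  rw [Finset.prod_mul_distrib, smul_smul]

theorem ph_zero (w : (Fin k → Fin (c + 1)) → V) (f : Fin k → Fin (c + 1) → ℝ) (i : Fin k)
    (h : ∀ z, f i z = 0) : Ph w f = 0 := by
  unfold Ph
  refine Finset.sum_eq_zero fun x _ => ?_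
  rw [Finset.prod_eq_zero (Finset.mem_univ i) (h _), zero_smul]

/-- orthogonality of the constant and the centered parts -/
theorem ph_orth {w : (Fin k → Fin (c + 1)) → V} (hw : Eqv w) (f : Fin k → Fin (c + 1) → ℝ)
    (i : Fin k) (m : ℝ) (h : Fin (c + 1) → ℝ) (hh : ∑ z, h z = 0) :
    inner ℝ (Ph w (Function.update f i (fun _ => m))) (Ph w (Function.update f i h)) = 0 := by
  have hz : ∀ z : Fin (c + 1), ∃ ρ : V →ₗᵢ[ℝ] V,
      ρ (Ph w (Function.update f i (fun _ => m))) = Ph w (Function.update f i (fun _ => m)) ∧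
      ρ (Ph w (Function.update f i h)) = Ph w (Function.update f i (fun y => h (y - z))) := by
    intro z
    obtain ⟨ρ, hρ⟩ := hw (Function.update 1 i (Equiv.addRight z))
    refine ⟨ρ, ?_, ?_⟩
    · rw [ph_map _ ρ hρ]
      congr 1
      ext j y
      by_cases hj : j = i
      · subst hj; simp
      · simp only [Function.update_of_ne hj]; rfl
    · rw [ph_map _ ρ hρ]
      congr 1
      ext j y
      by_cases hj : j = i
      · subst hj; simp [sub_eq_add_neg]
      · simp only [Function.update_of_ne hj]; rfl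
  choose ρ h1 h2 using hz
  have h3 : ∀ z, inner ℝ (Ph w (Function.update f i (fun _ => m))) (Ph w (Function.update f i h)) =
      inner ℝ (Ph w (Function.update f i (fun _ => m)))
        (Ph w (Function.update f i (fun y => h (y - z)))) := by
    intro z
    rw [← (ρ z).inner_map_map, h1, h2]
  have h4 : ∑ z : Fin (c + 1), inner ℝ (Ph w (Function.update f i (fun _ => m)))
        (Ph w (Function.update f i (fun y => h (y - z)))) = 0 := by
    rw [← inner_sum, ← ph_update_sum]
    have : (fun y : Fin (c + 1) => ∑ a : Fin (c + 1), h (y - a)) = fun _ => 0 := by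
      ext y
      rw [← hh]
      exact Equiv.sum_comp (Equiv.subLeft y) h
    have h0 : Ph w (Function.update f i (fun y : Fin (c + 1) => ∑ a : Fin (c + 1), h (y - a))) = 0 := by
      rw [this]; exact ph_zero w _ i (by intro z; simp)
    rw [h0, inner_zero_right]
  rw [← Finset.sum_congr rfl fun z _ => h3 z] at h4
  simp only [Finset.sum_const, Finset.card_univ, Fintype.card_fin, nsmul_eq_mul] at h4
  rcases mul_eq_zero.mp h4 with h5 | h5
  · exfalso
    have : ((c + 1 : ℕ) : ℝ) ≠ 0 := by positivity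
    exact this h5
  · exact h5

/-- average of a function. -/
noncomputable def av (h : Fin (c + 1) → ℝ) : ℝ := (∑ z, h z) / (c + 1)

theorem ph_split {w : (Fin k → Fin (c + 1)) → V} (f : Fin k → Fin (c + 1) → ℝ)
    (i : Fin k) :
    Ph w f = Ph w (Function.update f i (fun _ => av (f i))) +
      Ph w (Function.update f i (fun z => f i z - av (f i))) := by
  rw [← ph_update_add]
  congr 1
  ext j z
  by_cases hj : j = i
  · subst hj; simp
  · simp [Function.update_of_ne hj]

theorem sum_cent (h : Fin (c + 1) → ℝ) : ∑ z, (h z - av h) = 0 := by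
  rw [Finset.sum_sub_distrib]
  simp only [Finset.sum_const, Finset.card_univ, Fintype.card_fin, nsmul_eq_mul, av]
  push_cast
  field_simp
  ring

theorem ph_pyth {w : (Fin k → Fin (c + 1)) → V} (hw : Eqv w) (f : Fin k → Fin (c + 1) → ℝ)
    (i : Fin k) :
    ‖Ph w f‖ ^ 2 = ‖Ph w (Function.update f i (fun _ => av (f i)))‖ ^ 2 +
      ‖Ph w (Function.update f i (fun z => f i z - av (f i)))‖ ^ 2 := by
  rw [ph_split f i, norm_add_sq_real, ph_orth hw f i _ _ (sum_cent _)]
  ring

/-- centering on a set of coordinates. -/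
noncomputable def cent (s : Finset (Fin k)) (f : Fin k → Fin (c + 1) → ℝ) :
    Fin k → Fin (c + 1) → ℝ :=
  fun i z => if i ∈ s then f i z - av (f i) else f i z

theorem cent_insert (s : Finset (Fin k)) (i : Fin k) (hi : i ∉ s)
    (f : Fin k → Fin (c + 1) → ℝ) :
    cent (insert i s) f =
      Function.update (cent s f) i (fun z => cent s f i z - av (cent s f i)) := by
  have hc : cent s f i = f i := by ext z; simp [cent, hi]
  ext j z
  by_cases hj : j = i
  · subst hj; simp [cent, hc, hi]
  · simp [Function.update_of_ne hj, cent, hj]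

theorem cent_update (s : Finset (Fin k)) (i : Fin k) (hi : i ∉ s)
    (f : Fin k → Fin (c + 1) → ℝ) (h : Fin (c + 1) → ℝ) :
    cent s (Function.update f i h) = Function.update (cent s f) i h := by
  ext j z
  by_cases hj : j = i
  · subst hj; simp [cent, hi]
  · simp [Function.update_of_ne hj, cent]

theorem ph_cent_le {w : (Fin k → Fin (c + 1)) → V} (hw : Eqv w) (f : Fin k → Fin (c + 1) → ℝ)
    (s : Finset (Fin k)) : ‖Ph w (cent s f)‖ ^ 2 ≤ ‖Ph w f‖ ^ 2 := by
  induction s using Finset.induction_on with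
  | empty =>
    have : cent ∅ f = f := by ext; simp [cent]
    rw [this]
  | insert i s hi ih =>
    rw [cent_insert s i hi]
    have := ph_pyth hw (cent s f) i
    nlinarith [sq_nonneg ‖Ph w (Function.update (cent s f) i (fun _ => av (cent s f i)))‖]

/-- the product of delta functions at `0`. -/
noncomputable def F0 : Fin k → Fin (c + 1) → ℝ := fun _ z => if z = 0 then 1 else 0

theorem ph_F0 (w : (Fin k → Fin (c + 1)) → V) : Ph w F0 = w 0 := by
  unfold Ph
  rw [Finset.sum_eq_single 0]
  · simp [F0]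
  · intro x _ hx
    obtain ⟨i, hi⟩ := Function.ne_iff.mp hx
    rw [Finset.prod_eq_zero (Finset.mem_univ i) (by simpa [F0] using hi), zero_smul]
  · simp

theorem av_F0 (i : Fin k) : av (F0 (c := c) i) = 1 / (c + 1) := by
  simp [av, F0]

theorem ph_union {w : (Fin k → Fin (c + 1)) → V} (hw : Eqv w) (s : Finset (Fin k)) :
    ‖w 0‖ ^ 2 - ∑ i ∈ s, ‖Ph w (Function.update F0 i (fun _ => 1 / ((c : ℝ) + 1)))‖ ^ 2 ≤
      ‖Ph w (cent s F0)‖ ^ 2 := by
  induction s using Finset.induction_on with
  | empty =>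
    have : cent ∅ (F0 : Fin k → Fin (c + 1) → ℝ) = F0 := by ext; simp [cent]
    rw [this, ph_F0]; simp
  | insert i s hi ih =>
    rw [Finset.sum_insert hi, cent_insert s i hi]
    have hp := ph_pyth hw (cent s F0) i
    have hc : cent s F0 i = (F0 i : Fin (c + 1) → ℝ) := by ext z; simp [cent, hi]
    have h1 : ‖Ph w (Function.update (cent s F0) i (fun _ => av (cent (c := c) s F0 i)))‖ ^ 2 ≤
        ‖Ph w (Function.update F0 i (fun _ => 1 / ((c : ℝ) + 1)))‖ ^ 2 := by
      rw [hc, av_F0, ← cent_update s i hi]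
      exact ph_cent_le hw _ s
    linarith

theorem ph_single_le {w : (Fin k → Fin (c + 1)) → V} (hw : Eqv w)
    (hneg : ∀ (i : Fin k) (z : Fin (c + 1)), z ≠ 0 →
      inner ℝ (w 0) (w (Function.update 0 i z)) ≤ 0) (i : Fin k) :
    ‖Ph w (Function.update F0 i (fun _ => 1 / ((c : ℝ) + 1)))‖ ^ 2 ≤ ‖w 0‖ ^ 2 / (c + 1) := by
  have h1 : inner ℝ (w 0) (Ph w (Function.update F0 i (fun _ => 1 / ((c : ℝ) + 1)))) =
      ‖Ph w (Function.update F0 i (fun _ => 1 / ((c : ℝ) + 1)))‖ ^ 2 := by
    have h2 := ph_orth hw F0 i (1 / ((c : ℝ) + 1)) (fun z => F0 i z - av (F0 i)) (sum_cent _)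
    have h3 := ph_split (w := w) F0 i
    rw [ph_F0, av_F0] at h3
    rw [av_F0] at h2
    conv_lhs => rw [h3]
    rw [inner_add_left, real_inner_self_eq_norm_sq, real_inner_comm, h2, add_zero]
  rw [← h1, ph_update, inner_sum]
  have hterm : ∀ x : Fin k → Fin (c + 1),
      inner ℝ (w 0) ((1 / ((c : ℝ) + 1) * ∏ j ∈ univ.erase i, F0 j (x j)) • w x) ≤
        if x = 0 then ‖w 0‖ ^ 2 / (c + 1) else 0 := by
    intro x
    rw [inner_smul_right]
    by_cases hx : ∀ j, j ≠ i → x j = 0
    · have hxu : x = Function.update (0 : Fin k → Fin (c + 1)) i (x i) := by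
        ext j
        by_cases hj : j = i
        · subst hj; simp
        · simp [Function.update_of_ne hj, hx j hj]
      have hprod : ∏ j ∈ univ.erase i, (F0 j (x j) : ℝ) = 1 :=
        Finset.prod_eq_one fun j hj => by simp [F0, hx j (Finset.ne_of_mem_erase hj)]
      rw [hprod, mul_one]
      split_ifs with h0
      · subst h0
        rw [real_inner_self_eq_norm_sq]
        apply le_of_eq
        ring
      · have hxi : x i ≠ 0 := by
          intro h
          apply h0
          rw [hxu, h]
          simp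
        have := hneg i (x i) hxi
        rw [← hxu] at this
        apply mul_nonpos_of_nonneg_of_nonpos _ this
        positivity
    · push Not at hx
      obtain ⟨j, hj, hxj⟩ := hx
      have hprod : ∏ j ∈ univ.erase i, (F0 j (x j) : ℝ) = 0 :=
        Finset.prod_eq_zero (Finset.mem_erase.mpr ⟨hj, Finset.mem_univ j⟩) (by simp [F0, hxj])
      rw [hprod, mul_zero, zero_mul]
      split_ifs <;> positivity
  calc _ ≤ ∑ x : Fin k → Fin (c + 1), (if x = 0 then ‖w 0‖ ^ 2 / ((c : ℝ) + 1) else 0) :=
        Finset.sum_le_sum fun x _ => hterm x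
    _ = _ := by simp

theorem ph_cent_ne {w : (Fin k → Fin (c + 1)) → V} (hw : Eqv w)
    (hneg : ∀ (i : Fin k) (z : Fin (c + 1)), z ≠ 0 →
      inner ℝ (w 0) (w (Function.update 0 i z)) ≤ 0) (h0 : w 0 ≠ 0) (hkc : k < c + 1) :
    Ph w (fun _ z => (if z = 0 then 1 else 0) - 1 / ((c : ℝ) + 1)) ≠ 0 := by
  intro hcon
  have h1 := ph_union hw Finset.univ
  have h2 : cent Finset.univ (F0 : Fin k → Fin (c + 1) → ℝ) =
      (fun _ z => (if z = 0 then 1 else 0) - 1 / ((c : ℝ) + 1)) := by
    ext i z
    simp only [cent, Finset.mem_univ, if_true, av_F0]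
    rfl
  rw [h2, hcon, norm_zero] at h1
  have h3 : ∑ i : Fin k, ‖Ph w (Function.update F0 i (fun _ => 1 / ((c : ℝ) + 1)))‖ ^ 2 ≤
      k * (‖w 0‖ ^ 2 / (c + 1)) := by
    calc _ ≤ ∑ i : Fin k, (‖w 0‖ ^ 2 / ((c : ℝ) + 1)) :=
          Finset.sum_le_sum fun i _ => ph_single_le hw hneg i
      _ = _ := by simp
  have h4 : 0 < ‖w 0‖ ^ 2 := by positivity
  have h5 : (k : ℝ) * (‖w 0‖ ^ 2 / (c + 1)) < ‖w 0‖ ^ 2 := by
    rw [← mul_div_assoc, div_lt_iff₀ (by positivity)]
    have : (k : ℝ) < c + 1 := by exact_mod_cast hkc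
    nlinarith
  nlinarith

/-- difference of delta functions. -/
noncomputable def dd (y : Fin k → Fin (c + 1)) : Fin k → Fin (c + 1) → ℝ :=
  fun i z => (if z = 0 then 1 else 0) - (if z = y i then 1 else 0)

theorem ph_dd_ne {w : (Fin k → Fin (c + 1)) → V} (hw : Eqv w)
    (hneg : ∀ (i : Fin k) (z : Fin (c + 1)), z ≠ 0 →
      inner ℝ (w 0) (w (Function.update 0 i z)) ≤ 0) (h0 : w 0 ≠ 0) (hkc : k < c + 1)
    (y : Fin k → Fin (c + 1)) (hy : ∀ i, y i ≠ 0) : Ph w (dd y) ≠ 0 := by
  intro hcon
  have hall : ∀ y' : Fin k → Fin (c + 1), Ph w (dd y') = 0 := by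
    intro y'
    by_cases hy' : ∀ i, y' i ≠ 0
    · obtain ⟨ρ, hρ⟩ := hw (fun i => Equiv.swap (y i) (y' i))
      have h1 := ph_map _ ρ hρ (dd y)
      rw [hcon, map_zero] at h1
      rw [h1]
      congr 1
      ext i z
      simp only [dd, Equiv.symm_swap]
      have e1 : (Equiv.swap (y i) (y' i) z = 0) = (z = 0) :=
        swapO _ _ _ _ (hy i).symm (hy' i).symm
      have e2 : (Equiv.swap (y i) (y' i) z = y i) = (z = y' i) := swapL _ _ _
      simp only [e1, e2]
    · push Not at hy'
      obtain ⟨i, hi⟩ := hy'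
      exact ph_zero w _ i (by intro z; simp [dd, hi])
  have hsum : ∑ y' : Fin k → Fin (c + 1), Ph w (dd y') = 0 :=
    Finset.sum_eq_zero fun y' _ => hall y'
  have h2 : ∑ y' : Fin k → Fin (c + 1), Ph w (dd y') =
      Ph w (fun _ z => ((c : ℝ) + 1) * ((if z = 0 then 1 else 0) - 1 / ((c : ℝ) + 1))) := by
    unfold Ph
    rw [Finset.sum_comm]
    refine Finset.sum_congr rfl fun x _ => ?_
    rw [← Finset.sum_smul]
    congr 1
    have h3 := Finset.prod_univ_sum (fun _ : Fin k => (Finset.univ : Finset (Fin (c + 1))))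
      (fun i z => ((if x i = 0 then (1 : ℝ) else 0) - (if x i = z then 1 else 0)))
    rw [Fintype.piFinset_univ] at h3
    simp only [dd]
    rw [← h3]
    refine Finset.prod_congr rfl fun i _ => ?_
    rw [Finset.sum_sub_distrib]
    have hc1 : ((c : ℝ) + 1) ≠ 0 := by positivity
    simp
    rw [mul_sub, mul_inv_cancel₀ hc1]
    split_ifs <;> simp
  rw [hsum, ph_smul w _ (fun _ => (c : ℝ) + 1)] at h2
  have h3 := ph_cent_ne hw hneg h0 hkc
  have h4 : (∏ i : Fin k, ((c : ℝ) + 1)) ≠ 0 := by
    rw [Finset.prod_const]; positivity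
  exact (smul_ne_zero h4 h3) h2.symm

theorem ph_dd_sign {w : (Fin k → Fin (c + 1)) → V}
    (y x : Fin k → Fin (c + 1)) (hx : ∀ i, x i = 0 ∨ x i = y i)
    (ρ : V →ₗᵢ[ℝ] V) (hρ : ∀ z, ρ (w z) = w (fun i => Equiv.swap (x i) (y i) (z i))) :
    ∃ ε : ℝ, ρ (Ph w (dd y)) = ε • Ph w (dd y) := by
  refine ⟨∏ i, (if x i = y i then 1 else -1), ?_⟩
  rw [ph_map _ ρ hρ, ← ph_smul]
  congr 1
  ext i z
  simp only [Equiv.symm_swap]
  split_ifs with h
  · rw [h]; simp
  · have hx0 : x i = 0 := (hx i).resolve_right h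
    rw [hx0]
    simp only [dd]
    have e1 : (Equiv.swap 0 (y i) z = 0) = (z = y i) := swapL _ _ _
    have e2 : (Equiv.swap 0 (y i) z = y i) = (z = 0) := swapR _ _ _
    simp only [e1, e2]
    ring

theorem abstract_li {w : (Fin k → Fin (c + 1)) → V} (hw : Eqv w)
    (hneg : ∀ (i : Fin k) (z : Fin (c + 1)), z ≠ 0 →
      inner ℝ (w 0) (w (Function.update 0 i z)) ≤ 0) (h0 : w 0 ≠ 0) (hkc : k < c + 1) :
    LinearIndependent ℝ (fun y : Fin k → Fin c => w (fun i => (y i).succ)) := by
  -- biorthogonal family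
  have horth : ∀ x y : Fin k → Fin c, x ≠ y →
      inner ℝ (Ph w (dd (fun i => (y i).succ))) (w (fun i => (x i).succ)) = 0 := by
    intro x y hxy
    obtain ⟨i, hi⟩ := Function.ne_iff.mp hxy
    obtain ⟨ρ, hρ⟩ := hw (Function.update 1 i (Equiv.swap 0 (y i).succ))
    have h1 : ρ (w (fun i => (x i).succ)) = w (fun i => (x i).succ) := by
      rw [hρ]
      congr 1
      ext j
      by_cases hj : j = i
      · subst hj
        rw [Function.update_self, Equiv.swap_apply_of_ne_of_ne (Fin.succ_ne_zero _)]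
        intro h; exact hi (Fin.succ_injective _ h)
      · simp [Function.update_of_ne hj]
    have h2 : ρ (Ph w (dd (fun i => (y i).succ))) = - Ph w (dd (fun i => (y i).succ)) := by
      rw [ph_map _ ρ hρ]
      have : (fun i_1 z => dd (fun i => (y i).succ) i_1
          ((Function.update (1 : Fin k → Perm (Fin (c + 1))) i (Equiv.swap 0 (y i).succ) i_1).symm
            z)) =
          fun j z => (if j = i then (-1 : ℝ) else 1) * dd (fun i => (y i).succ) j z := by
        ext j z
        by_cases hj : j = i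
        · subst hj
          simp only [Function.update_self, Equiv.symm_swap, dd, if_true]
          have e1 : (Equiv.swap 0 (y j).succ z = 0) = (z = (y j).succ) := swapL _ _ _
          have e2 : (Equiv.swap 0 (y j).succ z = (y j).succ) = (z = 0) := swapR _ _ _
          simp only [e1, e2]
          ring
        · simp only [Function.update_of_ne hj, if_neg hj, one_mul]; rfl
      rw [this, ph_smul]
      simp
    have h3 := ρ.inner_map_map (Ph w (dd (fun i => (y i).succ))) (w (fun i => (x i).succ))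
    rw [h1, h2, inner_neg_left] at h3
    linarith
  have hne : ∀ y : Fin k → Fin c,
      inner ℝ (Ph w (dd (fun i => (y i).succ))) (w (fun i => (y i).succ)) ≠ 0 := by
    intro y hcon
    apply ph_dd_ne hw hneg h0 hkc (fun i => (y i).succ) (fun i => Fin.succ_ne_zero _)
    rw [← inner_self_eq_zero (𝕜 := ℝ)]
    show inner ℝ (Ph w (dd (fun i => (y i).succ)))
      (∑ x, (∏ i, dd (fun i => (y i).succ) i (x i)) • w x) = 0
    rw [inner_sum]
    refine Finset.sum_eq_zero fun x _ => ?_
    rw [inner_smul_right]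
    by_cases hx : ∀ i, x i = 0 ∨ x i = (y i).succ
    · obtain ⟨ρ, hρ⟩ := hw (fun i => Equiv.swap (x i) (y i).succ)
      obtain ⟨ε, hε⟩ := ph_dd_sign (fun i => (y i).succ) x hx ρ hρ
      have h3 := ρ.inner_map_map (Ph w (dd (fun i => (y i).succ))) (w x)
      rw [hε, hρ] at h3
      have : (fun i => (Equiv.swap (x i) (y i).succ) (x i)) = fun i => (y i).succ := by
        ext i; simp
      rw [this, inner_smul_left, hcon, mul_zero] at h3
      rw [← h3, mul_zero]
    · push Not at hx
      obtain ⟨i, hi1, hi2⟩ := hx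
      rw [Finset.prod_eq_zero (Finset.mem_univ i) (by simp [dd, hi1, hi2]), zero_mul]
  rw [linearIndependent_iff']
  intro s g hg y hy
  have h1 : inner ℝ (Ph w (dd (fun i => (y i).succ)))
      (∑ x ∈ s, g x • w (fun i => (x i).succ)) = 0 := by rw [hg, inner_zero_right]
  rw [inner_sum, Finset.sum_eq_single y] at h1
  · rw [inner_smul_right] at h1
    exact (mul_eq_zero.mp h1).resolve_right (hne y)
  · intro x _ hxy
    rw [inner_smul_right, horth x y hxy, mul_zero]
  · intro h; exact absurd hy h

end abstract_part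

section concrete
variable {α : Type} [Fintype α] [DecidableEq α]

/-- the vectors `w_b`. -/
noncomputable def wv (W : Submodule ℝ (L2 (Perm α))) {k : ℕ} (β b : Fin k ↪ α) : L2 (Perm α) :=
  pr W (jf b β)

theorem rt_wv {W : Submodule ℝ (L2 (Perm α))} (hW : InvR W) {k : ℕ} (β b : Fin k ↪ α)
    (g : Perm α) : rt g (wv W β b) = wv W β (b.trans g.toEmbedding) := by
  unfold wv
  rw [← pr_rt hW, rt_jf]

/-- modification of one coordinate. -/
def upd {k : ℕ} (b : Fin k ↪ α) (i : Fin k) (x : α) (hx : ∀ j, j ≠ i → b j ≠ x) : Fin k ↪ α :=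
  ⟨Function.update b i x, by
    intro p q hpq
    by_cases hp : p = i
    · by_cases hq : q = i
      · rw [hp, hq]
      · rw [hp, Function.update_self, Function.update_of_ne hq] at hpq
        exact absurd hpq.symm (hx q hq)
    · by_cases hq : q = i
      · rw [hq, Function.update_self, Function.update_of_ne hp] at hpq
        exact absurd hpq (hx p hp)
      · rw [Function.update_of_ne hq, Function.update_of_ne hp] at hpq
        exact b.injective hpq⟩

theorem upd_apply {k : ℕ} (b : Fin k ↪ α) (i : Fin k) (x : α) (hx : ∀ j, j ≠ i → b j ≠ x)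
    (j : Fin k) : upd b i x hx j = Function.update b i x j := rfl

/-- sum over all modifications of a coordinate is a `(k-1)`-junta. -/
theorem sum_upd {m : ℕ} (β b : Fin (m + 1) ↪ α) (i : Fin (m + 1)) :
    ∑ x : α, (if hx : ∀ j, j ≠ i → b j ≠ x then jf (upd b i x hx) β else 0) =
      jf ((Fin.succAboveEmb i).trans b) ((Fin.succAboveEmb i).trans β) := by
  ext g
  rw [jf_apply]
  simp only [WithLp.ofLp_sum, Finset.sum_apply]
  by_cases hg : ∀ j : Fin m, g (b (i.succAbove j)) = β (i.succAbove j)
  · have hg' : ∀ j, j ≠ i → g (b j) = β j := by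
      intro j hj
      obtain ⟨j', rfl⟩ := Fin.exists_succAbove_eq hj
      exact hg j'
    rw [if_pos (by simpa using hg)]
    rw [Finset.sum_eq_single (g⁻¹ (β i))]
    · have hx : ∀ j, j ≠ i → b j ≠ g⁻¹ (β i) := by
        intro j hj h
        have : g (b j) = β i := by rw [h]; simp
        rw [hg' j hj] at this
        exact hj (β.injective this)
      rw [dif_pos hx, jf_apply, if_pos]
      intro j
      rw [upd_apply]
      by_cases hj : j = i
      · subst hj; simp
      · rw [Function.update_of_ne hj]; exact hg' j hj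
    · intro x _ hx
      split_ifs with h
      · rw [jf_apply, if_neg]
        intro hcon
        apply hx
        have := hcon i
        rw [upd_apply, Function.update_self] at this
        rw [← this]; simp
      · rfl
    · simp
  · rw [if_neg (by simpa using hg)]
    refine Finset.sum_eq_zero fun x _ => ?_
    split_ifs with h
    · rw [jf_apply, if_neg]
      intro hcon
      apply hg
      intro j
      have := hcon (i.succAbove j)
      rwa [upd_apply, Function.update_of_ne (Fin.succAbove_ne i j)] at this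
    · rfl

theorem sum_wv {m : ℕ} {W : Submodule ℝ (L2 (Perm α))} (hWl : W ≤ (junta α m)ᗮ)
    (β b : Fin (m + 1) ↪ α) (i : Fin (m + 1)) :
    ∑ x : α, (if hx : ∀ j, j ≠ i → b j ≠ x then wv W β (upd b i x hx) else 0) = 0 := by
  have h1 : ∑ x : α, (if hx : ∀ j, j ≠ i → b j ≠ x then wv W β (upd b i x hx) else 0) =
      pr W (∑ x : α, (if hx : ∀ j, j ≠ i → b j ≠ x then jf (upd b i x hx) β else 0)) := by
    rw [map_sum]
    refine Finset.sum_congr rfl fun x _ => ?_
    split_ifs
    · rfl
    · simp
  rw [h1, sum_upd]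
  apply pr_eq_of W.zero_mem
  rw [sub_zero, Submodule.mem_orthogonal]
  intro u hu
  have h2 := hWl hu
  rw [Submodule.mem_orthogonal] at h2
  rw [real_inner_comm]
  exact h2 _ (Submodule.subset_span ⟨(_, _), rfl⟩)

theorem inner_wv_inv {W : Submodule ℝ (L2 (Perm α))} (hW : InvR W) {k : ℕ} (β b b' : Fin k ↪ α)
    (g : Perm α) : inner ℝ (wv W β (b.trans g.toEmbedding)) (wv W β (b'.trans g.toEmbedding)) =
      inner ℝ (wv W β b) (wv W β b') := by
  rw [← rt_wv hW, ← rt_wv hW, (rt g).inner_map_map]

/-- the inner product of `w_b` with a one-coordinate modification. -/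
theorem inner_upd {m : ℕ} {W : Submodule ℝ (L2 (Perm α))} (hW : InvR W)
    (hWl : W ≤ (junta α m)ᗮ)
    (β b : Fin (m + 1) ↪ α) (i : Fin (m + 1)) (x : α) (hx : ∀ j, b j ≠ x) :
    inner ℝ (wv W β b) (wv W β (upd b i x (fun j _ => hx j))) ≤ 0 := by
  have h0 := sum_wv hWl β b i
  have h1 : ∑ y : α, inner ℝ (wv W β b)
      (if hy : ∀ j, j ≠ i → b j ≠ y then wv W β (upd b i y hy) else 0) = 0 := by
    rw [← inner_sum, h0, inner_zero_right]
  set q := inner ℝ (wv W β b) (wv W β (upd b i x (fun j _ => hx j))) with hq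
  have h2 : ∀ y : α, inner ℝ (wv W β b)
      (if hy : ∀ j, j ≠ i → b j ≠ y then wv W β (upd b i y hy) else 0) =
      if y = b i then ‖wv W β b‖ ^ 2 else if (∀ j, b j ≠ y) then q else 0 := by
    intro y
    by_cases hyi : y = b i
    · have hy' : ∀ j, j ≠ i → b j ≠ y := by
        intro j hj h; exact hj (b.injective (h.trans hyi))
      rw [if_pos hyi, dif_pos hy']
      · have : upd b i y hy' = b := by
          ext j
          rw [upd_apply]
          by_cases hj : j = i
          · subst hj; rw [Function.update_self, hyi]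
          · rw [Function.update_of_ne hj]
        rw [this, real_inner_self_eq_norm_sq]
    · rw [if_neg hyi]
      by_cases hy : ∀ j, b j ≠ y
      · rw [if_pos hy, dif_pos (fun j _ => hy j), hq, ← inner_wv_inv hW β b _ (Equiv.swap x y)]
        congr 2
        · ext j
          simp [Equiv.swap_apply_of_ne_of_ne (hx j) (hy j)]
        · ext j
          simp only [Function.Embedding.trans_apply, Equiv.coe_toEmbedding, upd_apply]
          by_cases hj : j = i
          · subst hj; simp
          · rw [Function.update_of_ne hj, Function.update_of_ne hj,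
              Equiv.swap_apply_of_ne_of_ne (hx j) (hy j)]
      · rw [if_neg hy, dif_neg, inner_zero_right]
        intro h
        apply hy
        intro j hj
        by_cases hji : j = i
        · subst hji; exact hyi hj.symm
        · exact h j hji hj
  rw [Finset.sum_congr rfl fun y _ => h2 y] at h1
  by_contra hcon
  push Not at hcon
  have h3 : 0 < ∑ y : α, (if y = b i then ‖wv W β b‖ ^ 2
      else if (∀ j, b j ≠ y) then q else 0) := by
    apply Finset.sum_pos'
    · intro y _
      split_ifs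
      · positivity
      · exact hcon.le
      · exact le_rfl
    · refine ⟨x, Finset.mem_univ x, ?_⟩
      rw [if_neg (fun h => hx i h.symm), if_pos hx]
      exact hcon
  linarith

end concrete

end LD

variable {α : Type} [Fintype α] [DecidableEq α]

theorem level_dim {k : ℕ} (hk : 1 ≤ k) (hkn : k * k + k ≤ Fintype.card α)
    (W : Submodule ℝ (L2 (Perm α))) (hW : InvR W) (hWl : W ≤ lev α k) (hne : W ≠ ⊥) :
    ((Fintype.card α - k) / k) ^ k ≤ Module.finrank ℝ W := by
  classical
  obtain ⟨m, rfl⟩ : ∃ m, k = m + 1 := ⟨k - 1, by omega⟩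
  set c := (Fintype.card α - (m + 1)) / (m + 1) with hc
  have hWj : W ≤ junta α (m + 1) := hWl.trans inf_le_left
  have hWo : W ≤ (junta α m)ᗮ := hWl.trans inf_le_right
  -- some `w_b` is nonzero
  obtain ⟨a, β, hab⟩ : ∃ a β : Fin (m + 1) ↪ α, LD.wv W β a ≠ 0 := by
    by_contra hcon
    push Not at hcon
    apply hne
    rw [eq_bot_iff]
    intro w hw
    have h1 : ∀ u ∈ junta α (m + 1), inner ℝ u w = 0 := by
      intro u hu
      induction hu using Submodule.span_induction with
      | mem u hu =>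
        obtain ⟨⟨a, b⟩, rfl⟩ := hu
        have h2 := hcon a b
        have h3 : inner ℝ (pr W (jf a b)) w = 0 := by
          show inner ℝ (LD.wv W b a) w = 0
          rw [h2, inner_zero_left]
        rw [inner_pr_left, pr_of_mem hw] at h3
        exact h3
      | zero => simp
      | add x y _ _ hx hy => rw [inner_add_left, hx, hy, add_zero]
      | smul r x _ hx => rw [inner_smul_left, hx, mul_zero]
    have h4 := h1 w (hWj hw)
    simpa using h4
  -- an embedding `t : Fin (m+1) × Fin (c+1) ↪ α` with `t (i, 0) = a i`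
  have hcard : (m + 1) * (c + 1) ≤ Fintype.card α := by
    have h1 : (m + 1) * c ≤ Fintype.card α - (m + 1) := by
      rw [hc]; exact Nat.mul_div_le _ _
    have h2 : m + 1 ≤ Fintype.card α := by nlinarith
    calc (m + 1) * (c + 1) = (m + 1) * c + (m + 1) := by ring
      _ ≤ Fintype.card α := by omega
  have hkc : m + 1 < c + 1 := by
    have h1 : m + 1 ≤ c := by
      rw [hc, Nat.le_div_iff_mul_le (by omega)]
      have h2 : (m + 1) * (m + 1) + (m + 1) ≤ Fintype.card α := hkn
      omega
    omega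
  obtain ⟨t, ht⟩ : ∃ t : Fin (m + 1) × Fin (c + 1) ↪ α, ∀ i, t (i, 0) = a i := by
    obtain ⟨t0⟩ : Nonempty (Fin (m + 1) × Fin (c + 1) ↪ α) := by
      apply Function.Embedding.nonempty_of_card_le
      simpa using hcard
    let b : Fin (m + 1) ↪ α := ⟨fun i => t0 (i, 0), fun i j h => by
      have := t0.injective h
      simpa using this⟩
    obtain ⟨σ, hσ⟩ : ∃ σ : Perm α, ∀ i, σ (b i) = a i := by
      let e : {x // x ∈ Set.range b} ≃ {x // x ∈ Set.range a} :=
        (Equiv.ofInjective b b.injective).symm.trans (Equiv.ofInjective a a.injective)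
      refine ⟨e.extendSubtype, fun i => ?_⟩
      rw [Equiv.extendSubtype_apply_of_mem e (b i) ⟨i, rfl⟩]
      have : (Equiv.ofInjective b b.injective).symm ⟨b i, ⟨i, rfl⟩⟩ = i :=
        Equiv.ofInjective_symm_apply b.injective i
      simp only [e, Equiv.trans_apply]
      rw [this]
      rfl
    exact ⟨t0.trans σ.toEmbedding, hσ⟩
  let bt : (Fin (m + 1) → Fin (c + 1)) → (Fin (m + 1) ↪ α) := fun x =>
    ⟨fun i => t (i, x i), fun i j h => by
      have := t.injective h
      simpa using congrArg Prod.fst this⟩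
  let w : (Fin (m + 1) → Fin (c + 1)) → L2 (Perm α) := fun x => LD.wv W β (bt x)
  have hbt0 : bt 0 = a := by ext i; exact ht i
  have hE : LD.Eqv w := by
    intro g
    let e : Perm (Fin (m + 1) × Fin (c + 1)) := Equiv.prodShear (Equiv.refl _) g
    refine ⟨(rt (e.viaEmbedding t)).toLinearIsometry, fun x => ?_⟩
    show rt (e.viaEmbedding t) (LD.wv W β (bt x)) = LD.wv W β (bt _)
    rw [LD.rt_wv hW]
    congr 1
    ext i
    show e.viaEmbedding t (t (i, x i)) = t (i, g i (x i))
    rw [Equiv.Perm.viaEmbedding_apply]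
    rfl
  have hneg : ∀ (i : Fin (m + 1)) (z : Fin (c + 1)), z ≠ 0 →
      inner ℝ (w 0) (w (Function.update 0 i z)) ≤ 0 := by
    intro i z hz
    have hx : ∀ j, a j ≠ t (i, z) := by
      intro j hj
      rw [← ht j] at hj
      have := t.injective hj
      simp only [Prod.mk.injEq] at this
      exact hz this.2.symm
    have h1 := LD.inner_upd hW hWo β a i (t (i, z)) hx
    have h2 : bt (Function.update 0 i z) = LD.upd a i (t (i, z)) (fun j _ => hx j) := by
      ext j
      rw [LD.upd_apply]
      show t (j, Function.update (0 : Fin (m + 1) → Fin (c + 1)) i z j) = _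
      by_cases hj : j = i
      · subst hj; simp
      · rw [Function.update_of_ne hj, Function.update_of_ne hj]; exact ht j
    show inner ℝ (LD.wv W β (bt 0)) (LD.wv W β (bt _)) ≤ 0
    rw [hbt0, h2]
    exact h1
  have h0 : w 0 ≠ 0 := by
    show LD.wv W β (bt 0) ≠ 0
    rw [hbt0]; exact hab
  have hli := LD.abstract_li hE hneg h0 hkc
  have hmem : ∀ x, w x ∈ W := fun x => pr_mem _ _
  have hli' : LinearIndependent ℝ (fun y : Fin (m + 1) → Fin c =>
      (⟨w (fun i => (y i).succ), hmem _⟩ : W)) := by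
    apply LinearIndependent.of_comp W.subtype
    exact hli
  have := hli'.fintype_card_le_finrank
  simpa using this

end Crest.Agent.R155
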