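import Crest.Agent.R155.NBasic

/-!
R155, Part N, task Model: `d + 1` steps of the shuffle of `2 * 2^d` cards are one butterfly.

Proof idea: write positions as numbers. `s0 z = s (2z)`, `s1 z = s (2z+1)`. After `i ≤ d` steps the
position `X = (hi, b, lo)` (`lo < 2^i`, `b` one bit, `hi` the rest) contains the content of position
`(hi, lo)` of the `i`-step run of the size `2^d` shuffle started from `s_b`, whose coins are
`c_b (hi', lo) = c (hi', b, lo)`. The map `c ↦ (c_false, c_true)` is a bijection row by row. For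
`i = d` : `X = (b, lo)`, and the last step is the merging layer.
-/

set_option autoImplicit false
set_option linter.unusedSectionVars false
set_option linter.unusedVariables false

namespace Crest.Agent.R155

open Finset

theorem two_pow_succ' (d : ℕ) : 2 ^ (d + 1) = 2 * 2 ^ d := by rw [pow_succ, mul_comm]

/-- number of a word, the second component being the lowest bit. -/
def cubeNum : (d : ℕ) → Cube d → ℕ
  | 0, _ => 0
  | d + 1, p => 2 * cubeNum d p.1 + (if p.2 then 1 else 0)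

theorem cubeNum_lt : (d : ℕ) → (z : Cube d) → cubeNum d z < 2 ^ d
  | 0, _ => by simp [cubeNum]
  | d + 1, (z, b) => by
    have h1 := cubeNum_lt d z
    have h2 := two_pow_succ' d
    have h3 : cubeNum (d + 1) (z, b) = 2 * cubeNum d z + (if b then 1 else 0) := rfl
    rw [h3]
    split <;> omega

/-- word of a number -/
def numCube : (d : ℕ) → ℕ → Cube d
  | 0, _ => ()
  | d + 1, x => (numCube d (x / 2), decide (x % 2 = 1))

theorem numCube_cubeNum : (d : ℕ) → (z : Cube d) → numCube d (cubeNum d z) = z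
  | 0, _ => rfl
  | d + 1, (z, b) => by
    have h1 := numCube_cubeNum d z
    have h3 : cubeNum (d + 1) (z, b) = 2 * cubeNum d z + (if b then 1 else 0) := rfl
    have h4 : (2 * cubeNum d z + (if b then 1 else 0)) / 2 = cubeNum d z := by
      split <;> omega
    have h5 : decide ((2 * cubeNum d z + (if b then 1 else 0)) % 2 = 1) = b := by
      cases b <;> simp
    change (numCube d (cubeNum (d + 1) (z, b) / 2), decide (cubeNum (d + 1) (z, b) % 2 = 1)) = (z, b)
    rw [h3, h4, h5, h1]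

theorem cubeNum_numCube : (d : ℕ) → (x : ℕ) → x < 2 ^ d → cubeNum d (numCube d x) = x
  | 0, x, h => by
    have : x < 1 := by simpa using h
    simp only [cubeNum]; omega
  | d + 1, x, h => by
    have h2 := two_pow_succ' d
    have h1 := cubeNum_numCube d (x / 2) (by omega)
    change 2 * cubeNum d (numCube d (x / 2)) + (if decide (x % 2 = 1) = true then 1 else 0) = x
    rw [h1]
    simp only [decide_eq_true_eq]
    split <;> omega

/-- `Cube d` as numbers below `2^d`, the second component being the lowest bit. -/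
def cubeFin (d : ℕ) : Cube d ≃ Fin (2 ^ d) where
  toFun z := ⟨cubeNum d z, cubeNum_lt d z⟩
  invFun x := numCube d x.val
  left_inv z := numCube_cubeNum d z
  right_inv x := by ext; exact cubeNum_numCube d x.val x.isLt

/-- positions of the deck of `2 * 2^d` cards -/
def posEquiv (d : ℕ) : Cube (d + 1) ≃ Fin (2 * 2 ^ d) :=
  (cubeFin (d + 1)).trans (finCongr (two_pow_succ' d))

theorem posEquiv_val (d : ℕ) (z : Cube d) (b : Bool) :
    (posEquiv d (z, b)).val = 2 * (cubeFin d z).val + (if b then 1 else 0) := rfl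

namespace Mdl

theorem avg_equiv {Ω Ω' : Type} [Fintype Ω] [Fintype Ω'] (e : Ω ≃ Ω') (X : Ω' → ℝ) :
    avg (fun ω => X (e ω)) = avg X := by
  unfold avg
  rw [Fintype.card_congr e, Equiv.sum_comp e X]

theorem avg_prod' {Ω Ω' : Type} [Fintype Ω] [Fintype Ω'] (X : Ω → Ω' → ℝ) :
    avg (fun p : Ω × Ω' => X p.1 p.2) = avg (fun a => avg (fun b => X a b)) := by
  unfold avg
  rw [Fintype.sum_prod_type, Fintype.card_prod, ← Finset.sum_div, div_div]
  push_cast
  rw [mul_comm]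

theorem avg_comm {Ω Ω' : Type} [Fintype Ω] [Fintype Ω'] (X : Ω → Ω' → ℝ) :
    avg (fun a => avg (fun b => X a b)) = avg (fun b => avg (fun a => X a b)) := by
  unfold avg
  rw [← Finset.sum_div, ← Finset.sum_div, Finset.sum_comm, div_div, div_div, mul_comm]

section
variable {β : Type} (f : β → β → Bool → β × β)

/-- one step of the shuffle, as an operator -/
noncomputable def A (m : ℕ) (Φ : (Fin (2 * m) → β) → ℝ) : (Fin (2 * m) → β) → ℝ :=
  fun s => avg (fun c : Fin m → Bool => Φ (stStep f m c s))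

theorem avg_run (m t : ℕ) (Φ : (Fin (2 * m) → β) → ℝ) (s : Fin (2 * m) → β) :
    avg (fun cs : Fin t → Fin m → Bool => Φ (stRun f m t cs s)) = (A f m)^[t] Φ s := by
  induction t generalizing Φ with
  | zero =>
    simp [avg, stRun]
  | succ t ih =>
    rw [Function.iterate_succ_apply, ← ih]
    rw [← avg_equiv (Fin.snocEquiv (fun _ => Fin m → Bool))
      (fun cs : Fin (t + 1) → Fin m → Bool => Φ (stRun f m (t + 1) cs s))]
    have h1 : (fun ω : (Fin m → Bool) × (Fin t → Fin m → Bool) =>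
        Φ (stRun f m (t + 1) ((Fin.snocEquiv (fun _ => Fin m → Bool)) ω) s)) =
        fun ω => (fun a b => Φ (stStep f m a (stRun f m t b s))) ω.1 ω.2 := by
      funext ω
      simp [stRun, Fin.snocEquiv]
    rw [h1, avg_prod' (fun a b => Φ (stStep f m a (stRun f m t b s))), avg_comm]
    rfl

theorem A_comm (m i : ℕ) {m' : ℕ} (Θ : (Fin (2 * m) → β) → (Fin (2 * m') → β) → ℝ)
    (x : Fin (2 * m) → β) (y : Fin (2 * m') → β) :
    A f m (fun x' => (A f m')^[i] (fun y' => Θ x' y') y) x =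
      (A f m')^[i] (fun y' => A f m (fun x' => Θ x' y') x) y := by
  induction i generalizing Θ with
  | zero => rfl
  | succ i ih =>
    simp only [Function.iterate_succ_apply]
    rw [ih]
    have h1 : (fun y' => A f m (fun x' => A f m' (fun y' => Θ x' y') y') x) =
        A f m' fun y' => A f m (fun x' => Θ x' y') x := by
      funext y'
      simp only [A]
      rw [avg_comm]
    rw [h1]

theorem split_bound {M m P X : ℕ} (hM : M = 2 * m) (hP : P ∣ m) (hP0 : 0 < P) (hX : X < M) :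
    X / (2 * P) * P + X % P < m := by
  obtain ⟨Q, hQ⟩ := hP
  have h1 : X / (2 * P) < Q := by
    rw [Nat.div_lt_iff_lt_mul (by omega)]
    have h2 : Q * (2 * P) = 2 * (P * Q) := by ring
    omega
  have h2 : X % P < P := Nat.mod_lt _ hP0
  have h3 : (X / (2 * P) + 1) * P ≤ Q * P := Nat.mul_le_mul_right _ h1
  have h4 : Q * P = P * Q := mul_comm _ _
  have h5 : (X / (2 * P) + 1) * P = X / (2 * P) * P + P := by ring
  omega

theorem join_bound {M m P v b : ℕ} (hM : M = 2 * m) (hP : P ∣ m) (hP0 : 0 < P) (hv : v < m)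
    (hb : b < 2) : v / P * (2 * P) + b * P + v % P < M := by
  obtain ⟨Q, hQ⟩ := hP
  have h1 : v / P < Q := by
    rw [Nat.div_lt_iff_lt_mul (by omega)]
    rw [mul_comm]; omega
  have h2 : v % P < P := Nat.mod_lt _ hP0
  have h3 : (v / P + 1) * (2 * P) ≤ Q * (2 * P) := Nat.mul_le_mul_right _ h1
  have h4 : Q * (2 * P) = 2 * (P * Q) := by ring
  have h5 : (v / P + 1) * (2 * P) = v / P * (2 * P) + 2 * P := by ring
  have h6 : b * P ≤ 1 * P := Nat.mul_le_mul_right _ (by omega)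
  omega

theorem join_bit {P v b : ℕ} (hP0 : 0 < P) (hb : b < 2) :
    (v / P * (2 * P) + b * P + v % P) / P % 2 = b := by
  have h1 : v / P * (2 * P) + b * P + v % P = v % P + P * (2 * (v / P) + b) := by ring
  rw [h1, Nat.add_mul_div_left _ _ hP0, Nat.div_eq_of_lt (Nat.mod_lt _ hP0)]
  omega

theorem join_mod {P v b : ℕ} : (v / P * (2 * P) + b * P + v % P) % P = v % P := by
  have h1 : v / P * (2 * P) + b * P + v % P = v % P + P * (2 * (v / P) + b) := by ring
  rw [h1, Nat.add_mul_mod_self_left, Nat.mod_mod]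

theorem join_div {P v b : ℕ} (hP0 : 0 < P) (hb : b < 2) :
    (v / P * (2 * P) + b * P + v % P) / (2 * P) = v / P := by
  have h1 : v / P * (2 * P) + b * P + v % P = (b * P + v % P) + (2 * P) * (v / P) := by ring
  have h2 : v % P < P := Nat.mod_lt _ hP0
  have h6 : b * P ≤ 1 * P := Nat.mul_le_mul_right _ (by omega)
  rw [h1, Nat.add_mul_div_left _ _ (by omega), Nat.div_eq_of_lt (by omega), zero_add]

theorem join_small {P v b : ℕ} (hP0 : 0 < P) (hb : b < 2) :
    (v / P * (2 * P) + b * P + v % P) / (2 * P) * P + (v / P * (2 * P) + b * P + v % P) % P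
      = v := by
  rw [join_div hP0 hb, join_mod]
  exact Nat.div_add_mod' v P

theorem join_split {P X : ℕ} (hP0 : 0 < P) :
    (X / (2 * P) * P + X % P) / P * (2 * P) + (X / P % 2) * P + (X / (2 * P) * P + X % P) % P
      = X := by
  have h1 : (X / (2 * P) * P + X % P) / P = X / (2 * P) := by
    rw [Nat.add_comm, Nat.add_mul_div_right _ _ hP0, Nat.div_eq_of_lt (Nat.mod_lt _ hP0), zero_add]
  have h2 : (X / (2 * P) * P + X % P) % P = X % P := by
    rw [Nat.add_comm, Nat.add_mul_mod_self_right, Nat.mod_mod]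
  rw [h1, h2]
  have h3 : X / (2 * P) = X / P / 2 := by rw [Nat.div_div_eq_div_mul, mul_comm]
  have h4 := Nat.div_add_mod' X P
  have h5 : X / P = 2 * (X / P / 2) + X / P % 2 := by omega
  rw [h3]
  calc X / P / 2 * (2 * P) + X / P % 2 * P + X % P
      = (2 * (X / P / 2) + X / P % 2) * P + X % P := by ring
    _ = X := by rw [← h5, h4]

/-- joining -/
def joinF {M m P : ℕ} (hM : M = 2 * m) (hP : P ∣ m) (hP0 : 0 < P) : Fin m ⊕ Fin m → Fin M
  | Sum.inl v => ⟨v.val / P * (2 * P) + 0 * P + v.val % P, join_bound hM hP hP0 v.isLt (by omega)⟩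
  | Sum.inr v => ⟨v.val / P * (2 * P) + 1 * P + v.val % P, join_bound hM hP hP0 v.isLt (by omega)⟩

/-- splitting -/
def splitF {M m P : ℕ} (hM : M = 2 * m) (hP : P ∣ m) (hP0 : 0 < P) (X : Fin M) : Fin m ⊕ Fin m :=
  if X.val / P % 2 = 1 then
      Sum.inr ⟨X.val / (2 * P) * P + X.val % P, split_bound hM hP hP0 X.isLt⟩
    else Sum.inl ⟨X.val / (2 * P) * P + X.val % P, split_bound hM hP hP0 X.isLt⟩

theorem joinF_splitF {M m P : ℕ} (hM : M = 2 * m) (hP : P ∣ m) (hP0 : 0 < P) (X : Fin M) :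
    joinF hM hP hP0 (splitF hM hP hP0 X) = X := by
  have := join_split (X := X.val) hP0
  unfold splitF
  by_cases h : X.val / P % 2 = 1
  · rw [if_pos h]
    ext
    rw [h] at this
    exact this
  · rw [if_neg h]
    ext
    rw [show X.val / P % 2 = 0 by omega] at this
    exact this

theorem splitF_joinF {M m P : ℕ} (hM : M = 2 * m) (hP : P ∣ m) (hP0 : 0 < P) (v : Fin m ⊕ Fin m) :
    splitF hM hP hP0 (joinF hM hP hP0 v) = v := by
  rcases v with v | v
  · have h1 : ¬ (joinF hM hP hP0 (Sum.inl v)).val / P % 2 = 1 := by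
      have : (joinF hM hP hP0 (Sum.inl v)).val / P % 2 = 0 := join_bit hP0 (by omega)
      omega
    unfold splitF
    rw [if_neg h1]
    congr 1
    ext
    exact join_small hP0 (by omega)
  · have h1 : (joinF hM hP hP0 (Sum.inr v)).val / P % 2 = 1 := join_bit hP0 (by omega)
    unfold splitF
    rw [if_pos h1]
    congr 1
    ext
    exact join_small hP0 (by omega)

/-- splitting of the coins -/
def eC (M m P : ℕ) (hM : M = 2 * m) (hP : P ∣ m) (hP0 : 0 < P) : Fin m ⊕ Fin m ≃ Fin M where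
  toFun := joinF hM hP hP0
  invFun := splitF hM hP hP0
  left_inv := splitF_joinF hM hP hP0
  right_inv := joinF_splitF hM hP hP0

/-- average over coins = average over both halves -/
theorem avg_split (M m P : ℕ) (hM : M = 2 * m) (hP : P ∣ m) (hP0 : 0 < P)
    (F : (Fin m → Bool) → (Fin m → Bool) → ℝ) :
    avg (fun c : Fin M → Bool => F (fun v => c (eC M m P hM hP hP0 (Sum.inl v)))
        (fun v => c (eC M m P hM hP hP0 (Sum.inr v)))) =
      avg (fun c0 : Fin m → Bool => avg (fun c1 : Fin m → Bool => F c0 c1)) := by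
  rw [← avg_prod' F]
  rw [← avg_equiv ((Equiv.arrowCongr (eC M m P hM hP hP0).symm (Equiv.refl Bool)).trans
    (Equiv.sumArrowEquivProdArrow (Fin m) (Fin m) Bool))]
  rfl

/-- splitting of the positions: `X = (hi, b, lo)`, `lo < P` -/
def S (M m P : ℕ) (hM : M = 2 * m) (hP : P ∣ 2 * m) (hP0 : 0 < P)
    (x0 x1 : Fin (2 * m) → β) : Fin (2 * M) → β := fun X =>
  (if X.val / P % 2 = 1 then x1 else x0) ⟨X.val / (2 * P) * P + X.val % P,
    split_bound (by omega) hP hP0 X.isLt⟩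

theorem S_apply_one {M m P : ℕ} {hM : M = 2 * m} {hP : P ∣ 2 * m} {hP0 : 0 < P}
    (x0 x1 : Fin (2 * m) → β) {X : Fin (2 * M)} {v : Fin (2 * m)} (h : X.val / P % 2 = 1)
    (hv : X.val / (2 * P) * P + X.val % P = v.val) : S M m P hM hP hP0 x0 x1 X = x1 v := by
  unfold S
  rw [if_pos h]
  congr 1
  ext
  exact hv

theorem S_apply_zero {M m P : ℕ} {hM : M = 2 * m} {hP : P ∣ 2 * m} {hP0 : 0 < P}
    (x0 x1 : Fin (2 * m) → β) {X : Fin (2 * M)} {v : Fin (2 * m)} (h : ¬ X.val / P % 2 = 1)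
    (hv : X.val / (2 * P) * P + X.val % P = v.val) : S M m P hM hP hP0 x0 x1 X = x0 v := by
  unfold S
  rw [if_neg h]
  congr 1
  ext
  exact hv

theorem stStep_apply (m : ℕ) (c : Fin m → Bool) (s : Fin (2 * m) → β) (p : Fin (2 * m))
    (u0 u1 : Fin (2 * m)) (u : Fin m) (h0 : u0.val = p.val / 2) (h1 : u1.val = p.val / 2 + m)
    (hu : u.val = p.val / 2) :
    stStep f m c s p = if p.val % 2 = 1 then (f (s u0) (s u1) (c u)).2
      else (f (s u0) (s u1) (c u)).1 := by
  obtain ⟨a0, ha0⟩ := u0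
  obtain ⟨a1, ha1⟩ := u1
  obtain ⟨a, ha⟩ := u
  simp only at h0 h1 hu
  subst h0 h1 hu
  rfl

theorem small_succ {P p : ℕ} (hP0 : 0 < P) :
    (p / (2 * (2 * P)) * (2 * P) + p % (2 * P)) / 2 = p / 2 / (2 * P) * P + p / 2 % P := by
  have h1 : p / (2 * (2 * P)) = p / 2 / (2 * P) := by rw [Nat.div_div_eq_div_mul]
  have h2 : p % (2 * P) = 2 * (p / 2 % P) + p % 2 := by
    have := Nat.mod_mul (x := p) (a := 2) (b := P)
    rw [this]; ring
  rw [h1, h2]
  have h3 : p / 2 / (2 * P) * (2 * P) + (2 * (p / 2 % P) + p % 2) =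
      2 * (p / 2 / (2 * P) * P + p / 2 % P) + p % 2 := by ring
  rw [h3]
  omega

theorem small_succ_mod {P p : ℕ} :
    (p / (2 * (2 * P)) * (2 * P) + p % (2 * P)) % 2 = p % 2 := by
  have h1 : p / (2 * (2 * P)) * (2 * P) + p % (2 * P) =
      p % (2 * P) + 2 * (p / (2 * (2 * P)) * P) := by ring
  rw [h1, Nat.add_mul_mod_self_left, Nat.mod_mul_right_mod]

theorem bit_add {M m P u : ℕ} (hM : M = 2 * m) (hP : P ∣ m) (hP0 : 0 < P) :
    (u + M) / P % 2 = u / P % 2 := by
  obtain ⟨Q, hQ⟩ := hP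
  have : u + M = u + P * (2 * Q) := by rw [hM, hQ]; ring
  rw [this, Nat.add_mul_div_left _ _ hP0]
  omega

theorem small_add {M m P u : ℕ} (hM : M = 2 * m) (hP : P ∣ m) (hP0 : 0 < P) :
    (u + M) / (2 * P) * P + (u + M) % P = u / (2 * P) * P + u % P + m := by
  obtain ⟨Q, hQ⟩ := hP
  have h1 : u + M = u + (2 * P) * Q := by rw [hM, hQ]; ring
  have h2 : u + M = u + P * (2 * Q) := by rw [hM, hQ]; ring
  have h3 : (u + M) / (2 * P) = u / (2 * P) + Q := by
    rw [h1, Nat.add_mul_div_left _ _ (by omega)]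
  have h4 : (u + M) % P = u % P := by
    rw [h2, Nat.add_mul_mod_self_left]
  rw [h3, h4]
  subst hQ
  ring

theorem S_step {M m P : ℕ} (hM : M = 2 * m) (hP : P ∣ m) (hP' : P ∣ 2 * m)
    (hP'' : 2 * P ∣ 2 * m) (hP0 : 0 < P) (hP0' : 0 < 2 * P) (c : Fin M → Bool)
    (x0 x1 : Fin (2 * m) → β) :
    stStep f M c (S M m P hM hP' hP0 x0 x1) =
      S M m (2 * P) hM hP'' hP0' (stStep f m (fun v => c (eC M m P hM hP hP0 (Sum.inl v))) x0)
        (stStep f m (fun v => c (eC M m P hM hP hP0 (Sum.inr v))) x1) := by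
  funext p
  have hp := p.isLt
  have hbit : p.val / (2 * P) % 2 = p.val / 2 / P % 2 := by rw [Nat.div_div_eq_div_mul]
  have hub : p.val / 2 < M := by omega
  have hsm : p.val / 2 / (2 * P) * P + p.val / 2 % P < m := split_bound hM hP hP0 hub
  have hw : p.val / (2 * (2 * P)) * (2 * P) + p.val % (2 * P) < 2 * m :=
    split_bound (by omega) hP'' hP0' hp
  have hsucc := small_succ (p := p.val) hP0
  have hsuccm := small_succ_mod (p := p.val) (P := P)
  have hjoin := join_split (X := p.val / 2) hP0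
  have hbM : (p.val / 2 + M) / P % 2 = p.val / 2 / P % 2 := bit_add hM hP hP0
  have hsM : (p.val / 2 + M) / (2 * P) * P + (p.val / 2 + M) % P =
      p.val / 2 / (2 * P) * P + p.val / 2 % P + m := small_add hM hP hP0
  rw [stStep_apply f M c _ p ⟨p.val / 2, by omega⟩ ⟨p.val / 2 + M, by omega⟩ ⟨p.val / 2, hub⟩
    rfl rfl rfl]
  by_cases hb : p.val / 2 / P % 2 = 1
  · rw [S_apply_one (X := p) _ _ (v := ⟨_, hw⟩) (by rw [hbit]; exact hb) rfl]
    rw [S_apply_one x0 x1 (v := ⟨_, (by omega : p.val / 2 / (2 * P) * P + p.val / 2 % P < 2 * m)⟩)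
      hb rfl]
    rw [S_apply_one x0 x1 (v := ⟨p.val / 2 / (2 * P) * P + p.val / 2 % P + m, by omega⟩)
      (by rw [← hb]; exact hbM) hsM]
    rw [stStep_apply f m _ x1 ⟨_, hw⟩
      ⟨_, (by omega : p.val / 2 / (2 * P) * P + p.val / 2 % P < 2 * m)⟩
      ⟨p.val / 2 / (2 * P) * P + p.val / 2 % P + m, by omega⟩ ⟨_, hsm⟩ hsucc.symm
      (by rw [hsucc]) hsucc.symm]
    have hc : c (eC M m P hM hP hP0 (Sum.inr ⟨_, hsm⟩)) = c ⟨p.val / 2, hub⟩ := by
      congr 1
      ext
      rw [hb] at hjoin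
      exact hjoin
    simp only [hc, hsuccm]
  · rw [S_apply_zero (X := p) _ _ (v := ⟨_, hw⟩) (by rw [hbit]; exact hb) rfl]
    rw [S_apply_zero x0 x1 (v := ⟨_, (by omega : p.val / 2 / (2 * P) * P + p.val / 2 % P < 2 * m)⟩)
      hb rfl]
    rw [S_apply_zero x0 x1 (v := ⟨p.val / 2 / (2 * P) * P + p.val / 2 % P + m, by omega⟩)
      (by rw [show (p.val / 2 + M) / P % 2 = p.val / 2 / P % 2 from hbM]; exact hb) hsM]
    rw [stStep_apply f m _ x0 ⟨_, hw⟩
      ⟨_, (by omega : p.val / 2 / (2 * P) * P + p.val / 2 % P < 2 * m)⟩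
      ⟨p.val / 2 / (2 * P) * P + p.val / 2 % P + m, by omega⟩ ⟨_, hsm⟩ hsucc.symm
      (by rw [hsucc]) hsucc.symm]
    have hc : c (eC M m P hM hP hP0 (Sum.inl ⟨_, hsm⟩)) = c ⟨p.val / 2, hub⟩ := by
      congr 1
      ext
      rw [show p.val / 2 / P % 2 = 0 by omega] at hjoin
      exact hjoin
    simp only [hc, hsuccm]

theorem S_congr {M m P P' : ℕ} (h : P = P') {hM : M = 2 * m} {hP : P ∣ 2 * m} {hP0 : 0 < P}
    {hP' : P' ∣ 2 * m} {hP0' : 0 < P'} (x0 x1 : Fin (2 * m) → β) :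
    S M m P hM hP hP0 x0 x1 = S M m P' hM hP' hP0' x0 x1 := by
  subst h
  rfl

theorem A_S {M m P : ℕ} (hM : M = 2 * m) (hP : P ∣ m) (hP' : P ∣ 2 * m)
    (hP'' : 2 * P ∣ 2 * m) (hP0 : 0 < P) (hP0' : 0 < 2 * P) (Ψ : (Fin (2 * M) → β) → ℝ)
    (y0 y1 : Fin (2 * m) → β) :
    A f M Ψ (S M m P hM hP' hP0 y0 y1) =
      A f m (fun z0 => A f m (fun z1 => Ψ (S M m (2 * P) hM hP'' hP0' z0 z1)) y1) y0 := by
  simp only [A]
  rw [← avg_split M m P hM hP hP0 (fun c0 c1 => Ψ (S M m (2 * P) hM hP'' hP0'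
    (stStep f m c0 y0) (stStep f m c1 y1)))]
  congr 1
  funext c
  rw [S_step f hM hP hP' hP'' hP0 hP0']

theorem iter_S {M m : ℕ} (hM : M = 2 * m) (i : ℕ) (hi : ∀ j < i, 2 ^ j ∣ m)
    (hP1 : 2 ^ 0 ∣ 2 * m) (hP10 : 0 < 2 ^ 0) (hP : 2 ^ i ∣ 2 * m) (hP0 : 0 < 2 ^ i)
    (Ψ : (Fin (2 * M) → β) → ℝ) (x0 x1 : Fin (2 * m) → β) :
    (A f M)^[i] Ψ (S M m (2 ^ 0) hM hP1 hP10 x0 x1) =
      (A f m)^[i] (fun y0 => (A f m)^[i] (fun y1 => Ψ (S M m (2 ^ i) hM hP hP0 y0 y1)) x1) x0 := by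
  induction i generalizing Ψ with
  | zero => rfl
  | succ i ih =>
    have h2 : 2 * 2 ^ i ∣ 2 * m := by
      rw [← two_pow_succ']; exact hP
    have h3 : 2 ^ i ∣ 2 * m := (Dvd.intro_left 2 rfl).trans h2
    rw [Function.iterate_succ_apply]
    rw [ih (fun j hj => hi j (by omega)) h3 (by positivity) (A f M Ψ)]
    have h4 : ∀ y0 y1, A f M Ψ (S M m (2 ^ i) hM h3 (by positivity) y0 y1) =
        A f m (fun z0 => A f m (fun z1 => Ψ (S M m (2 ^ (i + 1)) hM hP hP0 z0 z1)) y1) y0 := by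
      intro y0 y1
      rw [A_S f hM (hi i (by omega)) h3 h2 (by positivity) (by positivity)]
      congr 1
      funext z0
      congr 1
      funext z1
      rw [S_congr (two_pow_succ' i).symm]
    simp only [h4]
    have h5 : (fun y0 => (A f m)^[i] (fun y1 => A f m (fun z0 => A f m (fun z1 =>
        Ψ (S M m (2 ^ (i + 1)) hM hP hP0 z0 z1)) y1) y0) x1) =
        A f m (fun z0 => (A f m)^[i + 1] (fun z1 =>
          Ψ (S M m (2 ^ (i + 1)) hM hP hP0 z0 z1)) x1) := by
      funext y0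
      simp only [Function.iterate_succ_apply]
      exact (A_comm f m i (fun z0 y1 => A f m (fun z1 =>
        Ψ (S M m (2 ^ (i + 1)) hM hP hP0 z0 z1)) y1) y0 x1).symm
    rw [h5, Function.iterate_succ_apply (A f m) i (fun y0 => (A f m)^[i + 1] (fun y1 =>
      Ψ (S M m (2 ^ (i + 1)) hM hP hP0 y0 y1)) x1)]

theorem merge_eq (d : ℕ) (hP : 2 ^ (d + 1) ∣ 2 * 2 ^ d) (hP0 : 0 < 2 ^ (d + 1))
    (y0 y1 : Fin (2 * 2 ^ d) → β) (c : Cube (d + 1) → Bool) :
    (stStep f (2 ^ (d + 1)) (c ∘ (cubeFin (d + 1)).symm)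
      (S (2 ^ (d + 1)) (2 ^ d) (2 ^ (d + 1)) (two_pow_succ' d) hP hP0 y0 y1)) =
      (mergeL f (y0 ∘ posEquiv d) (y1 ∘ posEquiv d) c) ∘ (posEquiv (d + 1)).symm := by
  funext p
  obtain ⟨⟨z, b⟩, rfl⟩ := (posEquiv (d + 1)).surjective p
  have hs : (posEquiv (d + 1)).symm (posEquiv (d + 1) (z, b)) = (z, b) :=
    Equiv.symm_apply_apply _ _
  have hv := posEquiv_val (d + 1) z b
  have hlt := (cubeFin (d + 1) z).isLt
  have hpz : (posEquiv d z).val = (cubeFin (d + 1) z).val := rfl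
  have h2 : (posEquiv (d + 1) (z, b)).val / 2 = (cubeFin (d + 1) z).val := by
    rw [hv]; split <;> omega
  have h3 : ((posEquiv (d + 1) (z, b)).val % 2 = 1) ↔ b = true := by
    rw [hv]; split <;> simp_all
  rw [stStep_apply f _ _ _ _ ⟨(cubeFin (d + 1) z).val, by omega⟩
    ⟨(cubeFin (d + 1) z).val + 2 ^ (d + 1), by omega⟩ (cubeFin (d + 1) z) h2.symm
    (by rw [h2]) h2.symm]
  have hz : (cubeFin (d + 1) z).val / 2 ^ (d + 1) = 0 := Nat.div_eq_of_lt hlt
  have hz2 : (cubeFin (d + 1) z).val / (2 * 2 ^ (d + 1)) = 0 := Nat.div_eq_of_lt (by omega)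
  have hz3 : (cubeFin (d + 1) z).val % 2 ^ (d + 1) = (cubeFin (d + 1) z).val :=
    Nat.mod_eq_of_lt hlt
  have hz4 : ((cubeFin (d + 1) z).val + 2 ^ (d + 1)) / 2 ^ (d + 1) = 1 := by
    rw [Nat.add_div_right _ hP0, hz]
  have hz5 : ((cubeFin (d + 1) z).val + 2 ^ (d + 1)) / (2 * 2 ^ (d + 1)) = 0 :=
    Nat.div_eq_of_lt (by omega)
  have hz6 : ((cubeFin (d + 1) z).val + 2 ^ (d + 1)) % 2 ^ (d + 1) = (cubeFin (d + 1) z).val := by
    rw [Nat.add_mod_right, hz3]
  rw [S_apply_zero (v := posEquiv d z) y0 y1 (by simp only; rw [hz]; simp)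
    (by simp only; rw [hz2, hz3, hpz]; simp)]
  rw [S_apply_one (v := posEquiv d z) y0 y1 (by simp only; rw [hz4])
    (by simp only; rw [hz5, hz6, hpz]; simp)]
  rw [Function.comp_apply (f := mergeL f (y0 ∘ posEquiv d) (y1 ∘ posEquiv d) c), hs]
  rw [Function.comp_apply, Equiv.symm_apply_apply]
  cases b
  · rw [if_neg (by rw [h3]; simp)]
    rfl
  · rw [if_pos (by rw [h3])]
    rfl

theorem S_of (d : ℕ) (hP : 2 ^ 0 ∣ 2 * 2 ^ d) (hP0 : 0 < 2 ^ 0)
    (s : Fin (2 * 2 ^ (d + 1)) → β) :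
    s = S (2 ^ (d + 1)) (2 ^ d) (2 ^ 0) (two_pow_succ' d) hP hP0
      ((half0 (s ∘ posEquiv (d + 1))) ∘ (posEquiv d).symm)
      ((half1 (s ∘ posEquiv (d + 1))) ∘ (posEquiv d).symm) := by
  funext p
  obtain ⟨⟨z, b⟩, rfl⟩ := (posEquiv (d + 1)).surjective p
  have hv := posEquiv_val (d + 1) z b
  have hpz : (posEquiv d z).val = (cubeFin (d + 1) z).val := rfl
  cases b
  · rw [S_apply_zero (v := posEquiv d z)]
    · simp only [Function.comp_apply, Equiv.symm_apply_apply]
      rfl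
    · rw [hv]; simp
    · rw [hv, hpz]; simp [Nat.mod_one]
  · rw [S_apply_one (v := posEquiv d z)]
    · simp only [Function.comp_apply, Equiv.symm_apply_apply]
      rfl
    · rw [hv]; simp
    · rw [hv, hpz]; simp [Nat.mod_one]; omega

theorem model (d : ℕ) (Φ : (Fin (2 * 2 ^ d) → β) → ℝ) (s : Fin (2 * 2 ^ d) → β) :
    (A f (2 ^ d))^[d + 1] Φ s =
      EBg f (d + 1) (fun x => Φ (x ∘ (posEquiv d).symm)) (s ∘ posEquiv d) := by
  induction d with
  | zero =>
    rw [Function.iterate_succ_apply, Function.iterate_zero_apply]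
    simp only [A, EBg]
    rw [← avg_equiv (Equiv.arrowCongr (cubeFin 0) (Equiv.refl Bool))]
    congr 1
    funext c
    congr 1
    funext p
    obtain ⟨⟨z, b⟩, rfl⟩ := (posEquiv 0).surjective p
    have hs : (posEquiv 0).symm (posEquiv 0 (z, b)) = (z, b) := Equiv.symm_apply_apply _ _
    have hv := posEquiv_val 0 z b
    have hcz : (cubeFin 0 z).val = 0 := by have := (cubeFin 0 z).isLt; simp
    rw [hcz] at hv
    have h3 : ((posEquiv 0 (z, b)).val % 2 = 1) ↔ b = true := by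
      rw [hv]; split <;> simp_all
    have h0 := posEquiv_val 0 z false
    have h1 := posEquiv_val 0 z true
    rw [hcz] at h0 h1
    simp only [Bool.false_eq_true, if_false, if_true] at h0 h1
    have h5 : (posEquiv 0 (z, b)).val / 2 = 0 := by rw [hv]; split <;> omega
    rw [stStep_apply f _ _ _ _ (posEquiv 0 (z, false)) (posEquiv 0 (z, true)) (cubeFin 0 z)
      (by rw [h0, h5]) (by rw [h1, h5]; simp)
      (by rw [hcz, h5])]
    rw [Function.comp_apply, hs]
    have hc : (Equiv.arrowCongr (cubeFin 0) (Equiv.refl Bool)) c (cubeFin 0 z) = c z := by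
      simp [Equiv.arrowCongr]
    rw [hc]
    cases b
    · rw [if_neg (by rw [h3]; simp)]
      rfl
    · rw [if_pos (by rw [h3])]
      rfl
  | succ d ih =>
    have hd1 : (2 : ℕ) ^ 0 ∣ 2 * 2 ^ d := by simp
    have hd2 : (2 : ℕ) ^ (d + 1) ∣ 2 * 2 ^ d := by rw [← two_pow_succ']
    rw [Function.iterate_succ_apply]
    conv_lhs => rw [S_of d hd1 (by positivity) s]
    rw [iter_S f (two_pow_succ' d) (d + 1) (fun j hj => pow_dvd_pow 2 (by omega)) hd1
      (by positivity) hd2 (by positivity)]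
    rw [ih]
    simp only [ih]
    have e0 : (half0 (s ∘ posEquiv (d + 1)) ∘ (posEquiv d).symm) ∘ posEquiv d =
        half0 (s ∘ posEquiv (d + 1)) := by
      funext z; simp
    have e1 : (half1 (s ∘ posEquiv (d + 1)) ∘ (posEquiv d).symm) ∘ posEquiv d =
        half1 (s ∘ posEquiv (d + 1)) := by
      funext z; simp
    rw [e0, e1]
    change _ = EBg f (d + 1) (fun x0 => EBg f (d + 1) (fun x1 =>
      avg (fun c : Cube (d + 1) → Bool => Φ ((mergeL f x0 x1 c) ∘ (posEquiv (d + 1)).symm)))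
        (half1 (s ∘ posEquiv (d + 1)))) (half0 (s ∘ posEquiv (d + 1)))
    congr 1
    funext x0
    congr 1
    funext x1
    simp only [A]
    rw [← avg_equiv (Equiv.arrowCongr (cubeFin (d + 1)) (Equiv.refl Bool))]
    congr 1
    funext c
    have h6 := merge_eq f d hd2 (by positivity) (x0 ∘ (posEquiv d).symm) (x1 ∘ (posEquiv d).symm) c
    have h7 : (x0 ∘ (posEquiv d).symm) ∘ posEquiv d = x0 := by funext z; simp
    have h8 : (x1 ∘ (posEquiv d).symm) ∘ posEquiv d = x1 := by funext z; simp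
    rw [h7, h8] at h6
    rw [← h6]
    rfl

end

end Mdl

section
variable {β : Type}

theorem model_one (f : β → β → Bool → β × β) (d : ℕ) (Φ : (Fin (2 * 2 ^ d) → β) → ℝ)
    (s : Fin (2 * 2 ^ d) → β) :
    avg (fun cs : Fin (d + 1) → Fin (2 ^ d) → Bool => Φ (stRun f (2 ^ d) (d + 1) cs s)) =
      EBg f (d + 1) (fun x => Φ (x ∘ (posEquiv d).symm)) (s ∘ posEquiv d) := by
  rw [Mdl.avg_run, Mdl.model]

theorem model_iter (f : β → β → Bool → β × β) (d K : ℕ) (Φ : (Fin (2 * 2 ^ d) → β) → ℝ)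
    (s : Fin (2 * 2 ^ d) → β) :
    avg (fun cs : Fin (K * (d + 1)) → Fin (2 ^ d) → Bool =>
        Φ (stRun f (2 ^ d) (K * (d + 1)) cs s)) =
      ((fun Ψ : (Cube (d + 1) → β) → ℝ => EBg f (d + 1) Ψ)^[K]
        (fun x => Φ (x ∘ (posEquiv d).symm))) (s ∘ posEquiv d) := by
  rw [Mdl.avg_run, mul_comm K (d + 1), Function.iterate_mul]
  let R : ((Fin (2 * 2 ^ d) → β) → ℝ) → ((Cube (d + 1) → β) → ℝ) :=
    fun Φ x => Φ (x ∘ (posEquiv d).symm)
  have h1 : Function.Semiconj R ((Mdl.A f (2 ^ d))^[d + 1])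
      (fun Ψ : (Cube (d + 1) → β) → ℝ => EBg f (d + 1) Ψ) := by
    intro Φ
    funext x
    change (Mdl.A f (2 ^ d))^[d + 1] Φ (x ∘ (posEquiv d).symm) = _
    rw [Mdl.model]
    have h2 : (x ∘ (posEquiv d).symm) ∘ posEquiv d = x := by funext z; simp
    rw [h2]
  have h2 := (h1.iterate_right K).eq Φ
  have h3 := congrFun h2 (s ∘ posEquiv d)
  have h4 : (s ∘ posEquiv d) ∘ (posEquiv d).symm = s := by funext z; simp
  change ((Mdl.A f (2 ^ d))^[d + 1])^[K] Φ ((s ∘ posEquiv d) ∘ (posEquiv d).symm) = _ at h3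
  rw [h4] at h3
  exact h3

end

end Crest.Agent.R155
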