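import Crest.Agent.R155.DefsN

/-!
R155, Part N, task NBasic: basic facts on the butterfly expectation.
-/

set_option autoImplicit false
set_option linter.unusedSectionVars false
set_option linter.unusedVariables false

namespace Crest.Agent.R155

open Finset

theorem card_cube (ℓ : ℕ) : Fintype.card (Cube ℓ) = 2 ^ ℓ := by
  induction ℓ with
  | zero => exact Fintype.card_unit
  | succ n ih =>
    have h : Fintype.card (Cube (n + 1)) = Fintype.card (Cube n × Bool) := rfl
    rw [h, Fintype.card_prod, ih, Fintype.card_bool, pow_succ]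

theorem sum_cube_succ' {ℓ : ℕ} (X : Cube (ℓ + 1) → ℝ) :
    ∑ p, X p = ∑ z : Cube ℓ, (X (z, false) + X (z, true)) := by
  have h : ∑ p, X p = ∑ z : Cube ℓ, ∑ b : Bool, X (z, b) :=
    Fintype.sum_prod_type (α₁ := Cube ℓ) (α₂ := Bool) (fun p => X p)
  rw [h]
  refine Finset.sum_congr rfl fun z _ => ?_
  rw [Fintype.sum_bool, add_comm]

theorem sum_cube_succ {ℓ : ℕ} (X : Cube (ℓ + 1) → ℝ) :
    ∑ p, X p = ∑ z : Cube ℓ, X (z, false) + ∑ z : Cube ℓ, X (z, true) := by
  rw [sum_cube_succ', Finset.sum_add_distrib]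

section avg
variable {Ω : Type} [Fintype Ω] [Nonempty Ω]

theorem avg_const (a : ℝ) : avg (fun _ : Ω => a) = a := by
  have h : (Fintype.card Ω : ℝ) ≠ 0 := by
    exact_mod_cast Fintype.card_ne_zero
  unfold avg
  rw [Finset.sum_const, Finset.card_univ, nsmul_eq_mul]
  field_simp

theorem avg_add (X Y : Ω → ℝ) : avg (fun ω => X ω + Y ω) = avg X + avg Y := by
  unfold avg
  rw [Finset.sum_add_distrib, add_div]

theorem avg_mul_left (a : ℝ) (X : Ω → ℝ) : avg (fun ω => a * X ω) = a * avg X := by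
  unfold avg
  rw [← Finset.mul_sum, mul_div_assoc]

theorem avg_mono {X Y : Ω → ℝ} (h : ∀ ω, X ω ≤ Y ω) : avg X ≤ avg Y := by
  unfold avg
  exact div_le_div_of_nonneg_right (Finset.sum_le_sum fun ω _ => h ω) (Nat.cast_nonneg _)

theorem avg_sum {ι : Type} (s : Finset ι) (X : ι → Ω → ℝ) :
    avg (fun ω => ∑ i ∈ s, X i ω) = ∑ i ∈ s, avg (X i) := by
  unfold avg
  rw [Finset.sum_comm, Finset.sum_div]

end avg

/-- independent coins: products -/
theorem avg_prod {ι : Type} [Fintype ι] [DecidableEq ι] (X : ι → Bool → ℝ) :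
    avg (fun c : ι → Bool => ∏ i, X i (c i)) = ∏ i, (X i false + X i true) / 2 := by
  have h1 : ∑ c : ι → Bool, ∏ i, X i (c i) = ∏ i, ∑ b : Bool, X i b := by
    rw [Finset.prod_univ_sum, Fintype.piFinset_univ]
  unfold avg
  rw [h1, Finset.prod_div_distrib]
  congr 1
  · refine Finset.prod_congr rfl fun v _ => ?_
    rw [Fintype.sum_bool, add_comm]
  · simp

/-- independent coins: the average of a sum of functions of single coins -/
theorem avg_coin {ι : Type} [Fintype ι] [DecidableEq ι] (i : ι) (X : Bool → ℝ) :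
    avg (fun c : ι → Bool => X (c i)) = (X false + X true) / 2 := by
  have h := avg_prod (ι := ι) (fun w b => if w = i then X b else 1)
  have e1 : (fun c : ι → Bool => ∏ w, (if w = i then X (c w) else 1)) = fun c => X (c i) := by
    funext c
    rw [Finset.prod_ite_eq' Finset.univ i]
    simp
  have e2 : ∏ w, ((if w = i then X false else (1 : ℝ)) + (if w = i then X true else 1)) / 2
      = (X false + X true) / 2 := by
    have : ∀ w, ((if w = i then X false else (1 : ℝ)) + (if w = i then X true else 1)) / 2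
        = if w = i then (X false + X true) / 2 else 1 := by
      intro w; split_ifs <;> norm_num
    simp_rw [this]
    rw [Finset.prod_ite_eq' Finset.univ i]
    simp
  rw [e1, e2] at h
  exact h

section EBg
variable {β : Type} (f : β → β → Bool → β × β)

theorem EBg_const (ℓ : ℕ) (a : ℝ) (s : Cube ℓ → β) : EBg f ℓ (fun _ => a) s = a := by
  induction ℓ with
  | zero => rfl
  | succ n ih =>
    simp only [EBg, avg_const, ih]

theorem EBg_add (ℓ : ℕ) (Φ Ψ : (Cube ℓ → β) → ℝ) (s : Cube ℓ → β) :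
    EBg f ℓ (fun x => Φ x + Ψ x) s = EBg f ℓ Φ s + EBg f ℓ Ψ s := by
  induction ℓ with
  | zero => rfl
  | succ n ih =>
    simp only [EBg, avg_add, ih]

theorem EBg_mul_left (ℓ : ℕ) (a : ℝ) (Φ : (Cube ℓ → β) → ℝ) (s : Cube ℓ → β) :
    EBg f ℓ (fun x => a * Φ x) s = a * EBg f ℓ Φ s := by
  induction ℓ with
  | zero => rfl
  | succ n ih =>
    simp only [EBg, avg_mul_left, ih]

theorem EBg_sum (ℓ : ℕ) {ι : Type} (t : Finset ι) (Φ : ι → (Cube ℓ → β) → ℝ) (s : Cube ℓ → β) :
    EBg f ℓ (fun x => ∑ i ∈ t, Φ i x) s = ∑ i ∈ t, EBg f ℓ (Φ i) s := by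
  induction ℓ with
  | zero => rfl
  | succ n ih =>
    simp only [EBg, avg_sum, ih]

/-- monotonicity along an invariant: if `R` is a relation preserved by merging layers.
`R ℓ s x` = "`x` is reachable from `s`". -/
theorem EBg_mono_on (R : (ℓ : ℕ) → (Cube ℓ → β) → (Cube ℓ → β) → Prop)
    (hR0 : ∀ s, R 0 s s)
    (hR : ∀ ℓ (s : Cube (ℓ + 1) → β) (x0 x1 : Cube ℓ → β) (c : Cube ℓ → Bool),
      R ℓ (half0 s) x0 → R ℓ (half1 s) x1 → R (ℓ + 1) s (mergeL f x0 x1 c))
    (ℓ : ℕ) (Φ Ψ : (Cube ℓ → β) → ℝ) (s : Cube ℓ → β) (h : ∀ x, R ℓ s x → Φ x ≤ Ψ x) :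
    EBg f ℓ Φ s ≤ EBg f ℓ Ψ s := by
  induction ℓ with
  | zero => exact h s (hR0 s)
  | succ n ih =>
    simp only [EBg]
    refine ih _ _ _ fun x0 h0 => ?_
    refine ih _ _ _ fun x1 h1 => ?_
    refine avg_mono fun c => ?_
    exact h _ (hR n s x0 x1 c h0 h1)

theorem EBg_mono (ℓ : ℕ) (Φ Ψ : (Cube ℓ → β) → ℝ) (s : Cube ℓ → β) (h : ∀ x, Φ x ≤ Ψ x) :
    EBg f ℓ Φ s ≤ EBg f ℓ Ψ s :=
  EBg_mono_on f (fun _ _ _ => True) (fun _ => trivial) (fun _ _ _ _ _ _ _ => trivial) ℓ Φ Ψ s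
    fun x _ => h x

end EBg

theorem nrm2_succ {ℓ : ℕ} (s : St (ℓ + 1)) : nrm2 s = nrm2 (half0 s) + nrm2 (half1 s) :=
  sum_cube_succ _

theorem tot_succ {ℓ : ℕ} (s : St (ℓ + 1)) : tot s = tot (half0 s) + tot (half1 s) :=
  sum_cube_succ _

theorem env_succ {ℓ : ℕ} (s : St (ℓ + 1)) : env s = env (half0 s) + env (half1 s) :=
  sum_cube_succ _

theorem val_mg (a b : Option ℝ) (c : Bool) :
    val (mg a b c).1 + val (mg a b c).2 = val a + val b := by
  rcases a with _ | a <;> rcases b with _ | b <;> cases c <;> simp [mg, val]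

theorem ei_mg (a b : Option ℝ) (c : Bool) :
    ei (mg a b c).1 + ei (mg a b c).2 = ei a + ei b := by
  rcases a with _ | a <;> rcases b with _ | b <;> cases c <;> simp [mg, ei]

theorem val_sq_mg_le (a b : Option ℝ) (c : Bool) :
    val (mg a b c).1 ^ 2 + val (mg a b c).2 ^ 2 ≤ val a ^ 2 + val b ^ 2 := by
  rcases a with _ | a <;> rcases b with _ | b <;> cases c <;> simp [mg, val] <;>
    nlinarith [sq_nonneg (a - b)]

theorem tot_mergeL {ℓ : ℕ} (x0 x1 : St ℓ) (c : Cube ℓ → Bool) :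
    tot (mergeL mg x0 x1 c) = tot x0 + tot x1 := by
  unfold tot
  rw [sum_cube_succ', ← Finset.sum_add_distrib]
  exact Finset.sum_congr rfl fun z _ => val_mg _ _ _

theorem env_mergeL {ℓ : ℕ} (x0 x1 : St ℓ) (c : Cube ℓ → Bool) :
    env (mergeL mg x0 x1 c) = env x0 + env x1 := by
  unfold env
  rw [sum_cube_succ', ← Finset.sum_add_distrib]
  exact Finset.sum_congr rfl fun z _ => ei_mg _ _ _

theorem nrm2_mergeL_le {ℓ : ℕ} (x0 x1 : St ℓ) (c : Cube ℓ → Bool) :
    nrm2 (mergeL mg x0 x1 c) ≤ nrm2 x0 + nrm2 x1 := by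
  unfold nrm2
  rw [sum_cube_succ', ← Finset.sum_add_distrib]
  exact Finset.sum_le_sum fun z _ => val_sq_mg_le _ _ _

/-- total weight and number of environment cards are conserved, the `ℓ²` norm does not increase. -/
theorem EB_mono_on (ℓ : ℕ) (Φ Ψ : St ℓ → ℝ) (s : St ℓ)
    (h : ∀ x : St ℓ, tot x = tot s → env x = env s → nrm2 x ≤ nrm2 s → Φ x ≤ Ψ x) :
    EB ℓ Φ s ≤ EB ℓ Ψ s := by
  refine EBg_mono_on mg (fun ℓ s x => tot x = tot s ∧ env x = env s ∧ nrm2 x ≤ nrm2 s)
    (fun s => ⟨rfl, rfl, le_refl _⟩) ?_ ℓ Φ Ψ s (fun x hx => h x hx.1 hx.2.1 hx.2.2)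
  rintro ℓ s x0 x1 c ⟨t0, e0, n0⟩ ⟨t1, e1, n1⟩
  refine ⟨?_, ?_, ?_⟩
  · rw [tot_mergeL, t0, t1, ← tot_succ]
  · rw [env_mergeL, e0, e1, ← env_succ]
  · rw [nrm2_succ s]
    exact (nrm2_mergeL_le _ _ _).trans (add_le_add n0 n1)

theorem val_mg_avg1 (a b : Option ℝ) :
    (val (mg a b false).1 + val (mg a b true).1) / 2 = (val a + val b) / 2 := by
  rcases a with _ | a <;> rcases b with _ | b <;> simp [mg, val]

theorem val_mg_avg2 (a b : Option ℝ) :
    (val (mg a b false).2 + val (mg a b true).2) / 2 = (val a + val b) / 2 := by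
  rcases a with _ | a <;> rcases b with _ | b <;> simp [mg, val]

theorem ei_mg_avg1 (a b : Option ℝ) :
    (ei (mg a b false).1 + ei (mg a b true).1) / 2 = (ei a + ei b) / 2 := by
  rcases a with _ | a <;> rcases b with _ | b <;> simp [mg, ei]

theorem ei_mg_avg2 (a b : Option ℝ) :
    (ei (mg a b false).2 + ei (mg a b true).2) / 2 = (ei a + ei b) / 2 := by
  rcases a with _ | a <;> rcases b with _ | b <;> simp [mg, ei]

theorem avg_val_mergeL {ℓ : ℕ} (x0 x1 : St ℓ) (z : Cube ℓ) (b : Bool) :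
    avg (fun c : Cube ℓ → Bool => val (mergeL mg x0 x1 c (z, b))) =
      (val (x0 z) + val (x1 z)) / 2 := by
  cases b
  · rw [← val_mg_avg1]
    exact avg_coin z (fun t => val (mg (x0 z) (x1 z) t).1)
  · rw [← val_mg_avg2]
    exact avg_coin z (fun t => val (mg (x0 z) (x1 z) t).2)

theorem avg_ei_mergeL {ℓ : ℕ} (x0 x1 : St ℓ) (z : Cube ℓ) (b : Bool) :
    avg (fun c : Cube ℓ → Bool => ei (mergeL mg x0 x1 c (z, b))) =
      (ei (x0 z) + ei (x1 z)) / 2 := by
  cases b
  · rw [← ei_mg_avg1]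
    exact avg_coin z (fun t => ei (mg (x0 z) (x1 z) t).1)
  · rw [← ei_mg_avg2]
    exact avg_coin z (fun t => ei (mg (x0 z) (x1 z) t).2)

/-- `EBg` of an affine combination, product form: `E[a + b Φ]`. -/
theorem EBg_half_add (ℓ : ℕ) {β : Type} (f : β → β → Bool → β × β) (Φ : (Cube ℓ → β) → ℝ)
    (u : ℝ) (s : Cube ℓ → β) :
    EBg f ℓ (fun x => (Φ x + u) / 2) s = (EBg f ℓ Φ s + u) / 2 := by
  have h : (fun x => (Φ x + u) / 2) = fun x => (1 / 2) * Φ x + u / 2 := by
    funext x; ring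
  rw [h, EBg_add, EBg_mul_left, EBg_const]
  ring

theorem EBg_half_add' (ℓ : ℕ) {β : Type} (f : β → β → Bool → β × β) (Φ : (Cube ℓ → β) → ℝ)
    (u : ℝ) (s : Cube ℓ → β) :
    EBg f ℓ (fun x => (u + Φ x) / 2) s = (u + EBg f ℓ Φ s) / 2 := by
  have h : (fun x => (u + Φ x) / 2) = fun x => (1 / 2) * Φ x + u / 2 := by
    funext x; ring
  rw [h, EBg_add, EBg_mul_left, EBg_const]
  ring

/-- the expected weight at every position is the same -/
theorem EB_val (ℓ : ℕ) (z : Cube ℓ) (s : St ℓ) :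
    EB ℓ (fun x => val (x z)) s = tot s / 2 ^ ℓ := by
  induction ℓ with
  | zero =>
    have h : tot s = val (s z) := by
      unfold tot
      have hz : (Finset.univ : Finset (Cube 0)) = {z} := by
        apply Finset.eq_singleton_iff_unique_mem.mpr
        exact ⟨Finset.mem_univ _, fun x _ => Subsingleton.elim (α := Unit) x z⟩
      rw [hz, Finset.sum_singleton]
    rw [h, pow_zero, div_one]
    rfl
  | succ n ih =>
    obtain ⟨z, b⟩ := z
    simp only [EB, EBg]
    simp_rw [avg_val_mergeL]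
    have h2 : ∀ x0 : St n, EBg mg n (fun x1 => (val (x0 z) + val (x1 z)) / 2) (half1 s) =
        (val (x0 z) + tot (half1 s) / 2 ^ n) / 2 := by
      intro x0
      rw [EBg_half_add']
      have := ih z (half1 s)
      simp only [EB] at this
      rw [this]
    simp_rw [h2]
    rw [EBg_half_add]
    have := ih z (half0 s)
    simp only [EB] at this
    rw [this, tot_succ s, pow_succ]
    field_simp

/-- the probability of an environment card at every position is the same -/
theorem EB_ei (ℓ : ℕ) (z : Cube ℓ) (s : St ℓ) :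
    EB ℓ (fun x => ei (x z)) s = env s / 2 ^ ℓ := by
  induction ℓ with
  | zero =>
    have h : env s = ei (s z) := by
      unfold env
      have hz : (Finset.univ : Finset (Cube 0)) = {z} := by
        apply Finset.eq_singleton_iff_unique_mem.mpr
        exact ⟨Finset.mem_univ _, fun x _ => Subsingleton.elim (α := Unit) x z⟩
      rw [hz, Finset.sum_singleton]
    rw [h, pow_zero, div_one]
    rfl
  | succ n ih =>
    obtain ⟨z, b⟩ := z
    simp only [EB, EBg]
    simp_rw [avg_ei_mergeL]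
    have h2 : ∀ x0 : St n, EBg mg n (fun x1 => (ei (x0 z) + ei (x1 z)) / 2) (half1 s) =
        (ei (x0 z) + env (half1 s) / 2 ^ n) / 2 := by
      intro x0
      rw [EBg_half_add']
      have := ih z (half1 s)
      simp only [EB] at this
      rw [this]
    simp_rw [h2]
    rw [EBg_half_add]
    have := ih z (half0 s)
    simp only [EB] at this
    rw [this, env_succ s, pow_succ]
    field_simp

theorem EB_nrm2_le (ℓ : ℕ) (s : St ℓ) : EB ℓ nrm2 s ≤ nrm2 s := by
  have h := EB_mono_on ℓ nrm2 (fun _ => nrm2 s) s (fun x _ _ hx => hx)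
  have h2 := EBg_const mg ℓ (nrm2 s) s
  simp only [EB] at h ⊢
  rwa [h2] at h

end Crest.Agent.R155
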