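import Crest.Agent.R155.NBasic

/-!
R155, Part N, task NConc: concentration of the number of environment cards in classes.
-/

set_option autoImplicit false
set_option linter.unusedSectionVars false
set_option linter.unusedVariables false

namespace Crest.Agent.R155

open Finset Classical

/-- number of environment cards in the class of size `2^τ` given by the `k` low bits `b`. -/
noncomputable def nconcCenv (τ : ℕ) : (k : ℕ) → (Fin k → Bool) → St (τ + k) → ℝ
  | 0, _, s => env s
  | k + 1, b, s =>
      nconcCenv τ k (fun i => b i.succ)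
        (if b 0 then half1 (ℓ := τ + k) s else half0 (ℓ := τ + k) s)

/-- indicator of the class given by the `k` low bits `b`. -/
noncomputable def nconcInd (τ : ℕ) : (k : ℕ) → (Fin k → Bool) → Cube (τ + k) → ℝ
  | 0, _, _ => 1
  | k + 1, b, z =>
      let z' : Cube (τ + k) × Bool := z
      if z'.2 = b 0 then nconcInd τ k (fun i => b i.succ) z'.1 else 0

theorem nconcInd_zero_or_one (τ : ℕ) : ∀ (k : ℕ) (b : Fin k → Bool) (z : Cube (τ + k)),
    nconcInd τ k b z = 0 ∨ nconcInd τ k b z = 1
  | 0, _, _ => Or.inr rfl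
  | k + 1, b, z => by
      unfold nconcInd
      dsimp only
      split_ifs
      · exact nconcInd_zero_or_one τ k _ _
      · exact Or.inl rfl

theorem nconcInd_sum (τ : ℕ) : ∀ (k : ℕ) (b : Fin k → Bool),
    ∑ z, nconcInd τ k b z = 2 ^ τ
  | 0, _ => by
      simp only [nconcInd, Finset.sum_const, Finset.card_univ, nsmul_eq_mul, mul_one]
      have h := card_cube τ
      have h' : Fintype.card (Cube (τ + 0)) = 2 ^ τ := h
      rw [h']
      push_cast
      rfl
  | k + 1, b => by
      have h := nconcInd_sum τ k (fun i => b i.succ)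
      have h2 := sum_cube_succ (ℓ := τ + k) (fun z => nconcInd τ (k + 1) b z)
      refine h2.trans ?_
      simp only [nconcInd]
      cases hb : b 0 <;> simp [h]

theorem nconcCenv_eq (τ : ℕ) : ∀ (k : ℕ) (b : Fin k → Bool) (s : St (τ + k)),
    nconcCenv τ k b s = ∑ z, nconcInd τ k b z * ei (s z)
  | 0, _, s => by
      simp only [nconcCenv, nconcInd, one_mul]
      rfl
  | k + 1, b, s => by
      have h2 := sum_cube_succ (ℓ := τ + k) (fun z => nconcInd τ (k + 1) b z * ei (s z))
      refine Eq.trans ?_ h2.symm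
      simp only [nconcInd, nconcCenv]
      rw [nconcCenv_eq τ k]
      cases hb : b 0 <;> simp [half0, half1]


theorem nconc_exp_coin (l : ℝ) : (1 + Real.exp l) / 2 ≤ Real.exp (l / 2 + l ^ 2 / 8) := by
  have h1 : (1 + Real.exp l) / 2 = Real.exp (l / 2) * Real.cosh (l / 2) := by
    rw [Real.cosh_eq]
    have h2 : Real.exp (l / 2) * Real.exp (l / 2) = Real.exp l := by
      rw [← Real.exp_add]; congr 1; ring
    have h3 : Real.exp (l / 2) * Real.exp (-(l / 2)) = 1 := by
      rw [← Real.exp_add]; simp
    linear_combination (-1 / 2) * h2 + (-1 / 2) * h3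
  rw [h1, Real.exp_add]
  refine mul_le_mul_of_nonneg_left ?_ (Real.exp_pos _).le
  refine (Real.cosh_le_exp_half_sq _).trans (le_of_eq ?_)
  congr 1; ring

theorem nconc_coin1 (l i : ℝ) (hi : i = 0 ∨ i = 1) (u v : Option ℝ) :
    (Real.exp (l * (i * ei (mg u v false).1)) + Real.exp (l * (i * ei (mg u v true).1))) / 2 ≤
      Real.exp (i * (l ^ 2 / 8) + (l / 2 * (i * ei u) + l / 2 * (i * ei v))) := by
  rcases hi with hi | hi
  · subst hi; simp
  · subst hi
    have hc := nconc_exp_coin l
    have h0 : (0 : ℝ) ≤ l ^ 2 / 8 := by positivity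
    cases u <;> cases v
    · simp only [mg, ei, Option.isNone_none, if_true, mul_one, one_mul]
      have : Real.exp l ≤ Real.exp (l ^ 2 / 8 + (l / 2 + l / 2)) :=
        Real.exp_le_exp.mpr (by linarith)
      linarith
    · simp only [mg, ei]
      simp
      refine le_trans (le_of_eq ?_) (hc.trans (le_of_eq ?_))
      · ring
      · congr 1; ring
    · simp only [mg, ei]
      simp
      refine le_trans (le_of_eq ?_) (hc.trans (le_of_eq ?_))
      · ring
      · congr 1; ring
    · simp only [mg, ei]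
      simp
      positivity

theorem nconc_coin2 (l i : ℝ) (hi : i = 0 ∨ i = 1) (u v : Option ℝ) :
    (Real.exp (l * (i * ei (mg u v false).2)) + Real.exp (l * (i * ei (mg u v true).2))) / 2 ≤
      Real.exp (i * (l ^ 2 / 8) + (l / 2 * (i * ei u) + l / 2 * (i * ei v))) := by
  rcases hi with hi | hi
  · subst hi; simp
  · subst hi
    have hc := nconc_exp_coin l
    have h0 : (0 : ℝ) ≤ l ^ 2 / 8 := by positivity
    cases u <;> cases v
    · simp only [mg, ei, Option.isNone_none, if_true, mul_one, one_mul]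
      have : Real.exp l ≤ Real.exp (l ^ 2 / 8 + (l / 2 + l / 2)) :=
        Real.exp_le_exp.mpr (by linarith)
      linarith
    · simp only [mg, ei]
      simp
      refine le_trans (le_of_eq ?_) (hc.trans (le_of_eq ?_))
      · ring
      · congr 1; ring
    · simp only [mg, ei]
      simp
      refine le_trans (le_of_eq ?_) (hc.trans (le_of_eq ?_))
      · ring
      · congr 1; ring
    · simp only [mg, ei]
      simp
      positivity

theorem nconc_avg (τ k : ℕ) (b : Fin (k + 1) → Bool) (l : ℝ) (x0 x1 : St (τ + k)) :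
    avg (fun c : Cube (τ + k) → Bool =>
      Real.exp (l * nconcCenv τ (k + 1) b (mergeL mg x0 x1 c))) ≤
      Real.exp (l ^ 2 / 8 * 2 ^ τ) *
        (Real.exp (l / 2 * nconcCenv τ k (fun i => b i.succ) x0) *
          Real.exp (l / 2 * nconcCenv τ k (fun i => b i.succ) x1)) := by
  have hR : Real.exp (l ^ 2 / 8 * 2 ^ τ) *
        (Real.exp (l / 2 * nconcCenv τ k (fun i => b i.succ) x0) *
          Real.exp (l / 2 * nconcCenv τ k (fun i => b i.succ) x1)) =
      ∏ z, Real.exp (nconcInd τ k (fun i => b i.succ) z * (l ^ 2 / 8) +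
        (l / 2 * (nconcInd τ k (fun i => b i.succ) z * ei (x0 z)) +
         l / 2 * (nconcInd τ k (fun i => b i.succ) z * ei (x1 z)))) := by
    rw [← Real.exp_sum, ← Real.exp_add, ← Real.exp_add]
    congr 1
    rw [Finset.sum_add_distrib, Finset.sum_add_distrib, ← Finset.sum_mul, nconcInd_sum,
      ← Finset.mul_sum, ← Finset.mul_sum, ← nconcCenv_eq, ← nconcCenv_eq]
    ring
  rw [hR]
  cases hb : b 0
  · have hL : (fun c : Cube (τ + k) → Bool =>
        Real.exp (l * nconcCenv τ (k + 1) b (mergeL mg x0 x1 c))) =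
        fun c : Cube (τ + k) → Bool => ∏ z, (fun (z : Cube (τ + k)) (t : Bool) =>
          Real.exp (l * (nconcInd τ k (fun i => b i.succ) z * ei (mg (x0 z) (x1 z) t).1)))
            z (c z) := by
      funext c
      rw [← Real.exp_sum, ← Finset.mul_sum]
      congr 2
      simp only [nconcCenv, hb]
      rw [nconcCenv_eq]
      refine Finset.sum_congr rfl fun z _ => ?_
      simp [half0, mergeL]
    rw [hL]
    refine (avg_prod (fun (z : Cube (τ + k)) (t : Bool) =>
          Real.exp (l * (nconcInd τ k (fun i => b i.succ) z *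
            ei (mg (x0 z) (x1 z) t).1)))).le.trans ?_
    refine Finset.prod_le_prod (fun z _ => by positivity) fun z _ => ?_
    exact nconc_coin1 l _ (nconcInd_zero_or_one _ _ _ _) _ _
  · have hL : (fun c : Cube (τ + k) → Bool =>
        Real.exp (l * nconcCenv τ (k + 1) b (mergeL mg x0 x1 c))) =
        fun c : Cube (τ + k) → Bool => ∏ z, (fun (z : Cube (τ + k)) (t : Bool) =>
          Real.exp (l * (nconcInd τ k (fun i => b i.succ) z * ei (mg (x0 z) (x1 z) t).2)))
            z (c z) := by
      funext c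
      rw [← Real.exp_sum, ← Finset.mul_sum]
      congr 2
      simp only [nconcCenv, hb]
      rw [nconcCenv_eq]
      refine Finset.sum_congr rfl fun z _ => ?_
      simp [half1, mergeL]
    rw [hL]
    refine (avg_prod (fun (z : Cube (τ + k)) (t : Bool) =>
          Real.exp (l * (nconcInd τ k (fun i => b i.succ) z *
            ei (mg (x0 z) (x1 z) t).2)))).le.trans ?_
    refine Finset.prod_le_prod (fun z _ => by positivity) fun z _ => ?_
    exact nconc_coin2 l _ (nconcInd_zero_or_one _ _ _ _) _ _

/-- the moment generating function of the number of environment cards in a class -/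
theorem nconc_mgf (τ : ℕ) : ∀ (k : ℕ) (b : Fin k → Bool) (l : ℝ) (s : St (τ + k)),
    EB (τ + k) (fun x => Real.exp (l * nconcCenv τ k b x)) s ≤
      Real.exp (l * (env s / 2 ^ k) + l ^ 2 * 2 ^ τ / 4)
  | 0, b, l, s => by
      refine (EB_mono_on (τ + 0) _ (fun _ => Real.exp (l * env s)) s ?_).trans ?_
      · intro x _ hx _
        simp only [nconcCenv]
        rw [hx]
      · unfold EB
        rw [EBg_const]
        refine Real.exp_le_exp.mpr ?_
        have : (0 : ℝ) ≤ l ^ 2 * 2 ^ τ / 4 := by positivity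
        simp only [pow_zero, div_one]
        linarith
  | k + 1, b, l, s => by
      set b' : Fin k → Bool := fun i => b i.succ with hb'
      have ih0 := nconc_mgf τ k b' (l / 2) (half0 (ℓ := τ + k) s)
      have ih1 := nconc_mgf τ k b' (l / 2) (half1 (ℓ := τ + k) s)
      have hstep : EB (τ + (k + 1)) (fun x => Real.exp (l * nconcCenv τ (k + 1) b x)) s =
          EBg mg (τ + k) (fun x0 => EBg mg (τ + k) (fun x1 =>
            avg (fun c : Cube (τ + k) → Bool =>
              Real.exp (l * nconcCenv τ (k + 1) b (mergeL mg x0 x1 c))))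
            (half1 (ℓ := τ + k) s)) (half0 (ℓ := τ + k) s) := rfl
      rw [hstep]
      set E0 := EB (τ + k) (fun x => Real.exp (l / 2 * nconcCenv τ k b' x)) (half0 (ℓ := τ + k) s)
        with hE0
      set E1 := EB (τ + k) (fun x => Real.exp (l / 2 * nconcCenv τ k b' x)) (half1 (ℓ := τ + k) s)
        with hE1
      have h1 : ∀ x0 : St (τ + k), EBg mg (τ + k) (fun x1 =>
            avg (fun c : Cube (τ + k) → Bool =>
              Real.exp (l * nconcCenv τ (k + 1) b (mergeL mg x0 x1 c))))
            (half1 (ℓ := τ + k) s) ≤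
            (Real.exp (l ^ 2 / 8 * 2 ^ τ) * E1) * Real.exp (l / 2 * nconcCenv τ k b' x0) := by
        intro x0
        refine (EBg_mono mg (τ + k) _ _ _ (fun x1 => nconc_avg τ k b l x0 x1)).trans ?_
        rw [EBg_mul_left, EBg_mul_left]
        refine le_of_eq ?_
        change _ * (_ * E1) = _
        ring
      refine (EBg_mono mg (τ + k) _ _ _ h1).trans ?_
      rw [EBg_mul_left]
      change _ * E0 ≤ _
      have hpos : 0 ≤ Real.exp (l ^ 2 / 8 * 2 ^ τ) := (Real.exp_pos _).le
      have hE1n : 0 ≤ E1 := by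
        have := EBg_mono mg (τ + k) (fun _ => (0 : ℝ))
          (fun x => Real.exp (l / 2 * nconcCenv τ k b' x)) (half1 (ℓ := τ + k) s)
          (fun x => (Real.exp_pos _).le)
        rw [EBg_const] at this
        exact this
      have hE0n : 0 ≤ E0 := by
        have := EBg_mono mg (τ + k) (fun _ => (0 : ℝ))
          (fun x => Real.exp (l / 2 * nconcCenv τ k b' x)) (half0 (ℓ := τ + k) s)
          (fun x => (Real.exp_pos _).le)
        rw [EBg_const] at this
        exact this
      calc Real.exp (l ^ 2 / 8 * 2 ^ τ) * E1 * E0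
          ≤ Real.exp (l ^ 2 / 8 * 2 ^ τ) *
              Real.exp (l / 2 * (env (half1 (ℓ := τ + k) s) / 2 ^ k) + (l / 2) ^ 2 * 2 ^ τ / 4) *
              Real.exp (l / 2 * (env (half0 (ℓ := τ + k) s) / 2 ^ k) + (l / 2) ^ 2 * 2 ^ τ / 4) := by
            gcongr
        _ = Real.exp (l * (env s / 2 ^ (k + 1)) + l ^ 2 * 2 ^ τ / 4) := by
            rw [← Real.exp_add, ← Real.exp_add]
            congr 1
            have he : env s = env (half0 (ℓ := τ + k) s) + env (half1 (ℓ := τ + k) s) :=
              env_succ (ℓ := τ + k) s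
            rw [he, pow_succ]
            field_simp
            ring

theorem nconc_exists_of_not_good (ρ : ℝ) (τ : ℕ) : ∀ (k : ℕ) (s : St (τ + k)),
    ¬ Good ρ τ (τ + k) s → ∃ b : Fin k → Bool, (1 - ρ) * 2 ^ τ < nconcCenv τ k b s
  | 0, s => by
      intro h
      refine ⟨fun i => i.elim0, ?_⟩
      rw [nconcCenv]
      cases τ with
      | zero => exact not_le.mp (by simpa [Good] using h)
      | succ n =>
          have h2 : ¬ (env s ≤ (1 - ρ) * 2 ^ (n + 1)) := by
            intro h3
            apply h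
            change (if n + 1 ≤ n + 1 then _ else _)
            simpa using h3
          exact not_le.mp h2
  | k + 1, s => by
      intro h
      have h2 : ¬ (Good ρ τ (τ + k) (half0 (ℓ := τ + k) s) ∧
          Good ρ τ (τ + k) (half1 (ℓ := τ + k) s)) := by
        intro h3
        apply h
        change (if τ + k + 1 ≤ τ then _ else _)
        rw [if_neg (by omega)]
        exact h3
      rw [not_and_or] at h2
      rcases h2 with h2 | h2
      · obtain ⟨b, hb⟩ := nconc_exists_of_not_good ρ τ k _ h2
        refine ⟨Fin.cons false b, ?_⟩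
        simpa [nconcCenv] using hb
      · obtain ⟨b, hb⟩ := nconc_exists_of_not_good ρ τ k _ h2
        refine ⟨Fin.cons true b, ?_⟩
        simpa [nconcCenv] using hb

/-- For `τ ≤ ℓ`, after one butterfly from any state with at most `(1 - ρ - η) 2^ℓ` environment cards,
the probability that some class of size `2^τ` has more than `(1-ρ) 2^τ` of them is at most
`2^(ℓ-τ) exp (-η² 2^τ)`.
Proof: for a class `cl` (indexed by the low `ℓ-τ` bits) let `Z_cl` be the number of environment cards
in it. Claim: `E exp (λ (Z_cl - 2^τ env s / 2^ℓ)) ≤ exp (λ² 2^τ / 4)` by induction on `ℓ`: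
given the two halves, `Z_(cl,b) = ½ (Z_cl(x0) + Z_cl(x1)) + ∑_{single pairs} ± ½`,
`(e^{λ/2}+e^{-λ/2})/2 ≤ e^{λ²/8}`, and the induction hypothesis with `λ/2` for both halves:
`λ² 2^τ/8 + 2 (λ/2)² 2^τ/4 = λ² 2^τ/4`. Markov with `λ = 2η` and the union bound. -/
theorem EB_bad {τ ℓ : ℕ} (h : τ ≤ ℓ) {ρ η : ℝ} (hη : 0 < η) (s : St ℓ)
    (hs : env s ≤ (1 - ρ - η) * 2 ^ ℓ) :
    EB ℓ (fun x => if Good ρ τ ℓ x then 0 else 1) s ≤
      2 ^ (ℓ - τ) * Real.exp (-(η ^ 2 * 2 ^ τ)) := by
  obtain ⟨k, rfl⟩ := Nat.exists_eq_add_of_le h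
  have hk : τ + k - τ = k := by omega
  rw [hk]
  have h1 : ∀ x : St (τ + k), (if Good ρ τ (τ + k) x then (0 : ℝ) else 1) ≤
      ∑ b : Fin k → Bool, Real.exp (-(2 * η * ((1 - ρ) * 2 ^ τ))) *
        Real.exp (2 * η * nconcCenv τ k b x) := by
    intro x
    split_ifs with hg
    · positivity
    · obtain ⟨b, hb⟩ := nconc_exists_of_not_good ρ τ k x hg
      have h2 : (1 : ℝ) ≤ Real.exp (-(2 * η * ((1 - ρ) * 2 ^ τ))) *
          Real.exp (2 * η * nconcCenv τ k b x) := by
        rw [← Real.exp_add]
        refine Real.one_le_exp ?_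
        nlinarith
      refine h2.trans ?_
      exact Finset.single_le_sum (f := fun b : Fin k → Bool =>
        Real.exp (-(2 * η * ((1 - ρ) * 2 ^ τ))) * Real.exp (2 * η * nconcCenv τ k b x))
        (fun _ _ => by positivity) (Finset.mem_univ b)
  refine (EBg_mono mg (τ + k) _ _ s h1).trans ?_
  rw [EBg_sum]
  have h3 : ∀ b ∈ (Finset.univ : Finset (Fin k → Bool)),
      EBg mg (τ + k) (fun x => Real.exp (-(2 * η * ((1 - ρ) * 2 ^ τ))) *
        Real.exp (2 * η * nconcCenv τ k b x)) s ≤ Real.exp (-(η ^ 2 * 2 ^ τ)) := by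
    intro b _
    rw [EBg_mul_left]
    have h4 := nconc_mgf τ k b (2 * η) s
    refine (mul_le_mul_of_nonneg_left h4 (Real.exp_pos _).le).trans ?_
    rw [← Real.exp_add]
    refine Real.exp_le_exp.mpr ?_
    have h5 : env s / 2 ^ k ≤ (1 - ρ - η) * 2 ^ τ := by
      rw [div_le_iff₀ (by positivity)]
      calc env s ≤ (1 - ρ - η) * 2 ^ (τ + k) := hs
        _ = (1 - ρ - η) * 2 ^ τ * 2 ^ k := by rw [pow_add]; ring
    have h6 : 2 * η * (env s / 2 ^ k) ≤ 2 * η * ((1 - ρ - η) * 2 ^ τ) :=
      mul_le_mul_of_nonneg_left h5 (by positivity)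
    nlinarith
  refine (Finset.sum_le_sum h3).trans ?_
  rw [Finset.sum_const, Finset.card_univ]
  simp

end Crest.Agent.R155
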