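import Crest.Agent.R155.NRec
import Crest.Agent.R155.NConc

/-!
R155, Part N, task NContr: contraction over two butterflies and iteration.

With `ρ = η = 1/16`, `r = 1 - ρ/2 = 31/32`, `2^τ ≥ 512 ln 2 · ℓ` : for `tot s = 0`,
`env s ≤ (7/8) 2^ℓ`:
`EB ℓ (EB ℓ nrm2) s ≤ κ nrm2 s`, `κ = r^(ℓ-τ) + ∑_{i=τ}^{ℓ-1} r^(ℓ-1-i) 2^(-i-1) + 2^(ℓ-τ) exp (-2^τ/256)`,
(on `Good` states `EB_nrm2_good`, then `EB_nrm2_le`, `EB_clsSq`; on bad states `nrm2 x ≤ nrm2 s` by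
`EB_mono_on` and `EB_bad`). `κ ≤ 2^(-ℓ/25)` for large `ℓ`; `133/25 = 5.32`.
-/

set_option autoImplicit false
set_option linter.unusedSectionVars false
set_option linter.unusedVariables false

namespace Crest.Agent.R155

open Finset

theorem NContr.nrm2_nonneg {ℓ : ℕ} (s : St ℓ) : 0 ≤ nrm2 s :=
  Finset.sum_nonneg (fun _ _ => sq_nonneg _)

theorem NContr.clsSq_nonneg (τ ℓ : ℕ) (s : St ℓ) : 0 ≤ clsSq τ ℓ s := by
  induction ℓ with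
  | zero => exact sq_nonneg _
  | succ ℓ ih =>
    unfold clsSq
    split_ifs
    · exact sq_nonneg _
    · exact add_nonneg (ih _) (ih _)

open Classical in
theorem NContr.pt {τ ℓ : ℕ} (h : τ ≤ ℓ) (N : ℝ) (x : St ℓ) (hx : nrm2 x ≤ N) :
    EB ℓ nrm2 x ≤ ((31 / 32 : ℝ) ^ (ℓ - τ) * nrm2 x +
        ∑ i ∈ Finset.Ico τ ℓ, ((31 / 32 : ℝ) ^ (ℓ - 1 - i) * (1 / 2) ^ (i + 1)) * clsSq i ℓ x) +
        N * (if Good (1 / 16) τ ℓ x then 0 else 1) := by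
  have hr : (1 - (1 / 16 : ℝ) / 2) = 31 / 32 := by norm_num
  by_cases hg : Good (1 / 16) τ ℓ x
  · have := EB_nrm2_good (ρ := 1 / 16) (by norm_num) (by norm_num) h hg
    rw [hr] at this
    rw [if_pos hg, mul_zero, add_zero]
    exact this
  · rw [if_neg hg, mul_one]
    have h1 := EB_nrm2_le ℓ x
    have h2 : 0 ≤ ((31 / 32 : ℝ) ^ (ℓ - τ) * nrm2 x +
        ∑ i ∈ Finset.Ico τ ℓ, ((31 / 32 : ℝ) ^ (ℓ - 1 - i) * (1 / 2) ^ (i + 1)) * clsSq i ℓ x) := by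
      apply add_nonneg
      · exact mul_nonneg (by positivity) (NContr.nrm2_nonneg x)
      · exact Finset.sum_nonneg (fun i _ => mul_nonneg (by positivity) (NContr.clsSq_nonneg i ℓ x))
    linarith

theorem EB_two {τ ℓ : ℕ} (h : τ ≤ ℓ) (s : St ℓ) (h0 : tot s = 0) (hs : env s ≤ (7 / 8) * 2 ^ ℓ) :
    EB ℓ (EB ℓ nrm2) s ≤
      ((31 / 32 : ℝ) ^ (ℓ - τ) +
        ∑ i ∈ Finset.Ico τ ℓ, (31 / 32 : ℝ) ^ (ℓ - 1 - i) * (1 / 2) ^ (i + 1) +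
        2 ^ (ℓ - τ) * Real.exp (-(2 ^ τ / 256))) * nrm2 s := by
  classical
  have hN0 := NContr.nrm2_nonneg s
  have step1 : EB ℓ (EB ℓ nrm2) s ≤
      EB ℓ (fun x => ((31 / 32 : ℝ) ^ (ℓ - τ) * nrm2 x +
        ∑ i ∈ Finset.Ico τ ℓ, ((31 / 32 : ℝ) ^ (ℓ - 1 - i) * (1 / 2) ^ (i + 1)) * clsSq i ℓ x) +
        nrm2 s * (if Good (1 / 16) τ ℓ x then 0 else 1)) s := by
    apply EB_mono_on
    intro x _ _ hx
    exact NContr.pt h (nrm2 s) x hx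
  refine step1.trans ?_
  have e1 : EB ℓ (fun x => ((31 / 32 : ℝ) ^ (ℓ - τ) * nrm2 x +
        ∑ i ∈ Finset.Ico τ ℓ, ((31 / 32 : ℝ) ^ (ℓ - 1 - i) * (1 / 2) ^ (i + 1)) * clsSq i ℓ x) +
        nrm2 s * (if Good (1 / 16) τ ℓ x then 0 else 1)) s
      = ((31 / 32 : ℝ) ^ (ℓ - τ) * EB ℓ nrm2 s +
        ∑ i ∈ Finset.Ico τ ℓ, ((31 / 32 : ℝ) ^ (ℓ - 1 - i) * (1 / 2) ^ (i + 1)) * EB ℓ (clsSq i ℓ) s) +
        nrm2 s * EB ℓ (fun x => if Good (1 / 16) τ ℓ x then 0 else 1) s := by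
    unfold EB
    rw [EBg_add, EBg_add, EBg_mul_left, EBg_mul_left, EBg_sum]
    congr 2
    apply Finset.sum_congr rfl
    intro i _
    rw [EBg_mul_left]
  rw [e1]
  have b1 : (31 / 32 : ℝ) ^ (ℓ - τ) * EB ℓ nrm2 s ≤ (31 / 32 : ℝ) ^ (ℓ - τ) * nrm2 s :=
    mul_le_mul_of_nonneg_left (EB_nrm2_le ℓ s) (by positivity)
  have b2 : ∑ i ∈ Finset.Ico τ ℓ, ((31 / 32 : ℝ) ^ (ℓ - 1 - i) * (1 / 2) ^ (i + 1)) * EB ℓ (clsSq i ℓ) s
      ≤ ∑ i ∈ Finset.Ico τ ℓ, ((31 / 32 : ℝ) ^ (ℓ - 1 - i) * (1 / 2) ^ (i + 1)) * nrm2 s := by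
    apply Finset.sum_le_sum
    intro i hi
    apply mul_le_mul_of_nonneg_left _ (by positivity)
    have := EB_clsSq (le_of_lt (Finset.mem_Ico.mp hi).2) s
    rw [h0] at this
    simpa using this
  have b3 : EB ℓ (fun x => if Good (1 / 16) τ ℓ x then (0:ℝ) else 1) s ≤
      2 ^ (ℓ - τ) * Real.exp (-(2 ^ τ / 256)) := by
    have := EB_bad h (ρ := 1 / 16) (η := 1 / 16) (by norm_num) s (by
      refine hs.trans (le_of_eq ?_)
      norm_num)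
    have e : ((1:ℝ) / 16) ^ 2 * 2 ^ τ = 2 ^ τ / 256 := by ring
    rw [e] at this
    convert this using 2
  have b4 := mul_le_mul_of_nonneg_left b3 hN0
  rw [← Finset.sum_mul] at b2
  nlinarith [b1, b2, b4]

/-- the contraction constant -/
noncomputable def NContr.kap (τ ℓ : ℕ) : ℝ :=
  ((31 / 32 : ℝ) ^ (ℓ - τ) +
        ∑ i ∈ Finset.Ico τ ℓ, (31 / 32 : ℝ) ^ (ℓ - 1 - i) * (1 / 2) ^ (i + 1) +
        2 ^ (ℓ - τ) * Real.exp (-(2 ^ τ / 256)))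

theorem NContr.kap_nonneg (τ ℓ : ℕ) : 0 ≤ NContr.kap τ ℓ := by
  unfold NContr.kap
  have : 0 ≤ ∑ i ∈ Finset.Ico τ ℓ, (31 / 32 : ℝ) ^ (ℓ - 1 - i) * (1 / 2) ^ (i + 1) :=
    Finset.sum_nonneg (fun i _ => by positivity)
  positivity

theorem NContr.iter {τ ℓ : ℕ} (h : τ ≤ ℓ) (k : ℕ) : ∀ s : St ℓ, tot s = 0 →
    env s ≤ (7 / 8) * 2 ^ ℓ →
    ((fun Φ : St ℓ → ℝ => EB ℓ Φ)^[2 * k] nrm2) s ≤ (NContr.kap τ ℓ) ^ k * nrm2 s := by
  induction k with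
  | zero => intro s _ _; simp
  | succ k ih =>
    intro s h0 hs
    have e : 2 * (k + 1) = (2 * k + 1) + 1 := by ring
    rw [e, Function.iterate_succ_apply', Function.iterate_succ_apply']
    set F := ((fun Φ : St ℓ → ℝ => EB ℓ Φ)^[2 * k] nrm2) with hF
    have h1 : ∀ x : St ℓ, tot x = 0 → env x ≤ (7 / 8) * 2 ^ ℓ →
        EB ℓ F x ≤ (NContr.kap τ ℓ) ^ k * EB ℓ nrm2 x := by
      intro x hx0 hx
      have : EB ℓ F x ≤ EB ℓ (fun y => (NContr.kap τ ℓ) ^ k * nrm2 y) x := by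
        apply EB_mono_on
        intro y hy1 hy2 _
        exact ih y (hy1.trans hx0) (by rw [hy2]; exact hx)
      refine this.trans (le_of_eq ?_)
      unfold EB
      rw [EBg_mul_left]
    have h2 : EB ℓ (EB ℓ F) s ≤ EB ℓ (fun x => (NContr.kap τ ℓ) ^ k * EB ℓ nrm2 x) s := by
      apply EB_mono_on
      intro x hx1 hx2 _
      exact h1 x (hx1.trans h0) (by rw [hx2]; exact hs)
    have h3 : EB ℓ (fun x => (NContr.kap τ ℓ) ^ k * EB ℓ nrm2 x) s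
        = (NContr.kap τ ℓ) ^ k * EB ℓ (EB ℓ nrm2) s := by
      unfold EB
      rw [EBg_mul_left]
    have h4 := EB_two h s h0 hs
    calc EB ℓ (EB ℓ F) s ≤ (NContr.kap τ ℓ) ^ k * EB ℓ (EB ℓ nrm2) s := h2.trans (le_of_eq h3)
      _ ≤ (NContr.kap τ ℓ) ^ k * (NContr.kap τ ℓ * nrm2 s) := by
          apply mul_le_mul_of_nonneg_left _ (pow_nonneg (NContr.kap_nonneg τ ℓ) k)
          exact h4
      _ = (NContr.kap τ ℓ) ^ (k + 1) * nrm2 s := by ring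

/-- the sum of the middle terms -/
theorem NContr.mid (τ ℓ : ℕ) :
    ∑ i ∈ Finset.Ico τ ℓ, (31 / 32 : ℝ) ^ (ℓ - 1 - i) * (1 / 2) ^ (i + 1) ≤ 2 * (31 / 32 : ℝ) ^ ℓ := by
  have h1 : ∑ i ∈ Finset.Ico τ ℓ, (31 / 32 : ℝ) ^ (ℓ - 1 - i) * (1 / 2) ^ (i + 1) ≤
      ∑ i ∈ Finset.range ℓ, (31 / 32 : ℝ) ^ (ℓ - 1 - i) * (1 / 2) ^ (i + 1) := by
    apply Finset.sum_le_sum_of_subset_of_nonneg
    · intro i hi
      exact Finset.mem_range.mpr (Finset.mem_Ico.mp hi).2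
    · intro i _ _
      positivity
  refine h1.trans ?_
  have h2 : ∀ n : ℕ, ∑ i ∈ Finset.range n, (31 / 32 : ℝ) ^ (n - 1 - i) * (1 / 2) ^ (i + 1) ≤
      2 * (31 / 32 : ℝ) ^ n - (16 / 15) * (1 / 2) ^ n := by
    intro n
    induction n with
    | zero => norm_num
    | succ n ih =>
      rw [Finset.sum_range_succ]
      have e : ∑ i ∈ Finset.range n, (31 / 32 : ℝ) ^ (n + 1 - 1 - i) * (1 / 2) ^ (i + 1) =
          (31 / 32) * ∑ i ∈ Finset.range n, (31 / 32 : ℝ) ^ (n - 1 - i) * (1 / 2) ^ (i + 1) := by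
        rw [Finset.mul_sum]
        apply Finset.sum_congr rfl
        intro i hi
        have hi' := Finset.mem_range.mp hi
        have : n + 1 - 1 - i = (n - 1 - i) + 1 := by omega
        rw [this, pow_succ]
        ring
      rw [e]
      have e2 : n + 1 - 1 - n = 0 := by omega
      rw [e2, pow_zero, one_mul]
      have e3 : (1 / 2 : ℝ) ^ (n + 1) = (1 / 2) ^ n * (1 / 2) := pow_succ _ _
      have e4 : (31 / 32 : ℝ) ^ (n + 1) = (31 / 32) ^ n * (31 / 32) := pow_succ _ _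
      rw [e3, e4]
      have p : 0 < (1 / 2 : ℝ) ^ n := by positivity
      nlinarith
  have := h2 ℓ
  have p : 0 < (1 / 2 : ℝ) ^ ℓ := by positivity
  linarith

theorem NContr.kap_le (ℓ : ℕ) (hℓ : 1 ≤ ℓ) (hτ : Nat.clog 2 (512 * ℓ) ≤ ℓ) :
    NContr.kap (Nat.clog 2 (512 * ℓ)) ℓ ≤
      (1024 * ℓ + 2) * (31 / 32 : ℝ) ^ ℓ + Real.exp (-ℓ) := by
  set τ := Nat.clog 2 (512 * ℓ) with hτdef
  have h1 : 512 * ℓ ≤ 2 ^ τ := Nat.le_pow_clog (by norm_num) _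
  have h2 : 2 ^ τ ≤ 1024 * ℓ := by
    have h3 : 1 ≤ τ := by
      rw [hτdef]
      exact Nat.clog_pos (by norm_num) (by omega)
    have h4 : 2 ^ (τ - 1) < 512 * ℓ := by
      have := Nat.pow_pred_clog_lt_self (b := 2) (by norm_num) (x := 512 * ℓ) (by omega)
      simpa using this
    have h5 : 2 ^ τ = 2 * 2 ^ (τ - 1) := by
      rw [← pow_succ']
      congr 1
      omega
    omega
  have h1' : (512 : ℝ) * ℓ ≤ 2 ^ τ := by exact_mod_cast h1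
  have h2' : (2 : ℝ) ^ τ ≤ 1024 * ℓ := by exact_mod_cast h2
  unfold NContr.kap
  have t1 : (31 / 32 : ℝ) ^ (ℓ - τ) ≤ 1024 * ℓ * (31 / 32 : ℝ) ^ ℓ := by
    have e : (31 / 32 : ℝ) ^ ℓ = (31 / 32 : ℝ) ^ (ℓ - τ) * (31 / 32 : ℝ) ^ τ := by
      rw [← pow_add]
      congr 1
      omega
    rw [e]
    have g : 1 ≤ (2 : ℝ) ^ τ * (31 / 32 : ℝ) ^ τ := by
      rw [← mul_pow]
      exact one_le_pow₀ (by norm_num)
    have p : 0 < (31 / 32 : ℝ) ^ (ℓ - τ) := by positivity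
    have p2 : 0 < (31 / 32 : ℝ) ^ τ := by positivity
    calc (31 / 32 : ℝ) ^ (ℓ - τ) = (31 / 32 : ℝ) ^ (ℓ - τ) * 1 := (mul_one _).symm
      _ ≤ (31 / 32 : ℝ) ^ (ℓ - τ) * ((2 : ℝ) ^ τ * (31 / 32 : ℝ) ^ τ) :=
          mul_le_mul_of_nonneg_left g p.le
      _ ≤ (31 / 32 : ℝ) ^ (ℓ - τ) * ((1024 * ℓ) * (31 / 32 : ℝ) ^ τ) := by
          apply mul_le_mul_of_nonneg_left _ p.le
          exact mul_le_mul_of_nonneg_right h2' p2.le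
      _ = 1024 * ℓ * ((31 / 32 : ℝ) ^ (ℓ - τ) * (31 / 32 : ℝ) ^ τ) := by ring
  have t2 := NContr.mid τ ℓ
  have t3 : (2 : ℝ) ^ (ℓ - τ) * Real.exp (-(2 ^ τ / 256)) ≤ Real.exp (-ℓ) := by
    have g1 : (2 : ℝ) ^ (ℓ - τ) ≤ Real.exp ℓ := by
      have : (2 : ℝ) ^ (ℓ - τ) ≤ 2 ^ ℓ := pow_le_pow_right₀ (by norm_num) (by omega)
      refine this.trans ?_
      have : (2 : ℝ) ≤ Real.exp 1 := by
        have := Real.add_one_le_exp (1 : ℝ)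
        linarith
      calc (2 : ℝ) ^ ℓ ≤ (Real.exp 1) ^ ℓ := pow_le_pow_left₀ (by norm_num) this _
        _ = Real.exp ℓ := by rw [← Real.exp_nat_mul]; simp
    have g2 : Real.exp (-(2 ^ τ / 256)) ≤ Real.exp (-(2 * ℓ)) := by
      apply Real.exp_le_exp.mpr
      linarith
    calc (2 : ℝ) ^ (ℓ - τ) * Real.exp (-(2 ^ τ / 256)) ≤ Real.exp ℓ * Real.exp (-(2 * ℓ)) := by
          apply mul_le_mul g1 g2 (Real.exp_pos _).le (Real.exp_pos _).le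
      _ = Real.exp (-ℓ) := by
          rw [← Real.exp_add]
          congr 1
          ring
  linarith

theorem NContr.clog_le : ∃ ℓ0 : ℕ, ∀ ℓ, ℓ0 ≤ ℓ → 1 ≤ ℓ ∧ Nat.clog 2 (512 * ℓ) ≤ ℓ := by
  refine ⟨14, fun ℓ hℓ => ⟨by omega, ?_⟩⟩
  apply Nat.clog_le_of_le_pow
  induction ℓ, hℓ using Nat.le_induction with
  | base => norm_num
  | succ n hn ih =>
    rw [pow_succ]
    omega

theorem NContr.small : ∃ ℓ0 : ℕ, ∀ ℓ : ℕ, ℓ0 ≤ ℓ →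
    (1024 * ℓ + 2) * (31 / 32 : ℝ) ^ ℓ + Real.exp (-ℓ) ≤ (2 : ℝ) ^ (-(1 / 25 : ℝ) * (ℓ : ℝ)) := by
  -- q = (31/32) * 2^(1/25) < 1
  have hb : (2 : ℝ) ^ (1 / 25 : ℝ) < 32 / 31 := by
    have : (2 : ℝ) ^ (1 / 25 : ℝ) < ((32 / 31 : ℝ) ^ (25 : ℕ)) ^ (1 / 25 : ℝ) := by
      apply Real.rpow_lt_rpow (by norm_num) _ (by norm_num)
      norm_num
    refine this.trans_le (le_of_eq ?_)
    rw [← Real.rpow_natCast, ← Real.rpow_mul (by norm_num)]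
    norm_num
  set b : ℝ := (2 : ℝ) ^ (1 / 25 : ℝ) with hbdef
  have hb0 : 0 < b := by positivity
  have q1 : |b * (31 / 32)| < 1 := by
    rw [abs_of_pos (by positivity)]
    nlinarith
  have q2 : |b * Real.exp (-1)| < 1 := by
    rw [abs_of_pos (by positivity)]
    have : Real.exp (-1) < 1 / 2 := by
      rw [Real.exp_neg, inv_lt_comm₀ (Real.exp_pos _) (by norm_num)]
      have := Real.exp_one_gt_d9
      norm_num
      linarith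
    nlinarith [Real.exp_pos (-1)]
  have l1 : Filter.Tendsto (fun n : ℕ => (n : ℝ) ^ 1 * (b * (31 / 32)) ^ n) Filter.atTop (nhds 0) :=
    tendsto_pow_const_mul_const_pow_of_abs_lt_one 1 q1
  have l2 : Filter.Tendsto (fun n : ℕ => (b * (31 / 32)) ^ n) Filter.atTop (nhds 0) :=
    tendsto_pow_atTop_nhds_zero_of_abs_lt_one q1
  have l3 : Filter.Tendsto (fun n : ℕ => (b * Real.exp (-1)) ^ n) Filter.atTop (nhds 0) :=
    tendsto_pow_atTop_nhds_zero_of_abs_lt_one q2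
  have l4 : Filter.Tendsto (fun n : ℕ => 1024 * ((n : ℝ) ^ 1 * (b * (31 / 32)) ^ n) +
      2 * (b * (31 / 32)) ^ n + (b * Real.exp (-1)) ^ n) Filter.atTop (nhds 0) := by
    have := ((l1.const_mul 1024).add (l2.const_mul 2)).add l3
    simpa using this
  have l5 := l4.eventually (gt_mem_nhds (zero_lt_one))
  rw [Filter.eventually_atTop] at l5
  obtain ⟨ℓ0, h⟩ := l5
  refine ⟨ℓ0, fun ℓ hℓ => ?_⟩
  have h1 := h ℓ hℓ
  have e : (2 : ℝ) ^ (-(1 / 25 : ℝ) * (ℓ : ℝ)) = (b ^ ℓ)⁻¹ := by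
    rw [hbdef, ← Real.rpow_natCast, ← Real.rpow_mul (by norm_num), neg_mul,
      Real.rpow_neg (by norm_num)]
  rw [e]
  have hbl : 0 < b ^ ℓ := by positivity
  rw [inv_eq_one_div, le_div_iff₀ hbl]
  have e2 : Real.exp (-ℓ) = Real.exp (-1) ^ ℓ := by
    rw [← Real.exp_nat_mul]
    congr 1
    ring
  rw [e2]
  refine le_trans (le_of_eq ?_) h1.le
  rw [mul_pow, mul_pow]
  ring

theorem contraction : ∃ ℓ0 : ℕ, ∀ ℓ, ℓ0 ≤ ℓ → ∀ s : St ℓ, tot s = 0 → env s ≤ (7 / 8) * 2 ^ ℓ →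
    ((fun Φ : St ℓ → ℝ => EB ℓ Φ)^[266] nrm2) s ≤ (2 : ℝ) ^ (-(53 / 10 : ℝ) * (ℓ : ℝ)) * nrm2 s := by
  obtain ⟨ℓ1, h1⟩ := NContr.clog_le
  obtain ⟨ℓ2, h2⟩ := NContr.small
  refine ⟨max ℓ1 ℓ2, fun ℓ hℓ s h0 hs => ?_⟩
  obtain ⟨g1, g2⟩ := h1 ℓ ((le_max_left _ _).trans hℓ)
  have g3 := h2 ℓ ((le_max_right _ _).trans hℓ)
  have g4 := (NContr.kap_le ℓ g1 g2).trans g3
  have g5 := NContr.iter g2 133 s h0 hs
  have e : 2 * 133 = 266 := by norm_num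
  rw [e] at g5
  refine g5.trans ?_
  apply mul_le_mul_of_nonneg_right _ (NContr.nrm2_nonneg s)
  calc (NContr.kap (Nat.clog 2 (512 * ℓ)) ℓ) ^ 133 ≤ ((2 : ℝ) ^ (-(1 / 25 : ℝ) * (ℓ : ℝ))) ^ 133 :=
        pow_le_pow_left₀ (NContr.kap_nonneg _ _) g4 _
    _ = (2 : ℝ) ^ ((-(1 / 25 : ℝ) * (ℓ : ℝ)) * 133) := by
        rw [← Real.rpow_natCast, ← Real.rpow_mul (by norm_num)]
        norm_num
    _ ≤ (2 : ℝ) ^ (-(53 / 10 : ℝ) * (ℓ : ℝ)) := by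
        apply Real.rpow_le_rpow_of_exponent_le (by norm_num)
        have : (0 : ℝ) ≤ ℓ := Nat.cast_nonneg _
        linarith

end Crest.Agent.R155
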