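import Crest.Agent.R155.NBasic

/-!
R155, Part N, task NRec: the block recursions.

For a state `s` on `Cube (ℓ+1)` with halves `s0 s1`; `V ℓ s = EB ℓ nrm2 s`, `S s = tot s`,
`g s = env s / 2^ℓ` (fraction of environment cards), `f = 1 - g`.
-/

set_option autoImplicit false
set_option linter.unusedSectionVars false
set_option linter.unusedVariables false

namespace Crest.Agent.R155

open Finset

/-! ### preliminaries (prefix `NR_`) -/

theorem NR_avg_two {ι : Type} [Fintype ι] [DecidableEq ι] {i j : ι} (h : i ≠ j)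
    (X Y : Bool → ℝ) : avg (fun c : ι → Bool => X (c i) * Y (c j)) =
      (X false + X true) / 2 * ((Y false + Y true) / 2) := by
  have h1 := avg_prod (fun (k : ι) (b : Bool) => if k = i then X b else if k = j then Y b else 1)
  have h2 : (fun c : ι → Bool => ∏ k, (fun (k : ι) (b : Bool) =>
      if k = i then X b else if k = j then Y b else 1) k (c k)) =
      fun c => X (c i) * Y (c j) := by
    funext c
    rw [Finset.prod_eq_mul i j h]
    · simp [h.symm]
    · intro k _ hk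
      simp [hk.1, hk.2]
    · simp
    · simp
  rw [h2] at h1
  rw [h1, Finset.prod_eq_mul i j h]
  · simp [h.symm]
  · intro k _ hk
    simp [hk.1, hk.2]
  · simp
  · simp

theorem NR_ei_nonneg (o : Option ℝ) : 0 ≤ ei o := by
  unfold ei
  split_ifs <;> norm_num

theorem NR_ei_le_one (o : Option ℝ) : ei o ≤ 1 := by
  unfold ei
  split_ifs <;> norm_num

/-- the coin average of a quadratic function of one merged pair -/
theorem NR_mg_sq (a b : Option ℝ) :
    ((val (mg a b false).1 ^ 2 + val (mg a b false).2 ^ 2) +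
      (val (mg a b true).1 ^ 2 + val (mg a b true).2 ^ 2)) / 2 =
    (val a ^ 2 + val b ^ 2) / 2 + val a * val b + (val a ^ 2 * ei b + val b ^ 2 * ei a) / 2 := by
  rcases a with _ | a <;> rcases b with _ | b <;> simp [mg, val, ei] <;> ring

theorem NR_mg_mean1 (a b : Option ℝ) :
    (val (mg a b false).1 + val (mg a b true).1) / 2 = (val a + val b) / 2 := by
  rcases a with _ | a <;> rcases b with _ | b <;> simp [mg, val] <;> ring

theorem NR_mg_mean2 (a b : Option ℝ) :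
    (val (mg a b false).2 + val (mg a b true).2) / 2 = (val a + val b) / 2 := by
  rcases a with _ | a <;> rcases b with _ | b <;> simp [mg, val] <;> ring

theorem NR_half0_merge {ℓ : ℕ} (x0 x1 : St ℓ) (c : Cube ℓ → Bool) (z : Cube ℓ) :
    half0 (mergeL mg x0 x1 c) z = (mg (x0 z) (x1 z) (c z)).1 := by
  simp [half0, mergeL]

theorem NR_half1_merge {ℓ : ℕ} (x0 x1 : St ℓ) (c : Cube ℓ → Bool) (z : Cube ℓ) :
    half1 (mergeL mg x0 x1 c) z = (mg (x0 z) (x1 z) (c z)).2 := by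
  simp [half1, mergeL]

/-- coin average of `nrm2` of a merged array -/
theorem NR_avg_nrm2 {ℓ : ℕ} (x0 x1 : St ℓ) :
    avg (fun c : Cube ℓ → Bool => nrm2 (mergeL mg x0 x1 c)) =
      ∑ z, ((val (x0 z) ^ 2 + val (x1 z) ^ 2) / 2 + val (x0 z) * val (x1 z) +
        (val (x0 z) ^ 2 * ei (x1 z) + val (x1 z) ^ 2 * ei (x0 z)) / 2) := by
  have h1 : (fun c : Cube ℓ → Bool => nrm2 (mergeL mg x0 x1 c)) =
      fun c => ∑ z : Cube ℓ, (fun b : Bool => val (mg (x0 z) (x1 z) b).1 ^ 2 +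
        val (mg (x0 z) (x1 z) b).2 ^ 2) (c z) := by
    funext c
    rw [nrm2_succ]
    unfold nrm2
    rw [← Finset.sum_add_distrib]
    apply Finset.sum_congr rfl
    intro z _
    rw [NR_half0_merge, NR_half1_merge]
  rw [h1]
  have h2 := avg_sum (Ω := Cube ℓ → Bool) (Finset.univ : Finset (Cube ℓ))
    (fun z c => (fun b : Bool => val (mg (x0 z) (x1 z) b).1 ^ 2 +
        val (mg (x0 z) (x1 z) b).2 ^ 2) (c z))
  rw [h2]
  apply Finset.sum_congr rfl
  intro z _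
  have h3 := avg_coin (ι := Cube ℓ) z (fun b : Bool => val (mg (x0 z) (x1 z) b).1 ^ 2 +
        val (mg (x0 z) (x1 z) b).2 ^ 2)
  rw [h3]
  exact NR_mg_sq _ _

/-- exact recursion (1): average over the coins of `nrm2 (mergeL ..)` is
`∑_z [(a²+b²)/2 + a b + (a² ei(x1 z) + b² ei(x0 z))/2]`, `a = val (x0 z)`, `b = val (x1 z)`
(note `val = 0` where `ei = 1`), then independence, `EB_val`, `EB_ei`. -/
theorem EB_nrm2_succ {ℓ : ℕ} (s : St (ℓ + 1)) :
    EB (ℓ + 1) nrm2 s =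
      (1 + env (half1 s) / 2 ^ ℓ) / 2 * EB ℓ nrm2 (half0 s) +
      (1 + env (half0 s) / 2 ^ ℓ) / 2 * EB ℓ nrm2 (half1 s) +
      tot (half0 s) * tot (half1 s) / 2 ^ ℓ := by
  show EBg mg ℓ (fun x0 => EBg mg ℓ (fun x1 => avg (fun c : Cube ℓ → Bool =>
    nrm2 (mergeL mg x0 x1 c))) (half1 s)) (half0 s) = _
  simp only [NR_avg_nrm2]
  set g0 := env (half0 s) / 2 ^ ℓ with hg0
  set g1 := env (half1 s) / 2 ^ ℓ with hg1
  set t0 := tot (half0 s) / 2 ^ ℓ with ht0
  set t1 := tot (half1 s) / 2 ^ ℓ with ht1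
  set V := fun z : Cube ℓ => EBg mg ℓ (fun x => val (x z) ^ 2) (half1 s) with hV
  -- inner expectation
  have hin : ∀ x0 : St ℓ, EBg mg ℓ (fun x1 => ∑ z, ((val (x0 z) ^ 2 + val (x1 z) ^ 2) / 2 +
      val (x0 z) * val (x1 z) + (val (x0 z) ^ 2 * ei (x1 z) + val (x1 z) ^ 2 * ei (x0 z)) / 2))
      (half1 s) =
      ∑ z, ((1 + g1) / 2 * val (x0 z) ^ 2 + t1 * val (x0 z) + V z / 2 + V z / 2 * ei (x0 z)) := by
    intro x0
    rw [EBg_sum]
    apply Finset.sum_congr rfl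
    intro z _
    have h1 : (fun x1 : St ℓ => (val (x0 z) ^ 2 + val (x1 z) ^ 2) / 2 +
      val (x0 z) * val (x1 z) + (val (x0 z) ^ 2 * ei (x1 z) + val (x1 z) ^ 2 * ei (x0 z)) / 2) =
      fun x1 => (val (x0 z) ^ 2 / 2) + ((1 + ei (x0 z)) / 2 * val (x1 z) ^ 2 +
        (val (x0 z) * val (x1 z) + val (x0 z) ^ 2 / 2 * ei (x1 z))) := by
      funext x1
      ring
    rw [h1]
    rw [EBg_add mg ℓ (fun _ => val (x0 z) ^ 2 / 2), EBg_const]
    rw [EBg_add mg ℓ (fun x1 : St ℓ => (1 + ei (x0 z)) / 2 * val (x1 z) ^ 2), EBg_mul_left mg ℓ]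
    rw [EBg_add mg ℓ (fun x1 : St ℓ => val (x0 z) * val (x1 z)), EBg_mul_left mg ℓ,
      EBg_mul_left mg ℓ]
    have h2 := EB_val ℓ z (half1 s)
    have h3 := EB_ei ℓ z (half1 s)
    simp only [EB] at h2 h3
    rw [h2, h3]
    simp only [hV, ht1, hg1]
    ring
  simp only [hin]
  rw [EBg_sum]
  have hout : ∀ z : Cube ℓ, EBg mg ℓ (fun x0 => (1 + g1) / 2 * val (x0 z) ^ 2 +
      t1 * val (x0 z) + V z / 2 + V z / 2 * ei (x0 z)) (half0 s) =
      (1 + g1) / 2 * EBg mg ℓ (fun x0 => val (x0 z) ^ 2) (half0 s) + t1 * t0 +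
        (1 + g0) / 2 * V z := by
    intro z
    rw [EBg_add mg ℓ (fun x0 : St ℓ => (1 + g1) / 2 * val (x0 z) ^ 2 +
      t1 * val (x0 z) + V z / 2), EBg_add mg ℓ (fun x0 : St ℓ => (1 + g1) / 2 * val (x0 z) ^ 2 +
      t1 * val (x0 z)), EBg_add mg ℓ (fun x0 : St ℓ => (1 + g1) / 2 * val (x0 z) ^ 2),
      EBg_mul_left mg ℓ, EBg_mul_left mg ℓ, EBg_mul_left mg ℓ, EBg_const]
    have h2 := EB_val ℓ z (half0 s)
    have h3 := EB_ei ℓ z (half0 s)
    simp only [EB] at h2 h3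
    rw [h2, h3]
    simp only [ht0, hg0]
    ring
  rw [Finset.sum_congr rfl (fun z _ => hout z)]
  have hs1 : ∑ z : Cube ℓ, (1 + g1) / 2 * EBg mg ℓ (fun x0 => val (x0 z) ^ 2) (half0 s) =
      (1 + g1) / 2 * ∑ z : Cube ℓ, EBg mg ℓ (fun x0 => val (x0 z) ^ 2) (half0 s) :=
    (Finset.mul_sum _ _ _).symm
  have hs2 : ∑ z : Cube ℓ, (1 + g0) / 2 * V z = (1 + g0) / 2 * ∑ z : Cube ℓ, V z :=
    (Finset.mul_sum _ _ _).symm
  rw [Finset.sum_add_distrib, Finset.sum_add_distrib, hs1, hs2,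
    Finset.sum_const, Finset.card_univ, card_cube]
  have e0 : EB ℓ nrm2 (half0 s) =
      ∑ z, EBg mg ℓ (fun x0 => val (x0 z) ^ 2) (half0 s) := by
    rw [← EBg_sum]
    rfl
  have e1 : EB ℓ nrm2 (half1 s) = ∑ z, V z := by
    rw [hV, ← EBg_sum]
    rfl
  rw [e0, e1, ht0, ht1]
  have hp : (2 : ℝ) ^ ℓ ≠ 0 := by positivity
  simp only [nsmul_eq_mul]
  push_cast
  field_simp
  ring

theorem NR_nrm2_nonneg {ℓ : ℕ} (s : St ℓ) : 0 ≤ nrm2 s :=
  Finset.sum_nonneg (fun _ _ => sq_nonneg _)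

theorem NR_EB_nrm2_nonneg {ℓ : ℕ} (s : St ℓ) : 0 ≤ EB ℓ nrm2 s := by
  have h := EBg_mono mg ℓ (fun _ => 0) nrm2 s (fun x => NR_nrm2_nonneg x)
  rw [EBg_const] at h
  exact h

/-- `Good` at level `τ` implies the bound on the environment for larger blocks. -/
theorem Good.env_le {ρ : ℝ} {τ ℓ : ℕ} (h : τ ≤ ℓ) {s : St ℓ} (hs : Good ρ τ ℓ s) :
    env s ≤ (1 - ρ) * 2 ^ ℓ := by
  induction ℓ with
  | zero => exact hs
  | succ ℓ ih =>
    unfold Good at hs
    split_ifs at hs with h1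
    · exact hs
    · have h2 : τ ≤ ℓ := by omega
      have h3 := ih h2 hs.1
      have h4 := ih h2 hs.2
      rw [env_succ, pow_succ]
      linarith

theorem NR_clsSq_self (ℓ : ℕ) (s : St ℓ) : clsSq ℓ ℓ s = tot s ^ 2 := by
  cases ℓ with
  | zero => rfl
  | succ ℓ => simp [clsSq]

theorem NR_clsSq_succ {i ℓ : ℕ} (h : i ≤ ℓ) (s : St (ℓ + 1)) :
    clsSq i (ℓ + 1) s = clsSq i ℓ (half0 s) + clsSq i ℓ (half1 s) := by
  have : ¬ (ℓ + 1 ≤ i) := by omega
  simp [clsSq, this]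

/-- (3) in a good state. Induction on `ℓ` from `EB_nrm2_succ`,
`tot s0 * tot s1 ≤ (tot s0 ^2 + tot s1^2)/2`, `clsSq i (ℓ+1) s = clsSq i ℓ s0 + clsSq i ℓ s1` for `i ≤ ℓ`. -/
theorem EB_nrm2_good {ρ : ℝ} (hρ0 : 0 ≤ ρ) (hρ1 : ρ ≤ 1) {τ ℓ : ℕ} (h : τ ≤ ℓ) {s : St ℓ}
    (hs : Good ρ τ ℓ s) :
    EB ℓ nrm2 s ≤ (1 - ρ / 2) ^ (ℓ - τ) * nrm2 s +
      ∑ i ∈ Finset.Ico τ ℓ, (1 - ρ / 2) ^ (ℓ - 1 - i) * (1 / 2) ^ (i + 1) * clsSq i ℓ s := by
  induction ℓ with
  | zero =>
    have : τ = 0 := by omega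
    subst this
    simpa using EB_nrm2_le 0 s
  | succ ℓ ih =>
    rcases Nat.lt_or_ge ℓ τ with hlt | hge
    · have : τ = ℓ + 1 := by omega
      subst this
      simpa using EB_nrm2_le (ℓ + 1) s
    · have hs' : Good ρ τ ℓ (half0 s) ∧ Good ρ τ ℓ (half1 s) := by
        unfold Good at hs
        rwa [if_neg (by omega)] at hs
      have i0 := ih hge hs'.1
      have i1 := ih hge hs'.2
      have v0 := NR_EB_nrm2_nonneg (half0 s)
      have v1 := NR_EB_nrm2_nonneg (half1 s)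
      have hp : (0 : ℝ) < 2 ^ ℓ := by positivity
      have g0 : env (half0 s) / 2 ^ ℓ ≤ 1 - ρ := by
        rw [div_le_iff₀ hp]
        exact Good.env_le hge hs'.1
      have g1 : env (half1 s) / 2 ^ ℓ ≤ 1 - ρ := by
        rw [div_le_iff₀ hp]
        exact Good.env_le hge hs'.2
      rw [EB_nrm2_succ]
      have e0 : (1 + env (half1 s) / 2 ^ ℓ) / 2 * EB ℓ nrm2 (half0 s) ≤
          (1 - ρ / 2) * EB ℓ nrm2 (half0 s) :=
        mul_le_mul_of_nonneg_right (by linarith) v0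
      have e1 : (1 + env (half0 s) / 2 ^ ℓ) / 2 * EB ℓ nrm2 (half1 s) ≤
          (1 - ρ / 2) * EB ℓ nrm2 (half1 s) :=
        mul_le_mul_of_nonneg_right (by linarith) v1
      have e2 : tot (half0 s) * tot (half1 s) / 2 ^ ℓ ≤
          (1 / 2) ^ (ℓ + 1) * (tot (half0 s) ^ 2 + tot (half1 s) ^ 2) := by
        rw [one_div, inv_pow, pow_succ, div_eq_mul_inv, mul_inv]
        have h5 : tot (half0 s) * tot (half1 s) ≤
            2⁻¹ * (tot (half0 s) ^ 2 + tot (half1 s) ^ 2) := by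
          nlinarith [sq_nonneg (tot (half0 s) - tot (half1 s))]
        have h6 : (0 : ℝ) ≤ (2 ^ ℓ)⁻¹ := by positivity
        nlinarith [mul_le_mul_of_nonneg_right h5 h6]
      have hr : 0 ≤ 1 - ρ / 2 := by linarith
      have f0 := mul_le_mul_of_nonneg_left i0 hr
      have f1 := mul_le_mul_of_nonneg_left i1 hr
      -- rewrite the target
      have hsum : ∑ i ∈ Finset.Ico τ (ℓ + 1), (1 - ρ / 2) ^ (ℓ + 1 - 1 - i) * (1 / 2) ^ (i + 1) *
          clsSq i (ℓ + 1) s =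
          (1 - ρ / 2) * (∑ i ∈ Finset.Ico τ ℓ, (1 - ρ / 2) ^ (ℓ - 1 - i) * (1 / 2) ^ (i + 1) *
            clsSq i ℓ (half0 s)) +
          (1 - ρ / 2) * (∑ i ∈ Finset.Ico τ ℓ, (1 - ρ / 2) ^ (ℓ - 1 - i) * (1 / 2) ^ (i + 1) *
            clsSq i ℓ (half1 s)) +
          (1 / 2) ^ (ℓ + 1) * (tot (half0 s) ^ 2 + tot (half1 s) ^ 2) := by
        rw [Finset.sum_Ico_succ_top hge, NR_clsSq_succ (le_refl ℓ), NR_clsSq_self,
          NR_clsSq_self, Finset.mul_sum, Finset.mul_sum, ← Finset.sum_add_distrib]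
        congr 1
        · apply Finset.sum_congr rfl
          intro i hi
          rw [Finset.mem_Ico] at hi
          rw [NR_clsSq_succ (by omega)]
          have : ℓ + 1 - 1 - i = (ℓ - 1 - i) + 1 := by omega
          rw [this, pow_succ]
          ring
        · have : ℓ + 1 - 1 - ℓ = 0 := by omega
          rw [this]
          ring
      have hpow : (1 - ρ / 2) ^ (ℓ + 1 - τ) = (1 - ρ / 2) * (1 - ρ / 2) ^ (ℓ - τ) := by
        have : ℓ + 1 - τ = (ℓ - τ) + 1 := by omega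
        rw [this, pow_succ]
        ring
      rw [hsum, hpow, nrm2_succ]
      nlinarith [e0, e1, e2, f0, f1]

/-! ### the class kernel -/

/-- `z` and `w` are in the same class -/
def NR_rel (τ : ℕ) : (ℓ : ℕ) → Cube ℓ → Cube ℓ → Prop
  | 0, _, _ => True
  | ℓ + 1, p, q => if ℓ + 1 ≤ τ then True else p.2 = q.2 ∧ NR_rel τ ℓ p.1 q.1

open Classical in
/-- kernel of the class form -/
noncomputable def NR_ker (τ ℓ : ℕ) (z w : Cube ℓ) : ℝ := if NR_rel τ ℓ z w then 1 else 0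

theorem NR_rel_succ (τ ℓ : ℕ) (p q : Cube (ℓ + 1)) : NR_rel τ (ℓ + 1) p q =
    if ℓ + 1 ≤ τ then True else p.2 = q.2 ∧ NR_rel τ ℓ p.1 q.1 := rfl

theorem NR_rel_refl (τ ℓ : ℕ) (z : Cube ℓ) : NR_rel τ ℓ z z := by
  induction ℓ with
  | zero => trivial
  | succ ℓ ih =>
    unfold NR_rel
    by_cases h : ℓ + 1 ≤ τ
    · rw [if_pos h]
      trivial
    · rw [if_neg h]
      exact ⟨rfl, ih _⟩

theorem NR_ker_self (τ ℓ : ℕ) (z : Cube ℓ) : NR_ker τ ℓ z z = 1 := by
  simp [NR_ker, NR_rel_refl]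

theorem NR_ker_succ {τ ℓ : ℕ} (h : τ ≤ ℓ) (z w : Cube ℓ) (a b : Bool) :
    NR_ker τ (ℓ + 1) (z, a) (w, b) = if a = b then NR_ker τ ℓ z w else 0 := by
  have h1 : ¬ (ℓ + 1 ≤ τ) := by omega
  have hrel : NR_rel τ (ℓ + 1) (z, a) (w, b) ↔ (a = b ∧ NR_rel τ ℓ z w) := by
    have h2 := NR_rel_succ τ ℓ (z, a) (w, b)
    rw [if_neg h1] at h2
    exact Iff.of_eq h2
  unfold NR_ker
  by_cases hab : a = b
  · rw [if_pos hab]
    by_cases hr : NR_rel τ ℓ z w
    · rw [if_pos hr, if_pos (hrel.2 ⟨hab, hr⟩)]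
    · rw [if_neg hr, if_neg (fun h => hr (hrel.1 h).2)]
  · rw [if_neg hab, if_neg (fun h => hab (hrel.1 h).1)]

theorem NR_ker_of_le {τ ℓ : ℕ} (h : ℓ ≤ τ) (z w : Cube ℓ) : NR_ker τ ℓ z w = 1 := by
  unfold NR_ker
  cases ℓ with
  | zero => simp [NR_rel]
  | succ ℓ => simp [NR_rel, h]

theorem NR_sum_ker {τ ℓ : ℕ} (h : τ ≤ ℓ) :
    ∑ z : Cube ℓ, ∑ w : Cube ℓ, NR_ker τ ℓ z w = 2 ^ ℓ * 2 ^ τ := by
  induction ℓ with
  | zero =>
    have : τ = 0 := by omega
    subst this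
    simp only [NR_ker_of_le (le_refl 0)]
    simp [Finset.card_univ, card_cube]
  | succ ℓ ih =>
    rcases Nat.lt_or_ge ℓ τ with hlt | hge
    · have : τ = ℓ + 1 := by omega
      subst this
      simp only [NR_ker_of_le (le_refl (ℓ + 1))]
      simp only [Finset.sum_const, Finset.card_univ, card_cube, nsmul_eq_mul, mul_one]
      push_cast
      ring
    · rw [sum_cube_succ]
      simp only [sum_cube_succ, NR_ker_succ hge]
      simp only [if_true, Bool.false_eq_true, if_false, Finset.sum_const_zero, add_zero,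
        Bool.true_eq_false, zero_add, ih hge]
      ring

theorem NR_clsSq_eq {τ ℓ : ℕ} (h : τ ≤ ℓ) (s : St ℓ) :
    clsSq τ ℓ s = ∑ z, ∑ w, NR_ker τ ℓ z w * (val (s z) * val (s w)) := by
  induction ℓ with
  | zero =>
    have : τ = 0 := by omega
    subst this
    simp only [NR_ker_of_le (le_refl 0), one_mul]
    rw [NR_clsSq_self, tot, sq, Finset.sum_mul_sum]
  | succ ℓ ih =>
    rcases Nat.lt_or_ge ℓ τ with hlt | hge
    · have : τ = ℓ + 1 := by omega
      subst this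
      simp only [NR_ker_of_le (le_refl (ℓ + 1)), one_mul]
      rw [NR_clsSq_self, tot, sq, Finset.sum_mul_sum]
    · rw [NR_clsSq_succ hge, ih hge, ih hge, sum_cube_succ]
      simp only [sum_cube_succ, NR_ker_succ hge]
      simp only [if_true, Bool.false_eq_true, if_false, zero_mul, Finset.sum_const_zero, add_zero,
        Bool.true_eq_false, zero_add]
      rfl

/-- coin average of the class form of a merged array -/
theorem NR_avg_cls {τ ℓ : ℕ} (h : τ ≤ ℓ) (x0 x1 : St ℓ) :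
    avg (fun c : Cube ℓ → Bool => clsSq τ (ℓ + 1) (mergeL mg x0 x1 c)) =
      (1 / 2) * (∑ z, ∑ w, NR_ker τ ℓ z w *
        ((val (x0 z) + val (x1 z)) * (val (x0 w) + val (x1 w)))) +
      (1 / 2) * ∑ z, (val (x0 z) ^ 2 * ei (x1 z) + val (x1 z) ^ 2 * ei (x0 z)) := by
  have h1 : (fun c : Cube ℓ → Bool => clsSq τ (ℓ + 1) (mergeL mg x0 x1 c)) =
      fun c => ∑ z : Cube ℓ, ∑ w : Cube ℓ, NR_ker τ ℓ z w *
        (val (mg (x0 z) (x1 z) (c z)).1 * val (mg (x0 w) (x1 w) (c w)).1 +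
         val (mg (x0 z) (x1 z) (c z)).2 * val (mg (x0 w) (x1 w) (c w)).2) := by
    funext c
    rw [NR_clsSq_succ h, NR_clsSq_eq h, NR_clsSq_eq h, ← Finset.sum_add_distrib]
    apply Finset.sum_congr rfl
    intro z _
    rw [← Finset.sum_add_distrib]
    apply Finset.sum_congr rfl
    intro w _
    rw [NR_half0_merge, NR_half1_merge, NR_half0_merge, NR_half1_merge]
    ring
  rw [h1]
  rw [avg_sum]
  have key : ∀ z w : Cube ℓ, avg (fun c : Cube ℓ → Bool => NR_ker τ ℓ z w *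
        (val (mg (x0 z) (x1 z) (c z)).1 * val (mg (x0 w) (x1 w) (c w)).1 +
         val (mg (x0 z) (x1 z) (c z)).2 * val (mg (x0 w) (x1 w) (c w)).2)) =
      (1 / 2) * (NR_ker τ ℓ z w *
        ((val (x0 z) + val (x1 z)) * (val (x0 w) + val (x1 w)))) +
      (if z = w then (1 / 2) * (val (x0 z) ^ 2 * ei (x1 z) + val (x1 z) ^ 2 * ei (x0 z)) else 0) := by
    intro z w
    rw [avg_mul_left]
    by_cases hzw : z = w
    · subst hzw
      rw [if_pos rfl, NR_ker_self]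
      have h3 := avg_coin (ι := Cube ℓ) z (fun b : Bool =>
        val (mg (x0 z) (x1 z) b).1 * val (mg (x0 z) (x1 z) b).1 +
        val (mg (x0 z) (x1 z) b).2 * val (mg (x0 z) (x1 z) b).2)
      rw [h3]
      have h4 := NR_mg_sq (x0 z) (x1 z)
      simp only [← sq]
      rw [h4]
      ring
    · rw [if_neg hzw, add_zero]
      rw [avg_add (fun c : Cube ℓ → Bool =>
        val (mg (x0 z) (x1 z) (c z)).1 * val (mg (x0 w) (x1 w) (c w)).1)]
      have h5 := NR_avg_two hzw (fun b => val (mg (x0 z) (x1 z) b).1)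
        (fun b => val (mg (x0 w) (x1 w) b).1)
      have h6 := NR_avg_two hzw (fun b => val (mg (x0 z) (x1 z) b).2)
        (fun b => val (mg (x0 w) (x1 w) b).2)
      rw [h5, h6, NR_mg_mean1, NR_mg_mean1, NR_mg_mean2, NR_mg_mean2]
      ring
  have h2 : ∀ z : Cube ℓ, avg (fun c : Cube ℓ → Bool => ∑ w : Cube ℓ, NR_ker τ ℓ z w *
        (val (mg (x0 z) (x1 z) (c z)).1 * val (mg (x0 w) (x1 w) (c w)).1 +
         val (mg (x0 z) (x1 z) (c z)).2 * val (mg (x0 w) (x1 w) (c w)).2)) =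
      (1 / 2) * (∑ w, NR_ker τ ℓ z w *
        ((val (x0 z) + val (x1 z)) * (val (x0 w) + val (x1 w)))) +
      (1 / 2) * (val (x0 z) ^ 2 * ei (x1 z) + val (x1 z) ^ 2 * ei (x0 z)) := by
    intro z
    rw [avg_sum, Finset.sum_congr rfl (fun w _ => key z w), Finset.sum_add_distrib,
      ← Finset.mul_sum]
    congr 1
    rw [Finset.sum_ite_eq]
    simp
  rw [Finset.sum_congr rfl (fun z _ => h2 z), Finset.sum_add_distrib, ← Finset.mul_sum,
    ← Finset.mul_sum]

/-- (2): expected class sums of squares after one butterfly. Induction on `ℓ ≥ τ`: for `ℓ = τ` the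
total is conserved. Step: with `S(z-class, b)` the class sums, `S0 + S1` is conserved and
`E (S0 - S1)^2 = ∑ over pairs with one environment card of the squared weight`, so
`E ∑ S² = ½ E ∑ (S(x0) + S(x1))² + ½ E ∑_single ≤ ½ (A(s0) + A(s1) + 2 · 2^(-(ℓ-τ)) S(s0) S(s1)) +
½ (nrm2 s0 + nrm2 s1)` by independence and `EB_val`. -/
theorem EB_clsSq {τ ℓ : ℕ} (h : τ ≤ ℓ) (s : St ℓ) :
    EB ℓ (clsSq τ ℓ) s ≤ nrm2 s + tot s ^ 2 / 2 ^ (ℓ - τ) := by
  induction ℓ with
  | zero =>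
    have : τ = 0 := by omega
    subst this
    show clsSq 0 0 s ≤ _
    rw [NR_clsSq_self]
    simpa using NR_nrm2_nonneg s
  | succ ℓ ih =>
    rcases Nat.lt_or_ge ℓ τ with hlt | hge
    · have : τ = ℓ + 1 := by omega
      subst this
      have h1 : EB (ℓ + 1) (clsSq (ℓ + 1) (ℓ + 1)) s ≤ EB (ℓ + 1) (fun _ => tot s ^ 2) s := by
        apply EB_mono_on
        intro x hx _ _
        rw [NR_clsSq_self, hx]
      rw [show EB (ℓ + 1) (fun _ => tot s ^ 2) s = tot s ^ 2 from EBg_const mg _ _ _] at h1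
      simp only [Nat.sub_self, pow_zero, div_one]
      linarith [NR_nrm2_nonneg s]
    · have i0 := ih hge (half0 s)
      have i1 := ih hge (half1 s)
      show EBg mg ℓ (fun x0 => EBg mg ℓ (fun x1 => avg (fun c : Cube ℓ → Bool =>
        clsSq τ (ℓ + 1) (mergeL mg x0 x1 c))) (half1 s)) (half0 s) ≤ _
      simp only [NR_avg_cls hge]
      set t0 := tot (half0 s) / 2 ^ ℓ with ht0
      set t1 := tot (half1 s) / 2 ^ ℓ with ht1
      -- bound the integrand
      have hb : ∀ x0 x1 : St ℓ, (1 / 2) * (∑ z, ∑ w, NR_ker τ ℓ z w *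
          ((val (x0 z) + val (x1 z)) * (val (x0 w) + val (x1 w)))) +
          (1 / 2) * ∑ z, (val (x0 z) ^ 2 * ei (x1 z) + val (x1 z) ^ 2 * ei (x0 z)) ≤
          ((1 / 2) * clsSq τ ℓ x0 + (1 / 2) * nrm2 x0) +
          (((1 / 2) * clsSq τ ℓ x1 + (1 / 2) * nrm2 x1) +
          ∑ z, ∑ w, NR_ker τ ℓ z w * ((1 / 2) * (val (x0 z) * val (x1 w)) +
            (1 / 2) * (val (x1 z) * val (x0 w)))) := by
        intro x0 x1
        have e1 : ∑ z, ∑ w, NR_ker τ ℓ z w *
            ((val (x0 z) + val (x1 z)) * (val (x0 w) + val (x1 w))) =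
            clsSq τ ℓ x0 + clsSq τ ℓ x1 + 2 * ∑ z, ∑ w, NR_ker τ ℓ z w *
              ((1 / 2) * (val (x0 z) * val (x1 w)) + (1 / 2) * (val (x1 z) * val (x0 w))) := by
          rw [NR_clsSq_eq hge, NR_clsSq_eq hge, Finset.mul_sum, ← Finset.sum_add_distrib,
            ← Finset.sum_add_distrib]
          apply Finset.sum_congr rfl
          intro z _
          rw [Finset.mul_sum, ← Finset.sum_add_distrib, ← Finset.sum_add_distrib]
          apply Finset.sum_congr rfl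
          intro w _
          ring
        have e2 : ∑ z, (val (x0 z) ^ 2 * ei (x1 z) + val (x1 z) ^ 2 * ei (x0 z)) ≤
            nrm2 x0 + nrm2 x1 := by
          unfold nrm2
          rw [← Finset.sum_add_distrib]
          apply Finset.sum_le_sum
          intro z _
          have a1 := NR_ei_le_one (x1 z)
          have a0 := NR_ei_le_one (x0 z)
          have b1 := mul_le_mul_of_nonneg_left a1 (sq_nonneg (val (x0 z)))
          have b0 := mul_le_mul_of_nonneg_left a0 (sq_nonneg (val (x1 z)))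
          linarith
        rw [e1]
        linarith
      refine (EBg_mono mg ℓ _ _ _ (fun x0 => EBg_mono mg ℓ _ _ _ (fun x1 => hb x0 x1))).trans ?_
      -- inner expectation
      have hin : ∀ x0 : St ℓ, EBg mg ℓ (fun x1 =>
          ((1 / 2) * clsSq τ ℓ x0 + (1 / 2) * nrm2 x0) +
          (((1 / 2) * clsSq τ ℓ x1 + (1 / 2) * nrm2 x1) +
          ∑ z, ∑ w, NR_ker τ ℓ z w * ((1 / 2) * (val (x0 z) * val (x1 w)) +
            (1 / 2) * (val (x1 z) * val (x0 w))))) (half1 s) =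
          ((1 / 2) * clsSq τ ℓ x0 + (1 / 2) * nrm2 x0) +
          (((1 / 2) * EB ℓ (clsSq τ ℓ) (half1 s) + (1 / 2) * EB ℓ nrm2 (half1 s)) +
          ∑ z, ∑ w, NR_ker τ ℓ z w * ((1 / 2) * (val (x0 z) * t1) +
            (1 / 2) * (t1 * val (x0 w)))) := by
        intro x0
        rw [EBg_add mg ℓ (fun _ => (1 / 2) * clsSq τ ℓ x0 + (1 / 2) * nrm2 x0), EBg_const,
          EBg_add mg ℓ (fun x1 : St ℓ => (1 / 2) * clsSq τ ℓ x1 + (1 / 2) * nrm2 x1),
          EBg_add mg ℓ (fun x1 : St ℓ => (1 / 2) * clsSq τ ℓ x1), EBg_mul_left mg ℓ,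
          EBg_mul_left mg ℓ, EBg_sum]
        congr 2
        apply Finset.sum_congr rfl
        intro z _
        rw [EBg_sum]
        apply Finset.sum_congr rfl
        intro w _
        rw [EBg_mul_left mg ℓ]
        congr 1
        have h2 := EB_val ℓ z (half1 s)
        have h3 := EB_val ℓ w (half1 s)
        simp only [EB] at h2 h3
        have h4 : (fun x1 : St ℓ => (1 / 2) * (val (x0 z) * val (x1 w)) +
            (1 / 2) * (val (x1 z) * val (x0 w))) =
            fun x1 => ((1 / 2) * val (x0 z)) * val (x1 w) +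
              ((1 / 2) * val (x0 w)) * val (x1 z) := by
          funext x1
          ring
        rw [h4, EBg_add mg ℓ (fun x1 : St ℓ => ((1 / 2) * val (x0 z)) * val (x1 w)),
          EBg_mul_left mg ℓ, EBg_mul_left mg ℓ, h2, h3]
        ring
      simp only [hin]
      set C1 := (1 / 2) * EB ℓ (clsSq τ ℓ) (half1 s) + (1 / 2) * EB ℓ nrm2 (half1 s) with hC1
      have hout : EBg mg ℓ (fun x0 => ((1 / 2) * clsSq τ ℓ x0 + (1 / 2) * nrm2 x0) +
          (C1 + ∑ z, ∑ w, NR_ker τ ℓ z w * ((1 / 2) * (val (x0 z) * t1) +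
            (1 / 2) * (t1 * val (x0 w))))) (half0 s) =
          ((1 / 2) * EB ℓ (clsSq τ ℓ) (half0 s) + (1 / 2) * EB ℓ nrm2 (half0 s)) +
          (C1 + 2 ^ ℓ * 2 ^ τ * (t0 * t1)) := by
        rw [EBg_add mg ℓ (fun x0 : St ℓ => (1 / 2) * clsSq τ ℓ x0 + (1 / 2) * nrm2 x0),
          EBg_add mg ℓ (fun x0 : St ℓ => (1 / 2) * clsSq τ ℓ x0), EBg_mul_left mg ℓ,
          EBg_mul_left mg ℓ, EBg_add mg ℓ (fun _ => C1), EBg_const, EBg_sum]
        congr 2
        rw [← NR_sum_ker hge, Finset.sum_mul]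
        apply Finset.sum_congr rfl
        intro z _
        rw [EBg_sum, Finset.sum_mul]
        apply Finset.sum_congr rfl
        intro w _
        rw [EBg_mul_left mg ℓ]
        congr 1
        have h2 := EB_val ℓ z (half0 s)
        have h3 := EB_val ℓ w (half0 s)
        simp only [EB] at h2 h3
        have h4 : (fun x0 : St ℓ => (1 / 2) * (val (x0 z) * t1) +
            (1 / 2) * (t1 * val (x0 w))) =
            fun x0 => ((1 / 2) * t1) * val (x0 z) + ((1 / 2) * t1) * val (x0 w) := by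
          funext x0
          ring
        rw [h4, EBg_add mg ℓ (fun x0 : St ℓ => ((1 / 2) * t1) * val (x0 z)),
          EBg_mul_left mg ℓ, EBg_mul_left mg ℓ, h2, h3]
        ring
      rw [hout, hC1]
      have n0 := EB_nrm2_le ℓ (half0 s)
      have n1 := EB_nrm2_le ℓ (half1 s)
      have hcross : (2 : ℝ) ^ ℓ * 2 ^ τ * (t0 * t1) =
          tot (half0 s) * tot (half1 s) / 2 ^ (ℓ - τ) := by
        rw [ht0, ht1]
        have hsplit : (2 : ℝ) ^ ℓ = 2 ^ (ℓ - τ) * 2 ^ τ := by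
          rw [← pow_add]
          congr 1
          omega
        have p1 : (2 : ℝ) ^ (ℓ - τ) ≠ 0 := by positivity
        have p2 : (2 : ℝ) ^ τ ≠ 0 := by positivity
        rw [hsplit]
        field_simp
      rw [hcross, nrm2_succ, tot_succ]
      have hpow : (2 : ℝ) ^ (ℓ + 1 - τ) = 2 * 2 ^ (ℓ - τ) := by
        have : ℓ + 1 - τ = (ℓ - τ) + 1 := by omega
        rw [this, pow_succ]
        ring
      rw [hpow]
      have p1 : (0 : ℝ) < 2 ^ (ℓ - τ) := by positivity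
      have hfin : (tot (half0 s) + tot (half1 s)) ^ 2 / (2 * 2 ^ (ℓ - τ)) =
          (1 / 2) * (tot (half0 s) ^ 2 / 2 ^ (ℓ - τ)) +
          (1 / 2) * (tot (half1 s) ^ 2 / 2 ^ (ℓ - τ)) +
          tot (half0 s) * tot (half1 s) / 2 ^ (ℓ - τ) := by
        field_simp
        ring
      rw [hfin]
      linarith

end Crest.Agent.R155
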