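import Crest.Agent.R155.NetChain

/-!
The network half: the law of the positions of at most `7/8` of the cards after `79 (d + 1)`
steps is close to uniform in total variation.
-/

set_option autoImplicit false

namespace Crest.Agent.R155

namespace Net

open Finset Crest.ProbabilityR.Shuffle

variable {d : ℕ}

theorem av_abs_le (t q : ℕ) (j : ℕ) (ht : t = d + 1 + j) (hq : 16 * q = 2 ^ d)
    (s : State (2 ^ d)) (h : Good q s) :
    av (fun cs : Fin t → Fin (2 ^ d) → Bool => ∑ z, |(runS t cs s).2 z|)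
      ≤ Real.sqrt ((2 * 2 ^ d) * ((31 / 32 : ℝ) ^ j + 64 * (2500 / 4096 : ℝ) ^ q)) := by
  apply Real.le_sqrt_of_sq_le
  calc (av (fun cs : Fin t → Fin (2 ^ d) → Bool => ∑ z, |(runS t cs s).2 z|)) ^ 2
      ≤ av (fun cs : Fin t → Fin (2 ^ d) → Bool => (∑ z, |(runS t cs s).2 z|) ^ 2) := av_sq_le _
    _ ≤ av (fun cs : Fin t → Fin (2 ^ d) → Bool => (2 * 2 ^ d) * W (runS t cs s)) := by
        refine av_mono fun cs => ?_
        have h1 := sq_sum_le_card_mul_sum_sq (s := (univ : Finset (Fin (2 * 2 ^ d))))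
          (f := fun z => |(runS t cs s).2 z|)
        simp only [sq_abs, Finset.card_univ, Fintype.card_fin] at h1
        push_cast at h1
        exact h1
    _ = (2 * 2 ^ d) * E t W s := av_mul_left _ _
    _ ≤ (2 * 2 ^ d) * ((31 / 32 : ℝ) ^ j + 64 * (2500 / 4096 : ℝ) ^ q) := by
        refine mul_le_mul_of_nonneg_left ?_ (by positivity)
        rw [ht]
        exact E_W_le q hq j s h

theorem L_zero (t : ℕ) {m : ℕ} (x : Fin 0 → Fin (2 * m)) : L t x = 0 := by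
  classical
  rw [L]
  refine Finset.sum_eq_zero fun y _ => ?_
  have h1 : Q t x y = 1 := by
    rw [Q, ← av_const (α := Fin t → Fin m → Bool) 1]
    refine av_congr fun cs => ?_
    rw [if_pos (Subsingleton.elim _ _), av_const]
  have h2 : U (2 * m) y = 1 := by
    rw [U, if_pos (Function.injective_of_subsingleton y)]
    simp
  rw [h1, h2]; simp

theorem L_le (t q j : ℕ) (ht : t = d + 1 + j) (hq : 16 * q = 2 ^ d) :
    ∀ (k : ℕ), 8 * k ≤ 7 * (2 * 2 ^ d) → ∀ x : Fin k → Fin (2 * 2 ^ d), Function.Injective x →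
      L t x ≤ k * Real.sqrt ((2 * 2 ^ d) * ((31 / 32 : ℝ) ^ j + 64 * (2500 / 4096 : ℝ) ^ q)) := by
  intro k
  induction k with
  | zero => intro _ x _; rw [L_zero]; simp
  | succ k ih =>
    intro hk x hx
    have hRinj : Function.Injective (fun i : Fin k => x i.castSucc) :=
      hx.comp (Fin.castSucc_injective k)
    have hfree : freeOf (fun i : Fin k => x i.castSucc) (x (Fin.last k)) = true := by
      rw [freeOf_eq_true_iff]
      rintro ⟨i, hi⟩
      exact absurd (hx hi) (Fin.castSucc_lt_last i).ne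
    have hk2 : k < 2 * 2 ^ d := by omega
    obtain ⟨g1, g2, g3⟩ := W_w0 (fun i : Fin k => x i.castSucc) (x (Fin.last k)) hRinj hfree hk2
    have hgood : Good q (freeOf (fun i : Fin k => x i.castSucc),
        w0 (fun i : Fin k => x i.castSucc) (x (Fin.last k))) := by
      refine ⟨g3, g2, g1, ?_⟩
      rw [nfr_freeOf _ hRinj]
      omega
    have h1 := L_succ t x hx
    have h2 := ih (by omega) (fun i : Fin k => x i.castSucc) hRinj
    have h3 := av_abs_le t q j ht hq _ hgood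
    push_cast
    linarith

theorem uniformProb_eq_Q (t : ℕ) {m k : ℕ} (x y : Fin k → Fin (2 * m)) :
    Crest.FinProb.uniformProb {cs : Fin t → Fin m → Bool | ∀ i, iterPos m t cs (x i) = y i}
      = Q t x y := by
  classical
  rw [Crest.FinProb.uniformProb, Q, av, Finset.sum_boole]
  congr 2
  apply congrArg
  ext cs
  simp only [Finset.mem_filter, Finset.mem_univ, true_and, Set.mem_ofPred_eq]
  exact ⟨fun h => funext h, fun h i => congrFun h i⟩

theorem tendsto_err : Filter.Tendsto (fun e : ℕ => ((2 : ℝ) * 2 ^ (e + 4)) ^ 3 *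
    ((31 / 32 : ℝ) ^ (78 * (e + 4 + 1)) + 64 * (2500 / 4096 : ℝ) ^ (2 ^ e))) Filter.atTop (nhds 0) := by
  have h1 : Filter.Tendsto (fun e : ℕ => (8 * (31 / 32 : ℝ) ^ 78) ^ 5 * (8 * (31 / 32 : ℝ) ^ 78) ^ e)
      Filter.atTop (nhds 0) := by
    have h := (tendsto_pow_atTop_nhds_zero_of_lt_one (r := 8 * (31 / 32 : ℝ) ^ 78) (by positivity)
      (by norm_num)).const_mul ((8 * (31 / 32 : ℝ) ^ 78) ^ 5)
    simpa using h
  have h2 : Filter.Tendsto (fun e : ℕ => (64 * 32 ^ 3 : ℝ) *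
      (((2 ^ e : ℕ) : ℝ) ^ 3 * (2500 / 4096 : ℝ) ^ (2 ^ e))) Filter.atTop (nhds 0) := by
    have h := ((tendsto_pow_const_mul_const_pow_of_lt_one 3 (r := (2500 / 4096 : ℝ)) (by norm_num)
      (by norm_num)).comp (tendsto_pow_atTop_atTop_of_one_lt (r := (2 : ℕ)) (by norm_num))).const_mul
        (64 * 32 ^ 3 : ℝ)
    simpa using h
  have h3 := h1.add h2
  rw [add_zero] at h3
  refine h3.congr fun e => ?_
  push_cast
  have e1 : (31 / 32 : ℝ) ^ (78 * (e + 4 + 1)) = ((31 / 32 : ℝ) ^ 78) ^ (e + 5) := by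
    rw [pow_mul]
  have e2 : ((2 : ℝ) * 2 ^ (e + 4)) ^ 3 = 8 ^ (e + 5) := by
    rw [← pow_succ', ← pow_mul, mul_comm, pow_mul]; norm_num
  have e3 : ((2 : ℝ) * 2 ^ (e + 4)) ^ 3 = 32 ^ 3 * (2 ^ e) ^ 3 := by
    rw [pow_add]; ring
  rw [mul_add, e1]
  congr 1
  · rw [e2, ← mul_pow, ← pow_add]; congr 1; ring
  · rw [e3]; ring

end Net

set_option exponentiation.threshold 1000 in
/-- The network half of the proof of S0222: after `79 (d + 1)` steps the positions of any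
`k ≤ 7 n / 8` cards are jointly close to uniform in total variation. -/
theorem network_half (ε : ℝ) (hε : 0 < ε) : ∃ d0 : ℕ, ∀ d, d0 ≤ d → ∀ (k : ℕ),
    8 * k ≤ 7 * (2 * 2 ^ d) → ∀ x : Fin k → Fin (2 * 2 ^ d), Function.Injective x →
    ∑ y : Fin k → Fin (2 * 2 ^ d),
      |Crest.FinProb.uniformProb {cs : Fin (79 * (d + 1)) → Fin (2 ^ d) → Bool |
          ∀ i, Crest.ProbabilityR.Shuffle.iterPos (2 ^ d) (79 * (d + 1)) cs (x i) = y i}
        - (if Function.Injective y then 1 / ((2 * 2 ^ d).descFactorial k : ℝ) else 0)| ≤ ε := by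
  have hε2 : (0 : ℝ) < ε ^ 2 := by positivity
  obtain ⟨e0, he0⟩ := Filter.eventually_atTop.1 (Net.tendsto_err.eventually (gt_mem_nhds hε2))
  refine ⟨e0 + 4, fun d hd k hk x hx => ?_⟩
  obtain ⟨e, rfl⟩ : ∃ e, d = e + 4 := ⟨d - 4, by omega⟩
  have hq : 16 * 2 ^ e = 2 ^ (e + 4) := by rw [pow_add]; ring
  have h1 := Net.L_le (d := e + 4) (79 * (e + 4 + 1)) (2 ^ e) (78 * (e + 4 + 1)) (by ring) hq k hk x hx
  have h2 : ∑ y : Fin k → Fin (2 * 2 ^ (e + 4)),
      |Crest.FinProb.uniformProb {cs : Fin (79 * (e + 4 + 1)) → Fin (2 ^ (e + 4)) → Bool |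
          ∀ i, Crest.ProbabilityR.Shuffle.iterPos (2 ^ (e + 4)) (79 * (e + 4 + 1)) cs (x i) = y i}
        - (if Function.Injective y then 1 / ((2 * 2 ^ (e + 4)).descFactorial k : ℝ) else 0)|
      = Net.L (79 * (e + 4 + 1)) x := by
    rw [Net.L]
    refine Finset.sum_congr rfl fun y _ => ?_
    rw [Net.uniformProb_eq_Q, Net.U]
  rw [h2]
  refine h1.trans ?_
  have h3 := he0 e (by omega)
  set z : ℝ := (31 / 32 : ℝ) ^ (78 * (e + 4 + 1)) + 64 * (2500 / 4096 : ℝ) ^ (2 ^ e) with hz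
  have hz0 : 0 ≤ z := by rw [hz]; positivity
  have hk' : (k : ℝ) ≤ 2 * 2 ^ (e + 4) := by
    have : k ≤ 2 * 2 ^ (e + 4) := by omega
    exact_mod_cast this
  have h4 : (k : ℝ) * Real.sqrt ((2 * 2 ^ (e + 4)) * z)
      ≤ (2 * 2 ^ (e + 4)) * Real.sqrt ((2 * 2 ^ (e + 4)) * z) :=
    mul_le_mul_of_nonneg_right hk' (Real.sqrt_nonneg _)
  refine h4.trans ?_
  have h5 : (2 * 2 ^ (e + 4) : ℝ) * Real.sqrt ((2 * 2 ^ (e + 4)) * z)
      = Real.sqrt ((2 * 2 ^ (e + 4)) ^ 3 * z) := by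
    have h6 : ((2 : ℝ) * 2 ^ (e + 4)) ^ 3 * z
        = (2 * 2 ^ (e + 4)) ^ 2 * ((2 * 2 ^ (e + 4)) * z) := by
      generalize ((2 : ℝ) * 2 ^ (e + 4)) = a
      ring
    rw [h6, Real.sqrt_mul (by positivity : (0 : ℝ) ≤ (2 * 2 ^ (e + 4)) ^ 2),
      Real.sqrt_sq (by positivity)]
  rw [h5]
  exact Real.sqrt_le_iff.2 ⟨hε.le, h3.le⟩

end Crest.Agent.R155
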