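import Mathlib

/-!
Averages over finite types, used in the network half of the Thorp shuffle analysis (row 155).
-/

set_option autoImplicit false

namespace Crest.Agent.R155.Net

open Finset

variable {α β ι : Type*} [Fintype α] [Fintype β] [Fintype ι]

/-- Average of a real function over a finite type. -/
noncomputable def av (f : α → ℝ) : ℝ := (∑ a, f a) / (Fintype.card α : ℝ)

theorem av_add (f g : α → ℝ) : av (fun a => f a + g a) = av f + av g := by
  simp only [av, Finset.sum_add_distrib, add_div]

theorem av_sub (f g : α → ℝ) : av (fun a => f a - g a) = av f - av g := by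
  simp only [av, Finset.sum_sub_distrib, sub_div]

theorem av_mul_left (c : ℝ) (f : α → ℝ) : av (fun a => c * f a) = c * av f := by
  simp only [av, ← Finset.mul_sum, mul_div_assoc]

theorem av_mul_right (c : ℝ) (f : α → ℝ) : av (fun a => f a * c) = av f * c := by
  simp only [av, ← Finset.sum_mul, div_mul_eq_mul_div]

theorem av_div (c : ℝ) (f : α → ℝ) : av (fun a => f a / c) = av f / c := by
  simp only [div_eq_mul_inv, av_mul_right]

theorem av_sum {κ : Type*} (s : Finset κ) (f : κ → α → ℝ) :
    av (fun a => ∑ i ∈ s, f i a) = ∑ i ∈ s, av (f i) := by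
  simp only [av]
  rw [Finset.sum_comm, Finset.sum_div]

theorem av_mono {f g : α → ℝ} (h : ∀ a, f a ≤ g a) : av f ≤ av g :=
  div_le_div_of_nonneg_right (Finset.sum_le_sum fun a _ => h a) (Nat.cast_nonneg _)

theorem av_congr {f g : α → ℝ} (h : ∀ a, f a = g a) : av f = av g := by
  have : f = g := funext h
  rw [this]

theorem av_nonneg {f : α → ℝ} (h : ∀ a, 0 ≤ f a) : 0 ≤ av f :=
  div_nonneg (Finset.sum_nonneg fun a _ => h a) (Nat.cast_nonneg _)

theorem av_zero : av (fun _ : α => (0 : ℝ)) = 0 := by simp [av]

theorem av_const [Nonempty α] (c : ℝ) : av (fun _ : α => c) = c := by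
  have : (Fintype.card α : ℝ) ≠ 0 := Nat.cast_ne_zero.2 Fintype.card_ne_zero
  simp only [av, Finset.sum_const, Finset.card_univ, nsmul_eq_mul]
  field_simp

theorem av_equiv (e : α ≃ β) (f : β → ℝ) : av (fun a => f (e a)) = av f := by
  simp only [av]
  rw [Fintype.card_congr e, Equiv.sum_comp e f]

theorem av_comm (f : α → β → ℝ) :
    av (fun a => av (fun b => f a b)) = av (fun b => av (fun a => f a b)) := by
  simp only [av]
  rw [← Finset.sum_div, ← Finset.sum_div, Finset.sum_comm, div_div, div_div, mul_comm]

theorem av_prod (f : α × β → ℝ) : av f = av (fun a => av (fun b => f (a, b))) := by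
  simp only [av]
  rw [← Finset.sum_div, Fintype.card_prod, Fintype.sum_prod_type, div_div, Nat.cast_mul,
    mul_comm (Fintype.card β : ℝ)]

theorem abs_av_le (f : α → ℝ) : |av f| ≤ av (fun a => |f a|) := by
  simp only [av, abs_div, Nat.abs_cast]
  exact div_le_div_of_nonneg_right (Finset.abs_sum_le_sum_abs _ _) (Nat.cast_nonneg _)

/-- Cauchy-Schwarz (Jensen) for the square root. -/
theorem av_sq_le (f : α → ℝ) : (av f) ^ 2 ≤ av (fun a => (f a) ^ 2) := by
  rcases isEmpty_or_nonempty α with h | h
  · simp [av]
  · have hc : (0 : ℝ) < Fintype.card α := Nat.cast_pos.2 Fintype.card_pos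
    simp only [av, div_pow]
    rw [div_le_div_iff₀ (by positivity) hc]
    have := sq_sum_le_card_mul_sum_sq (s := (Finset.univ : Finset α)) (f := f)
    rw [Finset.card_univ] at this
    calc (∑ a, f a) ^ 2 * (Fintype.card α : ℝ)
        ≤ ((Fintype.card α : ℝ) * ∑ a, f a ^ 2) * (Fintype.card α : ℝ) :=
          mul_le_mul_of_nonneg_right this hc.le
      _ = (∑ a, f a ^ 2) * (Fintype.card α : ℝ) ^ 2 := by ring

theorem av_bool (f : Bool → ℝ) : av f = (f false + f true) / 2 := by
  simp [av, add_comm]

/-- Average over `Fin (t+1) → α` splits off the last coordinate. -/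
theorem av_snoc [Nonempty α] (t : ℕ) (f : (Fin (t + 1) → α) → ℝ) :
    av f = av (fun c : Fin t → α => av (fun b : α => f (Fin.snoc (α := fun _ => α) c b))) := by
  rw [← av_equiv (Fin.snocEquiv (fun _ : Fin (t + 1) => α)) f, av_prod, av_comm]
  rfl

/-- Averages of products over coordinates. -/
theorem av_pi_prod [DecidableEq ι] (g : ι → Bool → ℝ) :
    av (fun b : ι → Bool => ∏ i, g i (b i)) = ∏ i, av (g i) := by
  simp only [av, Finset.prod_div_distrib]
  rw [Finset.prod_univ_sum, Fintype.piFinset_univ]
  simp

/-- Resampling one coordinate. -/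
theorem av_update [DecidableEq ι] (i : ι) (f : (ι → Bool) → ℝ) :
    av f = av (fun b => (f (Function.update b i false) + f (Function.update b i true)) / 2) := by
  have key : av (fun b => f (Function.update b i (!(b i)))) = av f := by
    have hinv : ∀ b : ι → Bool,
        Function.update (Function.update b i (!(b i))) i
          (!((Function.update b i (!(b i))) i)) = b := by
      intro b
      simp
    let e : (ι → Bool) ≃ (ι → Bool) := ⟨fun b => Function.update b i (!(b i)),
      fun b => Function.update b i (!(b i)), hinv, hinv⟩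
    exact av_equiv e f
  have h2 : ∀ b : ι → Bool, (f (Function.update b i false) + f (Function.update b i true)) / 2
      = (f b + f (Function.update b i (!(b i)))) / 2 := by
    intro b
    cases hb : b i
    · have : Function.update b i false = b := by rw [← hb]; simp
      rw [this]; simp
    · have : Function.update b i true = b := by rw [← hb]; simp
      rw [this]; simp [add_comm]
  rw [av_congr h2, av_div, av_add, key]
  ring

/-- Product formula for functions depending on complementary coordinates. -/
theorem av_indep {Ω : Type*} [Fintype Ω] (σ : Ω → Ω → Ω)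
    (hσ : ∀ c c', σ (σ c c') (σ c' c) = c)
    (f g : Ω → ℝ) (hf : ∀ c c', f (σ c c') = f c) (hg : ∀ c c', g (σ c c') = g c') :
    av (fun c => f c * g c) = av f * av g := by
  rcases isEmpty_or_nonempty Ω with h | h
  · simp [av]
  · have h1 : av (fun p : Ω × Ω => f p.1 * g p.2) = av f * av g := by
      rw [av_prod]
      simp only [av_mul_left, av_mul_right]
    have h2 : av (fun p : Ω × Ω => f p.1 * g p.2)
        = av (fun p : Ω × Ω => f (σ p.1 p.2) * g (σ p.1 p.2)) :=
      av_congr fun p => by rw [hf, hg]
    have h3 : av (fun p : Ω × Ω => f (σ p.1 p.2) * g (σ p.1 p.2))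
        = av (fun p : Ω × Ω => f p.1 * g p.1) :=
      av_equiv (f := fun p : Ω × Ω => f p.1 * g p.1)
        ⟨fun p => (σ p.1 p.2, σ p.2 p.1), fun p => (σ p.1 p.2, σ p.2 p.1),
        fun p => by ext <;> simp [hσ], fun p => by ext <;> simp [hσ]⟩
    have h4 : av (fun p : Ω × Ω => f p.1 * g p.1) = av (fun c => f c * g c) := by
      rw [av_prod]
      exact av_congr fun a => by simp only; rw [av_const]
    rw [← h1, h2, h3, h4]

end Crest.Agent.R155.Net
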