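import Crest.Agent.R155.NetCond

/-!
The chain rule: adding one more card costs at most the expected `L¹` norm of the weights.
-/

set_option autoImplicit false

namespace Crest.Agent.R155.Net

open Finset Crest.ProbabilityR.Shuffle

variable {m : ℕ}

theorem iterPos_injective (t : ℕ) (cs : Fin t → Fin m → Bool) :
    Function.Injective (iterPos m t cs) := by
  induction t with
  | zero => exact fun _ _ h => h
  | succ t ih => exact fun _ _ h => ih _ (stepPos_injective _ h)

/-- Law of the positions of a tuple of cards. -/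
noncomputable def Q (t : ℕ) {k : ℕ} (x y : Fin k → Fin (2 * m)) : ℝ :=
  av (fun cs : Fin t → Fin m → Bool => if (fun i => iterPos m t cs (x i)) = y then 1 else 0)

/-- Uniform law on injective tuples. -/
noncomputable def U (n : ℕ) {k : ℕ} (y : Fin k → Fin n) : ℝ :=
  open Classical in if Function.Injective y then 1 / (n.descFactorial k : ℝ) else 0

/-- `L¹` distance of the law of a tuple from uniform. -/
noncomputable def L (t : ℕ) {k : ℕ} (x : Fin k → Fin (2 * m)) : ℝ :=
  ∑ y : Fin k → Fin (2 * m), |Q t x y - U (2 * m) y|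

theorem Q_nonneg (t : ℕ) {k : ℕ} (x y : Fin k → Fin (2 * m)) : 0 ≤ Q t x y :=
  av_nonneg fun _ => by split_ifs <;> norm_num

theorem Q_eq_zero (t : ℕ) {k : ℕ} (x y : Fin k → Fin (2 * m)) (hx : Function.Injective x)
    (hy : ¬ Function.Injective y) : Q t x y = 0 := by
  have : ∀ cs : Fin t → Fin m → Bool,
      (if (fun i => iterPos m t cs (x i)) = y then (1 : ℝ) else 0) = 0 := by
    intro cs
    rw [if_neg]
    rintro rfl
    exact hy ((iterPos_injective t cs).comp hx)
  rw [Q, av_congr this, av_zero]

theorem nfr_freeOf {k : ℕ} (R : Fin k → Fin (2 * m)) (hR : Function.Injective R)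
    (p : Fin (2 * m) → ℝ) : nfr (freeOf R, p) = 2 * m - k := by
  classical
  have h1 : (univ.filter fun x : Fin (2 * m) => freeOf R x = true) = (univ.image R)ᶜ := by
    ext y
    simp [freeOf]
  rw [nfr]
  simp only
  rw [h1, Finset.card_compl, Finset.card_image_of_injective _ hR, Finset.card_univ,
    Fintype.card_fin, Fintype.card_fin]

theorem sum_ind_freeOf {k : ℕ} (R : Fin k → Fin (2 * m)) (hR : Function.Injective R) :
    ∑ z, ind (freeOf R z) = (2 * m - k : ℕ) := by
  have h := nfree_eq (freeOf R, fun _ => (0 : ℝ))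
  rw [nfr_freeOf R hR] at h
  exact h

theorem freeOf_eq_true_iff {k : ℕ} (R : Fin k → Fin (2 * m)) (z : Fin (2 * m)) :
    freeOf R z = true ↔ z ∉ Set.range R := by
  simp only [freeOf, decide_eq_true_eq, Set.mem_range, not_exists]

theorem snoc_inj_iff {α : Type*} {k : ℕ} (y : Fin k → α) (z : α) :
    Function.Injective (Fin.snoc (α := fun _ => α) y z : Fin (k + 1) → α) ↔
      Function.Injective y ∧ z ∉ Set.range y := by
  constructor
  · intro h
    refine ⟨fun i j hij => ?_, ?_⟩
    · have : (Fin.snoc (α := fun _ => α) y z : Fin (k + 1) → α) i.castSucc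
          = (Fin.snoc (α := fun _ => α) y z : Fin (k + 1) → α) j.castSucc := by
        rw [Fin.snoc_castSucc, Fin.snoc_castSucc]; exact hij
      exact Fin.castSucc_injective _ (h this)
    · rintro ⟨i, hi⟩
      have : (Fin.snoc (α := fun _ => α) y z : Fin (k + 1) → α) i.castSucc
          = (Fin.snoc (α := fun _ => α) y z : Fin (k + 1) → α) (Fin.last k) := by
        rw [Fin.snoc_castSucc, Fin.snoc_last]; exact hi
      exact absurd (h this) (Fin.castSucc_lt_last i).ne
  · rintro ⟨h1, h2⟩
    exact Fin.snoc_injective_of_injective h1 h2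

theorem U_snoc {k : ℕ} (y : Fin k → Fin (2 * m)) (z : Fin (2 * m)) :
    U (2 * m) (Fin.snoc (α := fun _ => Fin (2 * m)) y z : Fin (k + 1) → Fin (2 * m))
      = U (2 * m) y * (1 / ((2 * m - k : ℕ) : ℝ) * ind (freeOf y z)) := by
  classical
  unfold U
  by_cases h1 : Function.Injective y
  · by_cases h2 : freeOf y z = true
    · rw [if_pos ((snoc_inj_iff y z).2 ⟨h1, (freeOf_eq_true_iff y z).1 h2⟩), if_pos h1, h2,
        Nat.descFactorial_succ]
      push_cast
      simp only [ind_true, mul_one, one_div, mul_inv]
      ring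
    · rw [if_neg, Bool.eq_false_iff.2 h2]
      · simp
      · intro h
        exact h2 ((freeOf_eq_true_iff y z).2 ((snoc_inj_iff y z).1 h).2)
  · rw [if_neg, if_neg h1, zero_mul]
    intro h
    exact h1 ((snoc_inj_iff y z).1 h).1

/-- Initial weights for the next card. -/
noncomputable def w0 {k : ℕ} (R : Fin k → Fin (2 * m)) (X : Fin (2 * m)) (z : Fin (2 * m)) : ℝ :=
  (if X = z then 1 else 0) - 1 / ((2 * m - k : ℕ) : ℝ) * ind (freeOf R z)

theorem sum_snoc {k : ℕ} (f : (Fin (k + 1) → Fin (2 * m)) → ℝ) :
    ∑ y, f y = ∑ y' : Fin k → Fin (2 * m), ∑ z : Fin (2 * m),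
      f (Fin.snoc (α := fun _ => Fin (2 * m)) y' z) := by
  rw [← Equiv.sum_comp (Fin.snocEquiv (fun _ : Fin (k + 1) => Fin (2 * m))) f,
    Fintype.sum_prod_type, Finset.sum_comm]
  rfl

theorem L_succ (t : ℕ) {k : ℕ} (x : Fin (k + 1) → Fin (2 * m)) (hx : Function.Injective x) :
    L t x ≤ L t (fun i : Fin k => x i.castSucc)
      + av (fun cs : Fin t → Fin m → Bool => ∑ z,
        |(runS t cs (freeOf (fun i : Fin k => x i.castSucc),
          w0 (fun i : Fin k => x i.castSucc) (x (Fin.last k)))).2 z|) := by
  classical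
  set R : Fin k → Fin (2 * m) := fun i => x i.castSucc with hRdef
  set X := x (Fin.last k) with hX
  have hRinj : Function.Injective R := hx.comp (Fin.castSucc_injective k)
  set c : ℝ := 1 / ((2 * m - k : ℕ) : ℝ) with hc
  set p0 : Fin (2 * m) → ℝ := fun z => if X = z then 1 else 0 with hp0
  have hk : k < 2 * m := by
    have := Fintype.card_le_of_injective x hx
    simp only [Fintype.card_fin] at this
    omega
  -- the weights
  have hw : ∀ (cs : Fin t → Fin m → Bool) (z : Fin (2 * m)),
      (runS t cs (freeOf R, w0 R X)).2 z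
        = (runS t cs (freeOf R, p0)).2 z - c * ind (freeOf (fun i => iterPos m t cs (R i)) z) := by
    intro cs z
    have h1 : runS t cs (freeOf R, w0 R X) = _ := runS_sub (freeOf R) p0 c t cs
    rw [h1]
    simp only
    rw [runS_free]
  -- Q of the snoc
  have hQ : ∀ (y : Fin k → Fin (2 * m)) (z : Fin (2 * m)),
      Q t x (Fin.snoc (α := fun _ => Fin (2 * m)) y z)
        = av (fun cs : Fin t → Fin m → Bool =>
            (if (fun i => iterPos m t cs (R i)) = y then 1 else 0)
              * (runS t cs (freeOf R, p0)).2 z) := by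
    intro y z
    have h := cond_law R X t (fun R' _ => if R' = y then 1 else 0) z
    rw [← h, Q]
    refine av_congr fun cs => ?_
    have hiff : ((fun i => iterPos m t cs (x i)) = Fin.snoc (α := fun _ => Fin (2 * m)) y z)
        ↔ ((fun i => iterPos m t cs (R i)) = y ∧ iterPos m t cs X = z) := by
      constructor
      · intro h
        refine ⟨funext fun i => ?_, ?_⟩
        · have := congrFun h i.castSucc
          rw [Fin.snoc_castSucc] at this
          exact this
        · have := congrFun h (Fin.last k)
          rw [Fin.snoc_last] at this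
          exact this
      · rintro ⟨h1, h2⟩
        funext i
        induction i using Fin.lastCases with
        | last => rw [Fin.snoc_last]; exact h2
        | cast i => rw [Fin.snoc_castSucc]; exact congrFun h1 i
    by_cases h1 : (fun i => iterPos m t cs (R i)) = y
    · by_cases h2 : iterPos m t cs X = z
      · rw [if_pos (hiff.2 ⟨h1, h2⟩), if_pos h1, if_pos h2, mul_one]
      · rw [if_neg (fun h => h2 (hiff.1 h).2), if_neg h2, mul_zero]
    · rw [if_neg (fun h => h1 (hiff.1 h).1), if_neg h1, zero_mul]
  have hdiff : ∀ (y : Fin k → Fin (2 * m)) (z : Fin (2 * m)),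
      Q t x (Fin.snoc (α := fun _ => Fin (2 * m)) y z)
        - U (2 * m) (Fin.snoc (α := fun _ => Fin (2 * m)) y z : Fin (k + 1) → Fin (2 * m))
      = av (fun cs : Fin t → Fin m → Bool =>
            (if (fun i => iterPos m t cs (R i)) = y then 1 else 0)
              * (runS t cs (freeOf R, w0 R X)).2 z)
        + (Q t R y - U (2 * m) y) * (c * ind (freeOf y z)) := by
    intro y z
    rw [hQ, U_snoc]
    have h1 : av (fun cs : Fin t → Fin m → Bool =>
            (if (fun i => iterPos m t cs (R i)) = y then 1 else 0)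
              * (runS t cs (freeOf R, w0 R X)).2 z)
        = av (fun cs : Fin t → Fin m → Bool =>
            (if (fun i => iterPos m t cs (R i)) = y then 1 else 0)
              * (runS t cs (freeOf R, p0)).2 z)
          - Q t R y * (c * ind (freeOf y z)) := by
      rw [Q, ← av_mul_right, ← av_sub]
      refine av_congr fun cs => ?_
      rw [hw]
      by_cases h : (fun i => iterPos m t cs (R i)) = y
      · rw [if_pos h, h]; ring
      · rw [if_neg h]; ring
    rw [h1]; ring
  -- bound
  have hind : ∀ y z, 0 ≤ c * ind (freeOf (y : Fin k → Fin (2 * m)) z) := fun y z =>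
    mul_nonneg (by positivity) (ind_nonneg _)
  rw [L, sum_snoc]
  calc ∑ y : Fin k → Fin (2 * m), ∑ z : Fin (2 * m),
        |Q t x (Fin.snoc (α := fun _ => Fin (2 * m)) y z)
          - U (2 * m) (Fin.snoc (α := fun _ => Fin (2 * m)) y z : Fin (k + 1) → Fin (2 * m))|
      ≤ ∑ y : Fin k → Fin (2 * m), ∑ z : Fin (2 * m),
        (av (fun cs : Fin t → Fin m → Bool =>
            (if (fun i => iterPos m t cs (R i)) = y then 1 else 0)
              * |(runS t cs (freeOf R, w0 R X)).2 z|)
          + |Q t R y - U (2 * m) y| * (c * ind (freeOf y z))) := by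
        refine Finset.sum_le_sum fun y _ => Finset.sum_le_sum fun z _ => ?_
        rw [hdiff]
        refine (abs_add_le _ _).trans (add_le_add ?_ ?_)
        · refine (abs_av_le _).trans (av_mono fun cs => ?_)
          rw [abs_mul]
          refine mul_le_mul_of_nonneg_right ?_ (abs_nonneg _)
          split_ifs <;> simp
        · rw [abs_mul, abs_of_nonneg (hind y z)]
    _ = (∑ y : Fin k → Fin (2 * m), ∑ z : Fin (2 * m),
        av (fun cs : Fin t → Fin m → Bool =>
            (if (fun i => iterPos m t cs (R i)) = y then 1 else 0)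
              * |(runS t cs (freeOf R, w0 R X)).2 z|))
        + ∑ y : Fin k → Fin (2 * m), |Q t R y - U (2 * m) y| * (c * ∑ z, ind (freeOf y z)) := by
        rw [← Finset.sum_add_distrib]
        refine Finset.sum_congr rfl fun y _ => ?_
        rw [Finset.sum_add_distrib, ← Finset.mul_sum, ← Finset.mul_sum]
    _ ≤ av (fun cs : Fin t → Fin m → Bool => ∑ z, |(runS t cs (freeOf R, w0 R X)).2 z|)
        + L t R := by
        refine add_le_add (le_of_eq ?_) ?_
        · rw [Finset.sum_comm, av_sum]
          refine Finset.sum_congr rfl fun z _ => ?_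
          rw [← av_sum]
          refine av_congr fun cs => ?_
          rw [← Finset.sum_mul, Finset.sum_ite_eq univ (fun i => iterPos m t cs (R i)) (fun _ => (1 : ℝ))]
          simp
        · rw [L]
          refine Finset.sum_le_sum fun y _ => ?_
          by_cases hy : Function.Injective y
          · rw [sum_ind_freeOf y hy, hc]
            have : ((2 * m - k : ℕ) : ℝ) ≠ 0 := by
              rw [Nat.cast_ne_zero]; omega
            rw [one_div, inv_mul_cancel₀ this, mul_one]
          · rw [Q_eq_zero t R y hRinj hy, U, if_neg hy]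
            simp
    _ = L t R + av (fun cs : Fin t → Fin m → Bool => ∑ z,
          |(runS t cs (freeOf R, w0 R X)).2 z|) := add_comm _ _

theorem W_w0 {k : ℕ} (R : Fin k → Fin (2 * m)) (X : Fin (2 * m)) (hR : Function.Injective R)
    (hX : freeOf R X = true) (hk : k < 2 * m) :
    W (freeOf R, w0 R X) ≤ 1 ∧ tot (freeOf R, w0 R X) = 0 ∧ Supp (freeOf R, w0 R X) := by
  have hF : (0 : ℝ) < ((2 * m - k : ℕ) : ℝ) := by
    rw [Nat.cast_pos]; omega
  refine ⟨?_, ?_, ?_⟩
  · have h1 : ∀ z, w0 R X z ^ 2 = (1 - 2 * (1 / ((2 * m - k : ℕ) : ℝ)) * ind (freeOf R X))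
        * (if X = z then 1 else 0) + (1 / ((2 * m - k : ℕ) : ℝ)) ^ 2 * ind (freeOf R z) := by
      intro z
      rw [w0]
      by_cases h : X = z
      · subst h
        rw [if_pos rfl, hX]; simp only [ind_true]; ring
      · rw [if_neg h]
        have := ind_sq (freeOf R z)
        nlinarith [this]
    rw [W]
    simp only
    rw [Finset.sum_congr rfl fun z _ => h1 z, Finset.sum_add_distrib, ← Finset.mul_sum,
      ← Finset.mul_sum, sum_ind_freeOf R hR, hX]
    simp only [Finset.sum_ite_eq, Finset.mem_univ, if_true, ind_true, mul_one]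
    have : (1 / ((2 * m - k : ℕ) : ℝ)) ^ 2 * ((2 * m - k : ℕ) : ℝ) = 1 / ((2 * m - k : ℕ) : ℝ) := by
      field_simp
    rw [this]
    have : (0 : ℝ) ≤ 1 / ((2 * m - k : ℕ) : ℝ) := by positivity
    linarith
  · rw [tot]
    simp only [w0]
    rw [Finset.sum_sub_distrib, ← Finset.mul_sum, sum_ind_freeOf R hR]
    simp only [Finset.sum_ite_eq, Finset.mem_univ, if_true]
    rw [one_div, inv_mul_cancel₀ hF.ne', sub_self]
  · intro z hz
    simp only at hz ⊢
    rw [w0, hz, if_neg]
    · simp
    · rintro rfl
      rw [hX] at hz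
      exact absurd hz (by decide)

end Crest.Agent.R155.Net
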