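import Crest.Agent.R155.NetWindow

/-!
The conditional law of one more card given the trajectories of revealed cards, and the chain rule.
-/

set_option autoImplicit false

namespace Crest.Agent.R155.Net

open Finset Crest.ProbabilityR.Shuffle

variable {m : ℕ}

/-- Free positions, given the positions `R` of the revealed cards. -/
def freeOf {k : ℕ} (R : Fin k → Fin (2 * m)) (y : Fin (2 * m)) : Bool := decide (∀ i, R i ≠ y)

theorem freeOf_step {k : ℕ} (b : Fin m → Bool) (R : Fin k → Fin (2 * m)) (y : Fin (2 * m)) :
    freeOf (fun i => stepPos m b (R i)) y = freeOf R (pre b y) := by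
  unfold freeOf
  rw [decide_eq_decide]
  refine forall_congr' fun i => not_congr ?_
  constructor
  · intro h; rw [← h, pre_step]
  · intro h
    change stepPos m b (R i) = y
    rw [h, step_pre]

theorem runS_free {k : ℕ} (R : Fin k → Fin (2 * m)) (p : Fin (2 * m) → ℝ) (t : ℕ)
    (cs : Fin t → Fin m → Bool) :
    (runS t cs (freeOf R, p)).1 = freeOf (fun i => iterPos m t cs (R i)) := by
  induction t with
  | zero => rfl
  | succ t ih =>
    funext y
    simp only [runS, stp, iterPos]
    rw [ih, ← freeOf_step]

/-- The weights are unaffected by resampling the coin of a pair with both inputs free. -/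
theorem stp_update (s : State m) (b : Fin m → Bool) (u : Fin m) (v : Bool)
    (h : s.1 (lo u) = true ∧ s.1 (hi u) = true) :
    (stp (Function.update b u v) s).2 = (stp b s).2 := by
  funext y
  simp only [stp]
  obtain ⟨u', rfl | rfl⟩ := ev_or_od y
  · rw [pre_ev, pre_ev]
    by_cases hu : u' = u
    · subst hu
      have e : mix s.1 s.2 (lo u') = mix s.1 s.2 (hi u') := by
        rw [mix_lo, mix_hi, if_pos h, if_pos h]
      split_ifs <;> simp [e]
    · rw [Function.update_of_ne hu]
  · rw [pre_od, pre_od]
    by_cases hu : u' = u
    · subst hu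
      have e : mix s.1 s.2 (lo u') = mix s.1 s.2 (hi u') := by
        rw [mix_lo, mix_hi, if_pos h, if_pos h]
      split_ifs <;> simp [e]
    · rw [Function.update_of_ne hu]

theorem step_update {k : ℕ} (R : Fin k → Fin (2 * m)) (b : Fin m → Bool) (u : Fin m) (v : Bool)
    (h : freeOf R (lo u) = true ∧ freeOf R (hi u) = true) :
    (fun i => stepPos m (Function.update b u v) (R i)) = fun i => stepPos m b (R i) := by
  funext i
  simp only [freeOf, decide_eq_true_eq] at h
  obtain ⟨u', hu'⟩ := lo_or_hi (R i)
  have hne : u' ≠ u := by
    rintro rfl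
    rcases hu' with h' | h'
    · exact h.1 i h'
    · exact h.2 i h'
  rcases hu' with h' | h'
  · rw [h', step_lo, step_lo, Function.update_of_ne hne]
  · rw [h', step_hi, step_hi, Function.update_of_ne hne]

theorem cond_step {k : ℕ} (R : Fin k → Fin (2 * m)) (p : Fin (2 * m) → ℝ)
    (Φ : (Fin k → Fin (2 * m)) → (Fin (2 * m) → ℝ) → ℝ) (y : Fin (2 * m)) :
    av (fun b : Fin m → Bool =>
        Φ (fun i => stepPos m b (R i)) (stp b (freeOf R, p)).2 * p (pre b y))
      = av (fun b : Fin m → Bool =>
        Φ (fun i => stepPos m b (R i)) (stp b (freeOf R, p)).2 * (stp b (freeOf R, p)).2 y) := by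
  obtain ⟨u, hyu⟩ := ev_or_od y
  by_cases h : freeOf R (lo u) = true ∧ freeOf R (hi u) = true
  · rw [av_update u]
    refine av_congr fun b => ?_
    rw [step_update R b u false h, step_update R b u true h,
      stp_update (freeOf R, p) b u false h, stp_update (freeOf R, p) b u true h]
    have e1 : (stp b (freeOf R, p)).2 y = (p (lo u) + p (hi u)) / 2 := by
      simp only [stp]
      rcases hyu with rfl | rfl
      · rw [pre_ev]; split_ifs
        · rw [mix_hi, if_pos h]
        · rw [mix_lo, if_pos h]
      · rw [pre_od]; split_ifs
        · rw [mix_lo, if_pos h]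
        · rw [mix_hi, if_pos h]
    have e2 : p (pre (Function.update b u false) y) + p (pre (Function.update b u true) y)
        = p (lo u) + p (hi u) := by
      rcases hyu with rfl | rfl
      · rw [pre_ev, pre_ev]; simp
      · rw [pre_od, pre_od]; simp [add_comm]
    rw [e1, ← e2]; ring
  · refine av_congr fun b => ?_
    have e1 : (stp b (freeOf R, p)).2 y = p (pre b y) := by
      simp only [stp]
      rcases hyu with rfl | rfl
      · rw [pre_ev]; split_ifs
        · rw [mix_hi, if_neg h]
        · rw [mix_lo, if_neg h]
      · rw [pre_od]; split_ifs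
        · rw [mix_lo, if_neg h]
        · rw [mix_hi, if_neg h]
    rw [e1]

theorem cond_law {k : ℕ} (R : Fin k → Fin (2 * m)) (x : Fin (2 * m)) (t : ℕ)
    (Φ : (Fin k → Fin (2 * m)) → (Fin (2 * m) → ℝ) → ℝ) (y : Fin (2 * m)) :
    av (fun cs : Fin t → Fin m → Bool =>
        Φ (fun i => iterPos m t cs (R i)) (runS t cs (freeOf R, fun z => if x = z then 1 else 0)).2
          * (if iterPos m t cs x = y then 1 else 0))
      = av (fun cs : Fin t → Fin m → Bool =>
        Φ (fun i => iterPos m t cs (R i)) (runS t cs (freeOf R, fun z => if x = z then 1 else 0)).2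
          * (runS t cs (freeOf R, fun z => if x = z then 1 else 0)).2 y) := by
  induction t generalizing Φ y with
  | zero => rfl
  | succ t ih =>
    rw [av_snoc, av_snoc]
    simp only [iterPos, runS, Fin.snoc_last, Fin.snoc_castSucc]
    -- abbreviations
    have hpair : ∀ c : Fin t → Fin m → Bool,
        runS t c (freeOf R, fun z => if x = z then (1 : ℝ) else 0)
          = (freeOf (fun i => iterPos m t c (R i)),
              (runS t c (freeOf R, fun z => if x = z then (1 : ℝ) else 0)).2) := fun c =>
      Prod.ext (runS_free R _ t c) rfl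
    have hL : ∀ c : Fin t → Fin m → Bool,
        av (fun b : Fin m → Bool =>
          Φ (fun i => stepPos m b (iterPos m t c (R i)))
            (stp b (runS t c (freeOf R, fun z => if x = z then (1 : ℝ) else 0))).2
            * (if stepPos m b (iterPos m t c x) = y then 1 else 0))
        = av (fun b : Fin m → Bool =>
          Φ (fun i => stepPos m b (iterPos m t c (R i)))
            (stp b (freeOf (fun i => iterPos m t c (R i)),
              (runS t c (freeOf R, fun z => if x = z then (1 : ℝ) else 0)).2)).2
            * (if iterPos m t c x = pre b y then 1 else 0)) := by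
      intro c
      refine av_congr fun b => ?_
      rw [← hpair c]
      congr 1
      by_cases h : iterPos m t c x = pre b y
      · rw [if_pos h, if_pos]; rw [h, step_pre]
      · rw [if_neg h, if_neg]; intro h'; exact h (by rw [← h', pre_step])
    have hR : ∀ c : Fin t → Fin m → Bool,
        av (fun b : Fin m → Bool =>
          Φ (fun i => stepPos m b (iterPos m t c (R i)))
            (stp b (runS t c (freeOf R, fun z => if x = z then (1 : ℝ) else 0))).2
            * (stp b (runS t c (freeOf R, fun z => if x = z then (1 : ℝ) else 0))).2 y)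
        = av (fun b : Fin m → Bool =>
          Φ (fun i => stepPos m b (iterPos m t c (R i)))
            (stp b (freeOf (fun i => iterPos m t c (R i)),
              (runS t c (freeOf R, fun z => if x = z then (1 : ℝ) else 0)).2)).2
            * (runS t c (freeOf R, fun z => if x = z then (1 : ℝ) else 0)).2 (pre b y)) := by
      intro c
      rw [hpair c]
      exact (cond_step _ _ Φ y).symm
    rw [av_congr hL, av_congr hR]
    refine (av_comm _).trans (Eq.trans (av_congr fun b => ?_) (av_comm _).symm)
    exact ih (fun R' p' => Φ (fun i => stepPos m b (R' i)) (stp b (freeOf R', p')).2) (pre b y)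

theorem mix_sub (A : Fin (2 * m) → Bool) (p : Fin (2 * m) → ℝ) (c : ℝ) (x : Fin (2 * m)) :
    mix A (fun z => p z - c * ind (A z)) x = mix A p x - c * ind (A x) := by
  simp only [mix]
  split_ifs with h
  · rw [h.1, h.2]; simp only [ind_true]; ring
  · rfl

theorem runS_sub (A : Fin (2 * m) → Bool) (p : Fin (2 * m) → ℝ) (c : ℝ) (t : ℕ)
    (cs : Fin t → Fin m → Bool) :
    runS t cs (A, fun z => p z - c * ind (A z))
      = ((runS t cs (A, p)).1, fun z => (runS t cs (A, p)).2 z - c * ind ((runS t cs (A, p)).1 z)) := by
  induction t with
  | zero => rfl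
  | succ t ih =>
    simp only [runS]
    rw [ih]
    refine Prod.ext rfl ?_
    funext y
    simp only [stp]
    exact mix_sub _ _ _ _

end Crest.Agent.R155.Net
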