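import Crest.Agent.R155.NetStep

/-!
Runs of the environment process, marginals, dependence on coins, and the window lemma.
-/

set_option autoImplicit false

namespace Crest.Agent.R155.Net

open Finset Crest.ProbabilityR.Shuffle

variable {m : ℕ}

/-- `t` steps of the environment process. -/
noncomputable def runS : (t : ℕ) → (Fin t → Fin m → Bool) → State m → State m
  | 0, _, s => s
  | t + 1, cs, s => stp (cs (Fin.last t)) (runS t (fun i => cs i.castSucc) s)

/-- One step transition operator. -/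
noncomputable def P (F : State m → ℝ) (s : State m) : ℝ := av (fun b : Fin m → Bool => F (stp b s))

/-- Expectation after `t` steps. -/
noncomputable def E (t : ℕ) (F : State m → ℝ) (s : State m) : ℝ :=
  av (fun cs : Fin t → Fin m → Bool => F (runS t cs s))

theorem E_zero (F : State m → ℝ) (s : State m) : E 0 F s = F s := by
  simp only [E, runS]
  exact av_const _

theorem E_succ (t : ℕ) (F : State m → ℝ) (s : State m) : E (t + 1) F s = E t (P F) s := by
  simp only [E]
  rw [av_snoc]
  refine av_congr fun c => ?_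
  simp only [P, runS, Fin.snoc_last, Fin.snoc_castSucc]

theorem E_one (F : State m → ℝ) (s : State m) : E 1 F s = P F s := by
  rw [E_succ, E_zero]

theorem E_add (t r : ℕ) (F : State m → ℝ) (s : State m) : E (t + r) F s = E t (E r F) s := by
  induction r generalizing F with
  | zero =>
    have : E 0 F = F := funext fun s => E_zero F s
    rw [this]; rfl
  | succ r ih =>
    rw [← add_assoc, E_succ, ih]
    have : E r (P F) = E (r + 1) F := funext fun s => (E_succ r F s).symm
    rw [this]

theorem runS_inv (V : State m → Prop) (hV : ∀ b s, V s → V (stp b s)) (t : ℕ)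
    (cs : Fin t → Fin m → Bool) (s : State m) (h : V s) : V (runS t cs s) := by
  induction t with
  | zero => exact h
  | succ t ih => exact hV _ _ (ih _)

theorem E_mono (V : State m → Prop) (hV : ∀ b s, V s → V (stp b s)) (t : ℕ)
    {F G : State m → ℝ} (hFG : ∀ s, V s → F s ≤ G s) {s : State m} (h : V s) :
    E t F s ≤ E t G s :=
  av_mono fun cs => hFG _ (runS_inv V hV t cs s h)

theorem E_congr (V : State m → Prop) (hV : ∀ b s, V s → V (stp b s)) (t : ℕ)
    {F G : State m → ℝ} (hFG : ∀ s, V s → F s = G s) {s : State m} (h : V s) :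
    E t F s = E t G s :=
  av_congr fun cs => hFG _ (runS_inv V hV t cs s h)

theorem E_add_fun (t : ℕ) (F G : State m → ℝ) (s : State m) :
    E t (fun s => F s + G s) s = E t F s + E t G s := av_add _ _

theorem E_mul_left (t : ℕ) (c : ℝ) (F : State m → ℝ) (s : State m) :
    E t (fun s => c * F s) s = c * E t F s := av_mul_left _ _

theorem E_const (t : ℕ) (c : ℝ) (s : State m) : E t (fun _ => c) s = c := av_const _

/-- The pair of outputs containing `y`. -/
def up (y : Fin (2 * m)) : Fin m := ⟨y.val / 2, by have := y.isLt; omega⟩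

theorem up_ev (u : Fin m) : up (ev u) = u := by
  apply Fin.ext; simp only [up, ev]; omega

theorem up_od (u : Fin m) : up (od u) = u := by
  apply Fin.ext; simp only [up, od]; omega

/-- The averaging operator of one step. -/
noncomputable def Avg (g : Fin (2 * m) → ℝ) (y : Fin (2 * m)) : ℝ :=
  (g (lo (up y)) + g (hi (up y))) / 2

theorem P_weight (y : Fin (2 * m)) (s : State m) :
    P (fun s => s.2 y) s = (s.2 (lo (up y)) + s.2 (hi (up y))) / 2 := by
  obtain ⟨u, rfl | rfl⟩ := ev_or_od y
  · rw [up_ev]; exact av_stp_ev s u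
  · rw [up_od]; exact av_stp_od s u

theorem P_free (y : Fin (2 * m)) (s : State m) :
    P (fun s => ind (s.1 y)) s = (ind (s.1 (lo (up y))) + ind (s.1 (hi (up y)))) / 2 := by
  obtain ⟨u, rfl | rfl⟩ := ev_or_od y
  · rw [up_ev]; exact av_free_ev s u
  · rw [up_od]; exact av_free_od s u

theorem E_weight (t : ℕ) (y : Fin (2 * m)) (s : State m) :
    E t (fun s => s.2 y) s = (Avg^[t] s.2) y := by
  induction t generalizing y with
  | zero => rw [E_zero]; rfl
  | succ t ih =>
    have hP : P (fun s : State m => s.2 y) = fun s => (s.2 (lo (up y)) + s.2 (hi (up y))) / 2 :=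
      funext fun s => P_weight y s
    rw [E_succ, hP, Function.iterate_succ_apply', Avg, ← ih, ← ih]
    simp only [E]
    rw [av_div, av_add]

theorem E_free (t : ℕ) (y : Fin (2 * m)) (s : State m) :
    E t (fun s => ind (s.1 y)) s = (Avg^[t] (fun x => ind (s.1 x))) y := by
  induction t generalizing y with
  | zero => rw [E_zero]; rfl
  | succ t ih =>
    have hP : P (fun s : State m => ind (s.1 y))
        = fun s => (ind (s.1 (lo (up y))) + ind (s.1 (hi (up y)))) / 2 :=
      funext fun s => P_free y s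
    rw [E_succ, hP, Function.iterate_succ_apply', Avg, ← ih, ← ih]
    simp only [E]
    rw [av_div, av_add]

/-- The `i`-th binary digit. -/
def cls (i y : ℕ) : ℕ := (y / 2 ^ i) % 2

theorem cls_succ_ev (i u : ℕ) : cls (i + 1) (2 * u) = cls i u := by
  unfold cls
  rw [pow_succ', ← Nat.div_div_eq_div_mul]
  congr 2
  omega

theorem cls_succ_od (i u : ℕ) : cls (i + 1) (2 * u + 1) = cls i u := by
  unfold cls
  rw [pow_succ', ← Nat.div_div_eq_div_mul]
  congr 2
  omega

theorem cls_add (d i u : ℕ) (hi : i < d) : cls i (u + 2 ^ d) = cls i u := by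
  unfold cls
  have h1 : 2 ^ d = 2 ^ (d - i) * 2 ^ i := by rw [← pow_add]; congr 1; omega
  rw [h1, Nat.add_mul_div_right _ _ (by positivity)]
  have h2 : 2 ^ (d - i) = 2 * 2 ^ (d - i - 1) := by
    rw [← pow_succ']; congr 1; omega
  omega

theorem cls_low (d u : ℕ) (hu : u < 2 ^ d) : cls d u = 0 := by
  unfold cls
  rw [Nat.div_eq_of_lt hu]

theorem cls_high (d u : ℕ) (hu : u < 2 ^ d) : cls d (u + 2 ^ d) = 1 := by
  unfold cls
  rw [Nat.add_div_right _ (by positivity), Nat.div_eq_of_lt hu]

theorem cls_zero_ev (u : ℕ) : cls 0 (2 * u) = 0 := by unfold cls; simp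
theorem cls_zero_od (u : ℕ) : cls 0 (2 * u + 1) = 1 := by unfold cls; omega

theorem cls_zero_or_one (i y : ℕ) : cls i y = 0 ∨ cls i y = 1 := by unfold cls; omega

theorem nat_div_aux1 (a b i : ℕ) (h : a / 2 ^ (i + 1) = b / 2 ^ (i + 1)) :
    a / 2 / 2 ^ i = b / 2 / 2 ^ i := by
  rw [Nat.div_div_eq_div_mul, Nat.div_div_eq_div_mul, ← pow_succ']; exact h

theorem nat_div_aux2 (a b i d : ℕ) (hi : i ≤ d) (h : a / 2 ^ i = b / 2 ^ i) :
    (a + 2 ^ d) / 2 ^ i = (b + 2 ^ d) / 2 ^ i := by
  have h1 : 2 ^ d = 2 ^ (d - i) * 2 ^ i := by rw [← pow_add]; congr 1; omega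
  rw [h1, Nat.add_mul_div_right _ _ (by positivity), Nat.add_mul_div_right _ _ (by positivity), h]

section pow
variable {d : ℕ}

theorem Avg_iter_dep (i : ℕ) (hi : i ≤ d) (g : Fin (2 * 2 ^ d) → ℝ) (y y' : Fin (2 * 2 ^ d))
    (h : y.val / 2 ^ i = y'.val / 2 ^ i) : (Avg^[i] g) y = (Avg^[i] g) y' := by
  induction i generalizing y y' with
  | zero =>
    simp only [pow_zero, Nat.div_one] at h
    rw [Fin.ext h]
  | succ i ih =>
    rw [Function.iterate_succ_apply', Avg, Avg]
    have h' : y.val / 2 / 2 ^ i = y'.val / 2 / 2 ^ i := nat_div_aux1 _ _ _ h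
    have e1 := ih (by omega) (lo (up y)) (lo (up y')) h'
    have e2 := ih (by omega) (Net.hi (up y)) (Net.hi (up y'))
      (nat_div_aux2 _ _ _ _ (by omega) h')
    rw [e1, e2]

theorem Avg_iter_sum (i : ℕ) (hi : i ≤ d) (κ : ℕ) (g : Fin (2 * 2 ^ d) → ℝ) :
    ∑ y : Fin (2 * 2 ^ d), (if cls i y.val = κ then (Avg^[i] g) y else 0)
      = ∑ y : Fin (2 * 2 ^ d), (if cls 0 y.val = κ then g y else 0) := by
  induction i with
  | zero => rfl
  | succ i ih =>
    rw [← ih (by omega), sum_ev_od, sum_lo_hi]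
    refine Finset.sum_congr rfl fun u _ => ?_
    rw [Function.iterate_succ_apply', Avg, Avg, up_ev, up_od]
    have h1 : cls (i + 1) (ev u).val = cls i u.val := cls_succ_ev i u.val
    have h2 : cls (i + 1) (od u).val = cls i u.val := cls_succ_od i u.val
    have h3 : cls i (lo u).val = cls i u.val := rfl
    have h4 : cls i (Net.hi u).val = cls i u.val := cls_add d i u.val (by omega)
    rw [h1, h2, h3, h4]
    split_ifs <;> ring

theorem Avg_iter_lo (g : Fin (2 * 2 ^ d) → ℝ) (u : Fin (2 ^ d)) :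
    (Avg^[d] g) (lo u) = (∑ v : Fin (2 ^ d), g (ev v)) / 2 ^ d := by
  have h := Avg_iter_sum (d := d) d le_rfl 0 g
  rw [sum_lo_hi, sum_ev_od] at h
  have h1 : ∀ v : Fin (2 ^ d), cls d (lo v).val = 0 := fun v => cls_low d _ v.isLt
  have h2 : ∀ v : Fin (2 ^ d), cls d (Net.hi v).val = 1 := fun v => cls_high d _ v.isLt
  have h3 : ∀ v : Fin (2 ^ d), cls 0 (ev v).val = 0 := fun v => cls_zero_ev _
  have h4 : ∀ v : Fin (2 ^ d), cls 0 (od v).val = 1 := fun v => cls_zero_od _
  simp only [h1, h2, h3, h4, if_true, one_ne_zero, if_false, add_zero] at h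
  have h5 : ∀ v : Fin (2 ^ d), (Avg^[d] g) (lo v) = (Avg^[d] g) (lo u) := fun v =>
    Avg_iter_dep d le_rfl g _ _ (by
      simp only [lo]; rw [Nat.div_eq_of_lt v.isLt, Nat.div_eq_of_lt u.isLt])
  rw [← h, Finset.sum_congr rfl fun v _ => h5 v, Finset.sum_const, Finset.card_univ,
    Fintype.card_fin, nsmul_eq_mul]
  push_cast
  field_simp

theorem Avg_iter_hi (g : Fin (2 * 2 ^ d) → ℝ) (u : Fin (2 ^ d)) :
    (Avg^[d] g) (Net.hi u) = (∑ v : Fin (2 ^ d), g (od v)) / 2 ^ d := by
  have h := Avg_iter_sum (d := d) d le_rfl 1 g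
  rw [sum_lo_hi, sum_ev_od] at h
  have h1 : ∀ v : Fin (2 ^ d), cls d (lo v).val = 0 := fun v => cls_low d _ v.isLt
  have h2 : ∀ v : Fin (2 ^ d), cls d (Net.hi v).val = 1 := fun v => cls_high d _ v.isLt
  have h3 : ∀ v : Fin (2 ^ d), cls 0 (ev v).val = 0 := fun v => cls_zero_ev _
  have h4 : ∀ v : Fin (2 ^ d), cls 0 (od v).val = 1 := fun v => cls_zero_od _
  simp only [h1, h2, h3, h4, if_true, zero_ne_one, if_false, zero_add] at h
  have h5 : ∀ v : Fin (2 ^ d), (Avg^[d] g) (Net.hi v) = (Avg^[d] g) (Net.hi u) := fun v =>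
    Avg_iter_dep d le_rfl g _ _ (by
      simp only [Net.hi]
      rw [Nat.add_div_right _ (by positivity), Nat.add_div_right _ (by positivity),
        Nat.div_eq_of_lt v.isLt, Nat.div_eq_of_lt u.isLt])
  rw [← h, Finset.sum_congr rfl fun v _ => h5 v, Finset.sum_const, Finset.card_univ,
    Fintype.card_fin, nsmul_eq_mul]
  push_cast
  field_simp

theorem runS_dep (κ : ℕ) (t : ℕ) (ht : t ≤ d) (cs cs' : Fin t → Fin (2 ^ d) → Bool)
    (h : ∀ i u, cls i.val u.val = κ → cs i u = cs' i u) (s : State (2 ^ d))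
    (y : Fin (2 * 2 ^ d)) (hy : cls t y.val = κ) :
    (runS t cs s).1 y = (runS t cs' s).1 y ∧ (runS t cs s).2 y = (runS t cs' s).2 y := by
  induction t generalizing y with
  | zero => exact ⟨rfl, rfl⟩
  | succ t ih =>
    have ih' := ih (by omega) (fun i => cs i.castSucc) (fun i => cs' i.castSucc)
      (fun i u hu => h i.castSucc u hu)
    simp only [runS, stp]
    set S := runS t (fun i => cs i.castSucc) s
    set S' := runS t (fun i => cs' i.castSucc) s
    obtain ⟨u, hyu⟩ := ev_or_od y
    have hκ : cls t u.val = κ := by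
      rcases hyu with rfl | rfl
      · rw [← hy]; exact (cls_succ_ev t u.val).symm
      · rw [← hy]; exact (cls_succ_od t u.val).symm
    have hb : cs (Fin.last t) u = cs' (Fin.last t) u := h (Fin.last t) u hκ
    have elo := ih' (lo u) hκ
    have ehi := ih' (Net.hi u) ((cls_add d t u.val (by omega)).trans hκ)
    have mlo : mix S.1 S.2 (lo u) = mix S'.1 S'.2 (lo u) := by
      rw [mix_lo, mix_lo, elo.1, elo.2, ehi.1, ehi.2]
    have mhi : mix S.1 S.2 (Net.hi u) = mix S'.1 S'.2 (Net.hi u) := by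
      rw [mix_hi, mix_hi, elo.1, elo.2, ehi.1, ehi.2]
    rcases hyu with rfl | rfl
    · rw [pre_ev, pre_ev, hb]
      split_ifs
      · exact ⟨ehi.1, mhi⟩
      · exact ⟨elo.1, mlo⟩
    · rw [pre_od, pre_od, hb]
      split_ifs
      · exact ⟨elo.1, mlo⟩
      · exact ⟨ehi.1, mhi⟩

/-- Independence of the two halves after `d` steps. -/
theorem E_indep (s : State (2 ^ d)) (u v : Fin (2 ^ d)) (F G : Bool → ℝ → ℝ) :
    E d (fun s' => F (s'.1 (lo u)) (s'.2 (lo u)) * G (s'.1 (Net.hi v)) (s'.2 (Net.hi v))) s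
      = E d (fun s' => F (s'.1 (lo u)) (s'.2 (lo u))) s
        * E d (fun s' => G (s'.1 (Net.hi v)) (s'.2 (Net.hi v))) s := by
  simp only [E]
  refine av_indep
    (σ := fun c c' : Fin d → Fin (2 ^ d) → Bool =>
      fun i u => if cls i.val u.val = 0 then c i u else c' i u)
    ?_ (fun cs => F ((runS d cs s).1 (lo u)) ((runS d cs s).2 (lo u)))
      (fun cs => G ((runS d cs s).1 (Net.hi v)) ((runS d cs s).2 (Net.hi v))) ?_ ?_
  · intro c c'
    funext i u
    simp only
    split_ifs <;> rfl
  · intro c c'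
    have := runS_dep 0 d le_rfl (fun i u => if cls i.val u.val = 0 then c i u else c' i u) c
      (fun i u hu => by simp only [hu, if_true]) s (lo u) (cls_low d _ u.isLt)
    simp only [this.1, this.2]
  · intro c c'
    have := runS_dep 1 d le_rfl (fun i u => if cls i.val u.val = 0 then c i u else c' i u) c'
      (fun i u hu => by simp only [hu, one_ne_zero, if_false]) s (Net.hi v) (cls_high d _ v.isLt)
    simp only [this.1, this.2]

end pow

end Crest.Agent.R155.Net
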