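import Crest.Agent.R155.NetAv
import Crest.Prelude.Def_Shuffle

/-!
One step of the shuffle on positions, as a permutation, in terms of the pairs
`lo u, hi u ↦ ev u, od u`.
-/

set_option autoImplicit false

namespace Crest.Agent.R155.Net

open Finset Crest.ProbabilityR.Shuffle

variable {m : ℕ}

/-- Input position `u` (lower half). -/
def lo (u : Fin m) : Fin (2 * m) := ⟨u.val, by have := u.isLt; omega⟩
/-- Input position `u + m` (upper half). -/
def hi (u : Fin m) : Fin (2 * m) := ⟨u.val + m, by have := u.isLt; omega⟩
/-- Output position `2 u`. -/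
def ev (u : Fin m) : Fin (2 * m) := ⟨2 * u.val, by have := u.isLt; omega⟩
/-- Output position `2 u + 1`. -/
def od (u : Fin m) : Fin (2 * m) := ⟨2 * u.val + 1, by have := u.isLt; omega⟩

theorem lo_or_hi (x : Fin (2 * m)) : ∃ u : Fin m, x = lo u ∨ x = hi u := by
  by_cases h : x.val < m
  · exact ⟨⟨x.val, h⟩, Or.inl rfl⟩
  · refine ⟨⟨x.val - m, by have := x.isLt; omega⟩, Or.inr (Fin.ext ?_)⟩
    simp only [hi]; omega

theorem ev_or_od (x : Fin (2 * m)) : ∃ u : Fin m, x = ev u ∨ x = od u := by
  refine ⟨⟨x.val / 2, by have := x.isLt; omega⟩, ?_⟩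
  rcases Nat.mod_two_eq_zero_or_one x.val with h | h
  · left; apply Fin.ext; simp only [ev]; omega
  · right; apply Fin.ext; simp only [od]; omega

theorem lo_injective : Function.Injective (lo : Fin m → Fin (2 * m)) := by
  intro u v h; exact Fin.ext (by simpa [lo] using congrArg Fin.val h)
theorem hi_injective : Function.Injective (hi : Fin m → Fin (2 * m)) := by
  intro u v h; exact Fin.ext (by simpa [hi] using congrArg Fin.val h)
theorem ev_injective : Function.Injective (ev : Fin m → Fin (2 * m)) := by
  intro u v h
  have := congrArg Fin.val h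
  simp only [ev] at this
  exact Fin.ext (by omega)
theorem od_injective : Function.Injective (od : Fin m → Fin (2 * m)) := by
  intro u v h
  have := congrArg Fin.val h
  simp only [od] at this
  exact Fin.ext (by omega)
theorem lo_ne_hi (u v : Fin m) : lo u ≠ hi v := by
  intro h
  have := congrArg Fin.val h
  simp only [lo, hi] at this
  have := u.isLt
  omega
theorem ev_ne_od (u v : Fin m) : ev u ≠ od v := by
  intro h
  have := congrArg Fin.val h
  simp only [ev, od] at this
  omega

theorem sum_lo_hi (f : Fin (2 * m) → ℝ) : ∑ x, f x = ∑ u : Fin m, (f (lo u) + f (hi u)) := by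
  have hb : Function.Bijective (fun p : Fin m × Bool => if p.2 then hi p.1 else lo p.1) := by
    rw [Fintype.bijective_iff_injective_and_card]
    refine ⟨?_, by simp [mul_comm]⟩
    rintro ⟨u, a⟩ ⟨v, b⟩ h
    cases a <;> cases b <;> simp only [Bool.false_eq_true, if_true, if_false] at h
    · rw [lo_injective h]
    · exact absurd h (lo_ne_hi u v)
    · exact absurd h.symm (lo_ne_hi v u)
    · rw [hi_injective h]
  rw [← Function.Bijective.sum_comp hb f, Fintype.sum_prod_type]
  exact Finset.sum_congr rfl fun u _ => by simp [add_comm]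

theorem sum_ev_od (f : Fin (2 * m) → ℝ) : ∑ x, f x = ∑ u : Fin m, (f (ev u) + f (od u)) := by
  have hb : Function.Bijective (fun p : Fin m × Bool => if p.2 then od p.1 else ev p.1) := by
    rw [Fintype.bijective_iff_injective_and_card]
    refine ⟨?_, by simp [mul_comm]⟩
    rintro ⟨u, a⟩ ⟨v, b⟩ h
    cases a <;> cases b <;> simp only [Bool.false_eq_true, if_true, if_false] at h
    · rw [ev_injective h]
    · exact absurd h (ev_ne_od u v)
    · exact absurd h.symm (ev_ne_od v u)
    · rw [od_injective h]
  rw [← Function.Bijective.sum_comp hb f, Fintype.sum_prod_type]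
  exact Finset.sum_congr rfl fun u _ => by simp [add_comm]

theorem step_lo (b : Fin m → Bool) (u : Fin m) :
    stepPos m b (lo u) = if b u then od u else ev u := by
  have hu := u.isLt
  have h1 : u.val % m = u.val := Nat.mod_eq_of_lt hu
  have h2 : ¬ m ≤ u.val := by omega
  cases hb : b u
  · apply Fin.ext
    simp [stepPos, lo, ev, h1, h2, hb]
  · apply Fin.ext
    simp [stepPos, lo, od, h1, h2, hb]

theorem step_hi (b : Fin m → Bool) (u : Fin m) :
    stepPos m b (hi u) = if b u then ev u else od u := by
  have hu := u.isLt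
  have h1 : (u.val + m) % m = u.val := by rw [Nat.add_mod_right]; exact Nat.mod_eq_of_lt hu
  have h1' : u.val % m = u.val := Nat.mod_eq_of_lt hu
  cases hb : b u
  · apply Fin.ext
    simp [stepPos, hi, od, h1', hb]
  · apply Fin.ext
    simp [stepPos, hi, ev, h1', hb]

theorem stepPos_injective (c : Fin m → Bool) : Function.Injective (stepPos m c) := by
  intro x y h
  obtain ⟨u, hu⟩ := lo_or_hi x
  obtain ⟨v, hv⟩ := lo_or_hi y
  rcases hu with rfl | rfl <;> rcases hv with rfl | rfl <;>
    simp only [step_lo, step_hi] at h <;> split_ifs at h with h1 h2 h2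
  · rw [od_injective h]
  · exact absurd h.symm (ev_ne_od _ _)
  · exact absurd h (ev_ne_od _ _)
  · rw [ev_injective h]
  · exact absurd h.symm (ev_ne_od _ _)
  · have := od_injective h; subst this; exact absurd h1 h2
  · have := ev_injective h; subst this; exact absurd h2 h1
  · exact absurd h (ev_ne_od _ _)
  · exact absurd h (ev_ne_od _ _)
  · have := ev_injective h; subst this; exact absurd h1 h2
  · have := od_injective h; subst this; exact absurd h2 h1
  · exact absurd h.symm (ev_ne_od _ _)
  · rw [ev_injective h]
  · exact absurd h (ev_ne_od _ _)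
  · exact absurd h.symm (ev_ne_od _ _)
  · rw [od_injective h]

/-- One step as a permutation of the positions. -/
noncomputable def stepPerm (b : Fin m → Bool) : Equiv.Perm (Fin (2 * m)) :=
  Equiv.ofBijective (stepPos m b) (Finite.injective_iff_bijective.1 (stepPos_injective b))

/-- The position before the step. -/
noncomputable def pre (b : Fin m → Bool) (y : Fin (2 * m)) : Fin (2 * m) := (stepPerm b).symm y

theorem step_pre (b : Fin m → Bool) (y : Fin (2 * m)) : stepPos m b (pre b y) = y :=
  (stepPerm b).apply_symm_apply y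

theorem pre_step (b : Fin m → Bool) (x : Fin (2 * m)) : pre b (stepPos m b x) = x :=
  (stepPerm b).symm_apply_apply x

theorem pre_eq_iff (b : Fin m → Bool) (x y : Fin (2 * m)) : pre b y = x ↔ stepPos m b x = y := by
  constructor
  · rintro rfl; exact step_pre b y
  · rintro rfl; exact pre_step b x

theorem pre_ev (b : Fin m → Bool) (u : Fin m) : pre b (ev u) = if b u then hi u else lo u := by
  rw [pre_eq_iff]
  cases hb : b u
  · simp [step_lo, hb]
  · simp [step_hi, hb]

theorem pre_od (b : Fin m → Bool) (u : Fin m) : pre b (od u) = if b u then lo u else hi u := by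
  rw [pre_eq_iff]
  cases hb : b u
  · simp [step_hi, hb]
  · simp [step_lo, hb]

theorem sum_pre (b : Fin m → Bool) (f : Fin (2 * m) → ℝ) : ∑ y, f (pre b y) = ∑ x, f x :=
  Equiv.sum_comp (stepPerm b).symm f

/-- The partner position. -/
def ptn (x : Fin (2 * m)) : Fin (2 * m) :=
  if h : x.val < m then ⟨x.val + m, by omega⟩ else ⟨x.val - m, by omega⟩

theorem ptn_lo (u : Fin m) : ptn (lo u) = hi u := by
  have := u.isLt
  simp [ptn, lo, hi]

theorem ptn_hi (u : Fin m) : ptn (hi u) = lo u := by
  simp [ptn, lo, hi]

/-- Indicator of a Boolean, as a real. -/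
def ind (a : Bool) : ℝ := if a then 1 else 0

@[simp] theorem ind_true : ind true = 1 := rfl
@[simp] theorem ind_false : ind false = 0 := rfl
theorem ind_nonneg (a : Bool) : 0 ≤ ind a := by cases a <;> simp
theorem ind_le_one (a : Bool) : ind a ≤ 1 := by cases a <;> simp
theorem ind_sq (a : Bool) : ind a ^ 2 = ind a := by cases a <;> simp

/-- Average the weights over pairs both of whose inputs are free. -/
noncomputable def mix (A : Fin (2 * m) → Bool) (w : Fin (2 * m) → ℝ) (x : Fin (2 * m)) : ℝ :=
  if A x = true ∧ A (ptn x) = true then (w x + w (ptn x)) / 2 else w x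

theorem mix_lo (A : Fin (2 * m) → Bool) (w : Fin (2 * m) → ℝ) (u : Fin m) :
    mix A w (lo u) =
      if A (lo u) = true ∧ A (hi u) = true then (w (lo u) + w (hi u)) / 2 else w (lo u) := by
  rw [mix, ptn_lo]

theorem mix_hi (A : Fin (2 * m) → Bool) (w : Fin (2 * m) → ℝ) (u : Fin m) :
    mix A w (hi u) =
      if A (lo u) = true ∧ A (hi u) = true then (w (lo u) + w (hi u)) / 2 else w (hi u) := by
  rw [mix, ptn_hi, add_comm (w (hi u))]
  by_cases h1 : A (lo u) = true <;> by_cases h2 : A (hi u) = true <;> simp [h1, h2]

theorem mix_add (A : Fin (2 * m) → Bool) (w : Fin (2 * m) → ℝ) (u : Fin m) :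
    mix A w (lo u) + mix A w (hi u) = w (lo u) + w (hi u) := by
  rw [mix_lo, mix_hi]; split_ifs <;> ring

/-- States: free positions and weights. -/
abbrev State (m : ℕ) := (Fin (2 * m) → Bool) × (Fin (2 * m) → ℝ)

/-- One step of the environment with weights. -/
noncomputable def stp (b : Fin m → Bool) (s : State m) : State m :=
  (fun y => s.1 (pre b y), fun y => mix s.1 s.2 (pre b y))

/-- Weights vanish off the free set. -/
def Supp (s : State m) : Prop := ∀ x, s.1 x = false → s.2 x = 0

theorem supp_stp (b : Fin m → Bool) (s : State m) (h : Supp s) : Supp (stp b s) := by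
  intro y hy
  simp only [stp] at hy ⊢
  rw [mix, if_neg (by simp [hy])]
  exact h _ hy

/-- Total weight. -/
noncomputable def tot (s : State m) : ℝ := ∑ x, s.2 x
/-- Number of free positions. -/
noncomputable def nfree (s : State m) : ℝ := ∑ x, ind (s.1 x)
/-- Energy. -/
noncomputable def W (s : State m) : ℝ := ∑ x, s.2 x ^ 2

theorem tot_stp (b : Fin m → Bool) (s : State m) : tot (stp b s) = tot s := by
  simp only [tot, stp]
  rw [sum_pre b (mix s.1 s.2), sum_lo_hi, sum_lo_hi]
  exact Finset.sum_congr rfl fun u _ => mix_add _ _ _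

theorem nfree_stp (b : Fin m → Bool) (s : State m) : nfree (stp b s) = nfree s := by
  simp only [nfree, stp]
  exact sum_pre b (fun x => ind (s.1 x))

/-- The loss of energy at a pair, for weights vanishing off the free set. -/
noncomputable def drop (s : State m) (u : Fin m) : ℝ :=
  ind (s.1 (hi u)) * s.2 (lo u) ^ 2 + ind (s.1 (lo u)) * s.2 (hi u) ^ 2
    - 2 * (s.2 (lo u) * s.2 (hi u))

theorem W_stp (b : Fin m → Bool) (s : State m) (h : Supp s) :
    W (stp b s) = W s - (∑ u, drop s u) / 2 := by
  simp only [W, stp]
  rw [sum_pre b (fun x => mix s.1 s.2 x ^ 2), sum_lo_hi, sum_lo_hi, Finset.sum_div,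
    ← Finset.sum_sub_distrib]
  refine Finset.sum_congr rfl fun u _ => ?_
  rw [mix_lo, mix_hi, drop]
  cases h1 : s.1 (lo u) <;> cases h2 : s.1 (hi u) <;> simp [ind] <;>
    (try rw [h _ h1]) <;> (try rw [h _ h2]) <;> ring

theorem av_stp_ev (s : State m) (u : Fin m) :
    av (fun b : Fin m → Bool => (stp b s).2 (ev u)) = (s.2 (lo u) + s.2 (hi u)) / 2 := by
  rw [av_update u]
  have : ∀ b : Fin m → Bool,
      ((stp (Function.update b u false) s).2 (ev u) + (stp (Function.update b u true) s).2 (ev u)) / 2
        = (s.2 (lo u) + s.2 (hi u)) / 2 := by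
    intro b
    simp only [stp, pre_ev, Function.update_self, if_true, if_false, Bool.false_eq_true]
    rw [mix_add]
  rw [av_congr this, av_const]

theorem av_stp_od (s : State m) (u : Fin m) :
    av (fun b : Fin m → Bool => (stp b s).2 (od u)) = (s.2 (lo u) + s.2 (hi u)) / 2 := by
  rw [av_update u]
  have : ∀ b : Fin m → Bool,
      ((stp (Function.update b u false) s).2 (od u) + (stp (Function.update b u true) s).2 (od u)) / 2
        = (s.2 (lo u) + s.2 (hi u)) / 2 := by
    intro b
    simp only [stp, pre_od, Function.update_self, if_true, if_false, Bool.false_eq_true]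
    rw [add_comm, mix_add]
  rw [av_congr this, av_const]

theorem av_free_ev (s : State m) (u : Fin m) :
    av (fun b : Fin m → Bool => ind ((stp b s).1 (ev u)))
      = (ind (s.1 (lo u)) + ind (s.1 (hi u))) / 2 := by
  rw [av_update u]
  have : ∀ b : Fin m → Bool,
      (ind ((stp (Function.update b u false) s).1 (ev u))
        + ind ((stp (Function.update b u true) s).1 (ev u))) / 2
        = (ind (s.1 (lo u)) + ind (s.1 (hi u))) / 2 := by
    intro b
    simp only [stp, pre_ev, Function.update_self, if_true, if_false, Bool.false_eq_true]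
  rw [av_congr this, av_const]

theorem av_free_od (s : State m) (u : Fin m) :
    av (fun b : Fin m → Bool => ind ((stp b s).1 (od u)))
      = (ind (s.1 (lo u)) + ind (s.1 (hi u))) / 2 := by
  rw [av_update u]
  have : ∀ b : Fin m → Bool,
      (ind ((stp (Function.update b u false) s).1 (od u))
        + ind ((stp (Function.update b u true) s).1 (od u))) / 2
        = (ind (s.1 (lo u)) + ind (s.1 (hi u))) / 2 := by
    intro b
    simp only [stp, pre_od, Function.update_self, if_true, if_false, Bool.false_eq_true]
    ring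
  rw [av_congr this, av_const]

end Crest.Agent.R155.Net
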