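import Crest.Agent.R155.NetRun

/-!
Contraction of the energy over a window of `d + 1` steps, tail bound, and the final bound for
the expected energy.
-/

set_option autoImplicit false

namespace Crest.Agent.R155.Net

open Finset Crest.ProbabilityR.Shuffle

section gen
variable {m : ℕ}

theorem drop_nonneg (s : State m) (h : Supp s) (u : Fin m) : 0 ≤ drop s u := by
  rw [drop]
  cases h1 : s.1 (lo u) <;> cases h2 : s.1 (hi u)
  · simp [h _ h1, h _ h2]
  · simp [h _ h1]
  · simp [h _ h2]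
  · simp only [ind_true]; nlinarith [sq_nonneg (s.2 (lo u) - s.2 (hi u))]

theorem P_W (s : State m) (h : Supp s) : P W s = W s - (∑ u, drop s u) / 2 := by
  rw [P, av_congr fun b => W_stp b s h, av_const]

theorem W_stp_le (b : Fin m → Bool) (s : State m) (h : Supp s) : W (stp b s) ≤ W s := by
  rw [W_stp b s h]
  have : 0 ≤ ∑ u, drop s u := Finset.sum_nonneg fun u _ => drop_nonneg s h u
  linarith

theorem W_nonneg (s : State m) : 0 ≤ W s := Finset.sum_nonneg fun _ _ => sq_nonneg _

/-- Number of free even output positions. -/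
def nev (s : State m) : ℕ := (univ.filter fun u : Fin m => s.1 (ev u) = true).card
/-- Number of free odd output positions. -/
def nod (s : State m) : ℕ := (univ.filter fun u : Fin m => s.1 (od u) = true).card

theorem sum_ind_ev (s : State m) : ∑ v : Fin m, ind (s.1 (ev v)) = nev s := by
  simp [nev, ind, Finset.sum_boole]

theorem sum_ind_od (s : State m) : ∑ v : Fin m, ind (s.1 (od v)) = nod s := by
  simp [nod, ind, Finset.sum_boole]

/-- Number of free positions, as a natural number. -/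
def nfr (s : State m) : ℕ := (univ.filter fun x : Fin (2 * m) => s.1 x = true).card

theorem nfree_eq (s : State m) : nfree s = nfr s := by
  simp [nfree, nfr, ind, Finset.sum_boole]

theorem nfr_stp (b : Fin m → Bool) (s : State m) : nfr (stp b s) = nfr s := by
  have := nfree_stp b s
  rw [nfree_eq, nfree_eq] at this
  exact_mod_cast this

/-- weight 1/4 for a free position -/
noncomputable def zz (a : Bool) : ℝ := if a then 1 / 4 else 1
/-- weight 5/8 for a free position -/
noncomputable def yy (a : Bool) : ℝ := if a then 5 / 8 else 1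

theorem zz_le (a b : Bool) : (zz a + zz b) / 2 ≤ yy a * yy b := by
  cases a <;> cases b <;> norm_num [zz, yy]

theorem prod_zz (ι : Type*) [Fintype ι] (f : ι → Bool) :
    ∏ u, zz (f u) = (1 / 4 : ℝ) ^ (univ.filter fun u => f u = true).card := by
  simp only [zz]
  rw [Finset.prod_ite]
  simp

theorem prod_yy (ι : Type*) [Fintype ι] (f : ι → Bool) :
    ∏ u, yy (f u) = (5 / 8 : ℝ) ^ (univ.filter fun u => f u = true).card := by
  simp only [yy]
  rw [Finset.prod_ite]
  simp [div_pow]

theorem prod_lo_hi (f : Fin (2 * m) → ℝ) : ∏ x, f x = ∏ u : Fin m, (f (lo u) * f (hi u)) := by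
  have hb : Function.Bijective (fun p : Fin m × Bool => if p.2 then hi p.1 else lo p.1) := by
    rw [Fintype.bijective_iff_injective_and_card]
    refine ⟨?_, by simp [mul_comm]⟩
    rintro ⟨u, a⟩ ⟨v, b⟩ h
    cases a <;> cases b <;> simp only [Bool.false_eq_true, if_true, if_false] at h
    · rw [lo_injective h]
    · exact absurd h (lo_ne_hi u v)
    · exact absurd h.symm (lo_ne_hi v u)
    · rw [hi_injective h]
  rw [← Function.Bijective.prod_comp hb f, Fintype.prod_prod_type]
  exact Finset.prod_congr rfl fun u _ => by simp [mul_comm]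

theorem P_zz_ev (s : State m) :
    P (fun s' => ∏ u : Fin m, zz (s'.1 (ev u))) s ≤ (5 / 8 : ℝ) ^ nfr s := by
  have h1 : P (fun s' => ∏ u : Fin m, zz (s'.1 (ev u))) s
      = av (fun b : Fin m → Bool => ∏ u : Fin m,
          (fun (u : Fin m) (c : Bool) => zz (if c then s.1 (hi u) else s.1 (lo u))) u (b u)) := by
    rw [P]
    refine av_congr fun b => Finset.prod_congr rfl fun u _ => ?_
    simp only [stp, pre_ev]
    cases b u <;> simp
  rw [h1, av_pi_prod (fun (u : Fin m) (c : Bool) => zz (if c then s.1 (hi u) else s.1 (lo u))),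
    nfr, ← prod_yy, prod_lo_hi]
  refine Finset.prod_le_prod (fun u _ => ?_) fun u _ => ?_
  · rw [av_bool]; simp only [Bool.false_eq_true, if_true, if_false]
    have h0 : ∀ a, 0 ≤ zz a := fun a => by cases a <;> norm_num [zz]
    have := h0 (s.1 (lo u)); have := h0 (s.1 (hi u)); positivity
  · rw [av_bool]; simp only [Bool.false_eq_true, if_true, if_false]
    exact zz_le _ _

theorem P_zz_od (s : State m) :
    P (fun s' => ∏ u : Fin m, zz (s'.1 (od u))) s ≤ (5 / 8 : ℝ) ^ nfr s := by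
  have h1 : P (fun s' => ∏ u : Fin m, zz (s'.1 (od u))) s
      = av (fun b : Fin m → Bool => ∏ u : Fin m,
          (fun (u : Fin m) (c : Bool) => zz (if c then s.1 (lo u) else s.1 (hi u))) u (b u)) := by
    rw [P]
    refine av_congr fun b => Finset.prod_congr rfl fun u _ => ?_
    simp only [stp, pre_od]
    cases b u <;> simp
  rw [h1, av_pi_prod (fun (u : Fin m) (c : Bool) => zz (if c then s.1 (lo u) else s.1 (hi u))),
    nfr, ← prod_yy, prod_lo_hi]
  refine Finset.prod_le_prod (fun u _ => ?_) fun u _ => ?_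
  · rw [av_bool]; simp only [Bool.false_eq_true, if_true, if_false]
    have h0 : ∀ a, 0 ≤ zz a := fun a => by cases a <;> norm_num [zz]
    have := h0 (s.1 (lo u)); have := h0 (s.1 (hi u)); positivity
  · rw [av_bool]; simp only [Bool.false_eq_true, if_true, if_false]
    rw [add_comm]
    exact zz_le _ _

/-- Indicator that one of the two parity classes has fewer than `q` free positions. -/
noncomputable def bad (q : ℕ) (s : State m) : ℝ := if nev s < q ∨ nod s < q then 1 else 0

theorem bad_le (q : ℕ) (s : State m) :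
    bad q s ≤ 4 ^ q * (∏ u : Fin m, zz (s.1 (ev u))) + 4 ^ q * (∏ u : Fin m, zz (s.1 (od u))) := by
  rw [prod_zz, prod_zz]
  have hp : ∀ k : ℕ, k < q → (1 : ℝ) ≤ 4 ^ q * (1 / 4) ^ k := by
    intro k hk
    have h1 : (4 : ℝ) ^ k * (1 / 4) ^ k = 1 := by rw [← mul_pow]; norm_num
    have h2 : (4 : ℝ) ^ k ≤ 4 ^ q := pow_le_pow_right₀ (by norm_num) hk.le
    have h3 : (0 : ℝ) ≤ (1 / 4) ^ k := by positivity
    calc (1 : ℝ) = (4 : ℝ) ^ k * (1 / 4) ^ k := h1.symm
      _ ≤ 4 ^ q * (1 / 4) ^ k := mul_le_mul_of_nonneg_right h2 h3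
  rw [bad]
  split_ifs with h
  · rcases h with h | h
    · have h1 := hp _ h
      rw [nev] at h1
      have h2 : (0 : ℝ) ≤ 4 ^ q * (1 / 4) ^ (univ.filter fun u : Fin m => s.1 (od u) = true).card := by
        positivity
      linarith
    · have h1 := hp _ h
      rw [nod] at h1
      have h2 : (0 : ℝ) ≤ 4 ^ q * (1 / 4) ^ (univ.filter fun u : Fin m => s.1 (ev u) = true).card := by
        positivity
      linarith
  · positivity

theorem P_bad_le (q : ℕ) (s : State m) (h : 4 * q ≤ nfr s) :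
    P (bad q) s ≤ 2 * (2500 / 4096 : ℝ) ^ q := by
  have h1 : P (bad q) s ≤ P (fun s => 4 ^ q * (∏ u : Fin m, zz (s.1 (ev u)))
      + 4 ^ q * (∏ u : Fin m, zz (s.1 (od u)))) s := av_mono fun b => bad_le q _
  have h2 : P (fun s => 4 ^ q * (∏ u : Fin m, zz (s.1 (ev u)))
      + 4 ^ q * (∏ u : Fin m, zz (s.1 (od u)))) s
      = 4 ^ q * P (fun s' => ∏ u : Fin m, zz (s'.1 (ev u))) s
        + 4 ^ q * P (fun s' => ∏ u : Fin m, zz (s'.1 (od u))) s := by
    simp only [P]
    rw [av_add, av_mul_left, av_mul_left]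
  have h3 : (5 / 8 : ℝ) ^ nfr s ≤ (5 / 8 : ℝ) ^ (4 * q) :=
    pow_le_pow_of_le_one (by norm_num) (by norm_num) h
  have h4 : (4 : ℝ) ^ q * (5 / 8 : ℝ) ^ (4 * q) = (2500 / 4096 : ℝ) ^ q := by
    rw [pow_mul, ← mul_pow]; norm_num
  have h5 := P_zz_ev s
  have h6 := P_zz_od s
  have h7 : (0 : ℝ) ≤ 4 ^ q := by positivity
  calc P (bad q) s ≤ _ := h1
    _ = _ := h2
    _ ≤ 4 ^ q * (5 / 8 : ℝ) ^ (4 * q) + 4 ^ q * (5 / 8 : ℝ) ^ (4 * q) :=
        add_le_add (mul_le_mul_of_nonneg_left (h5.trans h3) h7)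
          (mul_le_mul_of_nonneg_left (h6.trans h3) h7)
    _ = 2 * (2500 / 4096 : ℝ) ^ q := by rw [h4]; ring

end gen

section pow
variable {d : ℕ}

/-- The window lemma. -/
theorem window (s : State (2 ^ d)) (hs : Supp s) (ht : tot s = 0) :
    E d (P W) s ≤ (1 - min ((nev s : ℝ) / 2 ^ d) ((nod s : ℝ) / 2 ^ d) / 2) * E d W s := by
  set f0 : ℝ := (nev s : ℝ) / 2 ^ d with hf0
  set f1 : ℝ := (nod s : ℝ) / 2 ^ d with hf1
  set m0 : ℝ := (∑ v : Fin (2 ^ d), s.2 (ev v)) / 2 ^ d with hm0
  set m1 : ℝ := (∑ v : Fin (2 ^ d), s.2 (od v)) / 2 ^ d with hm1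
  have hm : m1 = -m0 := by
    have : m0 + m1 = 0 := by
      rw [hm0, hm1, ← add_div, ← Finset.sum_add_distrib, ← sum_ev_od, ← tot, ht, zero_div]
    linarith
  have e1 : ∀ u : Fin (2 ^ d), E d (fun s => ind (s.1 (lo u))) s = f0 := fun u => by
    rw [E_free, Avg_iter_lo, sum_ind_ev]
  have e2 : ∀ u : Fin (2 ^ d), E d (fun s => ind (s.1 (hi u))) s = f1 := fun u => by
    rw [E_free, Avg_iter_hi, sum_ind_od]
  have e3 : ∀ u : Fin (2 ^ d), E d (fun s => s.2 (lo u)) s = m0 := fun u => by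
    rw [E_weight, Avg_iter_lo]
  have e4 : ∀ u : Fin (2 ^ d), E d (fun s => s.2 (hi u)) s = m1 := fun u => by
    rw [E_weight, Avg_iter_hi]
  have hdrop : ∀ u : Fin (2 ^ d), E d (fun s => drop s u) s
      = f1 * E d (fun s => s.2 (lo u) ^ 2) s + f0 * E d (fun s => s.2 (hi u) ^ 2) s
        - 2 * (m0 * m1) := by
    intro u
    have a1 : E d (fun s' => s'.2 (lo u) ^ 2 * ind (s'.1 (hi u))) s
        = E d (fun s' => s'.2 (lo u) ^ 2) s * f1 := by
      rw [← e2 u]
      exact E_indep s u u (fun _ x => x ^ 2) (fun a _ => ind a)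
    have a2 : E d (fun s' => ind (s'.1 (lo u)) * s'.2 (hi u) ^ 2) s
        = f0 * E d (fun s' => s'.2 (hi u) ^ 2) s := by
      rw [← e1 u]
      exact E_indep s u u (fun a _ => ind a) (fun _ x => x ^ 2)
    have a3 : E d (fun s' => s'.2 (lo u) * s'.2 (hi u)) s = m0 * m1 := by
      rw [← e3 u, ← e4 u]
      exact E_indep s u u (fun _ x => x) (fun _ x => x)
    have a4 : E d (fun s => drop s u) s
        = E d (fun s' => s'.2 (lo u) ^ 2 * ind (s'.1 (hi u))) s
          + E d (fun s' => ind (s'.1 (lo u)) * s'.2 (hi u) ^ 2) s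
          - 2 * E d (fun s' => s'.2 (lo u) * s'.2 (hi u)) s := by
      simp only [E, drop]
      rw [← av_mul_left, ← av_add, ← av_sub]
      exact av_congr fun c => by ring
    rw [a4, a1, a2, a3]; ring
  have hPW : E d (P W) s = E d W s - (∑ u, E d (fun s => drop s u) s) / 2 := by
    have : E d (P W) s = E d (fun s => W s - (∑ u, drop s u) / 2) s :=
      E_congr Supp (fun b s h => supp_stp b s h) d (fun s h => P_W s h) hs
    rw [this]
    simp only [E]
    rw [av_sub, av_div, av_sum]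
  have hW : E d W s = ∑ u : Fin (2 ^ d),
      (E d (fun s => s.2 (lo u) ^ 2) s + E d (fun s => s.2 (hi u) ^ 2) s) := by
    have : E d W s = E d (fun s => ∑ u : Fin (2 ^ d), (s.2 (lo u) ^ 2 + s.2 (hi u) ^ 2)) s :=
      av_congr fun c => sum_lo_hi _
    rw [this]
    simp only [E]
    rw [av_sum]
    exact Finset.sum_congr rfl fun u _ => av_add _ _
  have hlo : ∀ u : Fin (2 ^ d), 0 ≤ E d (fun s => s.2 (lo u) ^ 2) s :=
    fun u => av_nonneg fun _ => sq_nonneg _
  have hhi : ∀ u : Fin (2 ^ d), 0 ≤ E d (fun s => s.2 (hi u) ^ 2) s :=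
    fun u => av_nonneg fun _ => sq_nonneg _
  have hsum : min f0 f1 * E d W s ≤ ∑ u, E d (fun s => drop s u) s := by
    rw [hW, Finset.mul_sum]
    refine Finset.sum_le_sum fun u _ => ?_
    rw [hdrop u, hm]
    have b1 : min f0 f1 * E d (fun s => s.2 (lo u) ^ 2) s ≤ f1 * E d (fun s => s.2 (lo u) ^ 2) s :=
      mul_le_mul_of_nonneg_right (min_le_right _ _) (hlo u)
    have b2 : min f0 f1 * E d (fun s => s.2 (hi u) ^ 2) s ≤ f0 * E d (fun s => s.2 (hi u) ^ 2) s :=
      mul_le_mul_of_nonneg_right (min_le_left _ _) (hhi u)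
    nlinarith [sq_nonneg m0]
  rw [hPW]
  linarith

/-- The states considered: weights on the free set, total weight zero, energy at most one,
at least `4 q` free positions. -/
def Good (q : ℕ) (s : State (2 ^ d)) : Prop := Supp s ∧ tot s = 0 ∧ W s ≤ 1 ∧ 4 * q ≤ nfr s

theorem Good_stp (q : ℕ) (b : Fin (2 ^ d) → Bool) (s : State (2 ^ d)) (h : Good q s) :
    Good q (stp b s) :=
  ⟨supp_stp b s h.1, (tot_stp b s).trans h.2.1, (W_stp_le b s h.1).trans h.2.2.1,
    by rw [nfr_stp]; exact h.2.2.2⟩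

theorem E_W_step (q : ℕ) (hq : 16 * q = 2 ^ d) (t : ℕ) (s : State (2 ^ d)) (h : Good q s) :
    E (t + 1 + d + 1) W s ≤ 31 / 32 * E (t + 1 + d) W s + 2 * (2500 / 4096 : ℝ) ^ q := by
  have hV := Good_stp (d := d) q
  have h1 : E (t + 1 + d + 1) W s = E (t + 1) (E d (P W)) s := by
    rw [E_succ, E_add]
  have h2 : E (t + 1 + d) W s = E (t + 1) (E d W) s := E_add _ _ _ _
  have hd : (0 : ℝ) < 2 ^ d := by positivity
  have hqd : (16 : ℝ) * q = 2 ^ d := by exact_mod_cast hq
  have h3 : E (t + 1) (E d (P W)) s ≤ E (t + 1) (fun s => 31 / 32 * E d W s + bad q s) s := by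
    refine E_mono (Good q) hV (t + 1) (fun s hs => ?_) h
    have hw := window s hs.1 hs.2.1
    have hW0 : 0 ≤ E d W s := av_nonneg fun _ => W_nonneg _
    have hW1 : E d W s ≤ 1 := by
      rw [← E_const d 1 s]
      exact E_mono (Good q) hV d (fun s hs => hs.2.2.1) hs
    by_cases hb : nev s < q ∨ nod s < q
    · rw [bad, if_pos hb]
      have hmin : 0 ≤ min ((nev s : ℝ) / 2 ^ d) ((nod s : ℝ) / 2 ^ d) :=
        le_min (by positivity) (by positivity)
      have : (1 - min ((nev s : ℝ) / 2 ^ d) ((nod s : ℝ) / 2 ^ d) / 2) * E d W s ≤ 1 * E d W s :=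
        mul_le_mul_of_nonneg_right (by linarith) hW0
      linarith
    · rw [bad, if_neg hb]
      push Not at hb
      have hmin : (1 : ℝ) / 16 ≤ min ((nev s : ℝ) / 2 ^ d) ((nod s : ℝ) / 2 ^ d) := by
        refine le_min ?_ ?_
        · rw [div_le_div_iff₀ (by norm_num) hd, ← hqd]
          have : (q : ℝ) ≤ nev s := by exact_mod_cast hb.1
          linarith
        · rw [div_le_div_iff₀ (by norm_num) hd, ← hqd]
          have : (q : ℝ) ≤ nod s := by exact_mod_cast hb.2
          linarith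
      have : (1 - min ((nev s : ℝ) / 2 ^ d) ((nod s : ℝ) / 2 ^ d) / 2) * E d W s
          ≤ 31 / 32 * E d W s :=
        mul_le_mul_of_nonneg_right (by linarith) hW0
      linarith
  have h4 : E (t + 1) (fun s => 31 / 32 * E d W s + bad q s) s
      = 31 / 32 * E (t + 1) (E d W) s + E (t + 1) (bad q) s := by
    simp only [E]
    rw [av_add, av_mul_left]
  have h5 : E (t + 1) (bad q) s ≤ 2 * (2500 / 4096 : ℝ) ^ q := by
    rw [E_succ, ← E_const t (2 * (2500 / 4096 : ℝ) ^ q) s]
    exact E_mono (Good q) hV t (fun s hs => P_bad_le q s hs.2.2.2) h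
  rw [h1, h2]
  linarith

theorem E_W_le (q : ℕ) (hq : 16 * q = 2 ^ d) (j : ℕ) (s : State (2 ^ d)) (h : Good q s) :
    E (d + 1 + j) W s ≤ (31 / 32 : ℝ) ^ j + 64 * (2500 / 4096 : ℝ) ^ q := by
  induction j with
  | zero =>
    have hW1 : E (d + 1 + 0) W s ≤ 1 := by
      rw [← E_const (d + 1 + 0) 1 s]
      exact E_mono (Good q) (Good_stp q) _ (fun s hs => hs.2.2.1) h
    have : (0 : ℝ) ≤ 64 * (2500 / 4096 : ℝ) ^ q := by positivity
    rw [pow_zero]; linarith
  | succ j ih =>
    have := E_W_step q hq j s h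
    have e1 : j + 1 + d + 1 = d + 1 + (j + 1) := by ring
    have e2 : j + 1 + d = d + 1 + j := by ring
    rw [e1, e2] at this
    rw [pow_succ]
    linarith

end pow

end Crest.Agent.R155.Net
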