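import Crest.Agent.R155.Embeds

/-!
R155, Part R, task Trunc: truncation of the densities of the marginals.
-/

set_option autoImplicit false
set_option linter.unusedSectionVars false
set_option linter.unusedVariables false

namespace Crest.Agent.R155

open Finset Equiv

variable {α : Type} [Fintype α] [DecidableEq α]

/-- `μ` is a probability on `Perm α` and the law of `g ∘ x` is within `ε` in `ℓ¹` of the uniform law on
injections, for every injective `x : Fin k → α`. -/
def MargClose (α : Type) [Fintype α] [DecidableEq α] (k : ℕ) (ε : ℝ) (μ : Perm α → ℝ) : Prop :=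
  (∀ g, 0 ≤ μ g) ∧ (∑ g, μ g = 1) ∧
  ∀ x : Fin k ↪ α, ∑ z : Fin k → α,
    |(∑ g : Perm α, if (∀ i, g (x i) = z i) then μ g else 0) -
      (if Function.Injective z then
        (((Fintype.card α - k).factorial : ℝ) / ((Fintype.card α).factorial : ℝ)) else 0)| ≤ ε

namespace TruncAux

/-- an enumeration of the complement of the range -/
theorem exists_compl {r : ℕ} (hcard : Fintype.card α = 8 * r) (ι : Fin r ↪ α) :
    ∃ x : Fin (7 * r) ↪ α, (∀ j, x j ∉ Set.range ι) ∧ ∀ a, a ∉ Set.range ι → ∃ j, x j = a := by
  classical
  have hc : Fintype.card {a : α // a ∉ Set.range ι} = 7 * r := by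
    rw [Fintype.card_subtype_compl]
    have h1 : Fintype.card {a : α // a ∈ Set.range ι} = r := by
      have := Fintype.card_congr (Equiv.ofInjective ι ι.injective)
      rw [Fintype.card_fin] at this
      exact this.symm
    rw [hcard]
    omega
  let e : Fin (7 * r) ≃ {a : α // a ∉ Set.range ι} := (Fintype.equivFinOfCardEq hc).symm
  refine ⟨e.toEmbedding.trans (Function.Embedding.subtype _), ?_, ?_⟩
  · intro j
    exact (e j).2
  · intro a ha
    refine ⟨e.symm ⟨a, ha⟩, ?_⟩
    simp

/-- the coset `g * via ι` is the set of permutations that agree with `g` off the range of `ι` -/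
theorem agree_iff {r : ℕ} (ι : Fin r ↪ α) (g g' : Perm α) :
    (∀ a, a ∉ Set.range ι → g' a = g a) ↔ ∃ h : Perm (Fin r), g * via ι h = g' := by
  classical
  constructor
  · intro hag
    set σ : Perm α := g⁻¹ * g' with hσ
    have hfix : ∀ a, a ∉ Set.range ι → σ a = a := by
      intro a ha
      simp [hσ, Perm.mul_apply, hag a ha]
    have hmem : ∀ a, σ a ∈ Set.range ι ↔ a ∈ Set.range ι := by
      intro a
      constructor
      · intro h
        by_contra hn
        rw [hfix a hn] at h
        exact hn h
      · intro h
        by_contra hn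
        have h2 := hfix (σ a) hn
        have h3 : σ a = a := σ.injective h2
        rw [h3] at hn
        exact hn h
    let e := Equiv.ofInjective ι ι.injective
    refine ⟨e.symm.permCongr (σ.subtypePerm hmem), ?_⟩
    have key : via ι (e.symm.permCongr (σ.subtypePerm hmem)) = σ := by
      ext a
      rw [via, Equiv.Perm.viaEmbeddingHom_apply]
      by_cases ha : a ∈ Set.range ι
      · obtain ⟨y, rfl⟩ := ha
        rw [Equiv.Perm.viaEmbedding_apply]
        rw [Equiv.permCongr_apply]
        have h1 : ι (e.symm ((σ.subtypePerm hmem) (e.symm.symm y)))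
            = ((e (e.symm ((σ.subtypePerm hmem) (e.symm.symm y))) : Set.range ι) : α) := rfl
        rw [h1, Equiv.apply_symm_apply, Equiv.symm_symm]
        rfl
      · rw [Equiv.Perm.viaEmbedding_apply_of_notMem _ _ _ ha, hfix a ha]
    rw [key, hσ]
    simp
  · rintro ⟨h, rfl⟩ a ha
    rw [Perm.mul_apply, via, Equiv.Perm.viaEmbeddingHom_apply,
      Equiv.Perm.viaEmbedding_apply_of_notMem _ _ _ ha]

/-- the sum over the coset is a marginal probability -/
theorem sum_coset {r : ℕ} (ι : Fin r ↪ α) (x : Fin (7 * r) ↪ α)
    (hx : ∀ j, x j ∉ Set.range ι) (hx' : ∀ a, a ∉ Set.range ι → ∃ j, x j = a)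
    (μ : Perm α → ℝ) (g : Perm α) :
    ∑ h : Perm (Fin r), μ (g * via ι h)
      = ∑ g' : Perm α, if (∀ j, g' (x j) = g (x j)) then μ g' else 0 := by
  classical
  have hinj : Function.Injective (fun h : Perm (Fin r) => g * via ι h) := by
    intro h h' hh
    exact via_injective ι (mul_left_cancel hh)
  have h1 : ∑ h : Perm (Fin r), μ (g * via ι h)
      = ∑ g' ∈ Finset.univ.map ⟨fun h : Perm (Fin r) => g * via ι h, hinj⟩, μ g' := by
    rw [Finset.sum_map]
    rfl
  rw [h1, ← Finset.sum_filter]
  apply Finset.sum_congr _ (fun _ _ => rfl)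
  ext g'
  simp only [Finset.mem_map, Finset.mem_univ, true_and, Function.Embedding.coeFn_mk,
    Finset.mem_filter]
  rw [← agree_iff]
  constructor
  · intro h j
    exact h _ (hx j)
  · intro h a ha
    obtain ⟨j, rfl⟩ := hx' a ha
    exact h j

end TruncAux

open TruncAux in
/-- Take `F g = μ g` if `∑_h μ (g * via (ι i) h) ≤ 2 r!/(8r)!` for all `i`, else `0`. With `x_i` an
enumeration of the complement of `range (ι i)`, `∑_h μ (g * via (ι i) h)` is the probability of
`g' ∘ x_i = g ∘ x_i`. For two laws `p, u` with `‖p - u‖₁ ≤ ε`, `p {p > 2u} ≤ 2 (p - u) {p > 2 u} ≤ 2ε`. -/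
theorem exists_trunc {r : ℕ} (hcard : Fintype.card α = 8 * r) (ε : ℝ) (μ : Perm α → ℝ)
    (hμ : MargClose α (7 * r) ε μ) (N : ℕ) (ι : Fin N → (Fin r ↪ α)) :
    ∃ F : Perm α → ℝ, (∀ g, 0 ≤ F g) ∧ (∀ g, F g ≤ μ g) ∧
      (∀ i g, ∑ h, F (g * via (ι i) h) ≤ 2 * ((r.factorial : ℝ) / ((8 * r).factorial : ℝ))) ∧
      ∑ g, (μ g - F g) ≤ 2 * N * ε := by
  classical
  obtain ⟨hpos, hsum, hmarg⟩ := hμ
  set u : ℝ := (r.factorial : ℝ) / ((8 * r).factorial : ℝ) with hu
  have hu0 : 0 ≤ u := by positivity
  let s : Fin N → Perm α → ℝ := fun i g => ∑ h : Perm (Fin r), μ (g * via (ι i) h)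
  have hs_inv : ∀ i g (h : Perm (Fin r)), s i (g * via (ι i) h) = s i g := by
    intro i g h
    show ∑ h' : Perm (Fin r), μ (g * via (ι i) h * via (ι i) h')
      = ∑ h' : Perm (Fin r), μ (g * via (ι i) h')
    rw [← Equiv.sum_comp (Equiv.mulLeft h) (fun h' => μ (g * via (ι i) h'))]
    apply Finset.sum_congr rfl
    intro h' _
    simp only [Equiv.coe_mulLeft, map_mul, mul_assoc]
  have hs_pos : ∀ i g, 0 ≤ s i g := fun i g => Finset.sum_nonneg (fun h _ => hpos _)
  refine ⟨fun g => if (∀ i, s i g ≤ 2 * u) then μ g else 0, ?_, ?_, ?_, ?_⟩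
  · intro g
    show 0 ≤ (if (∀ i, s i g ≤ 2 * u) then μ g else 0)
    split_ifs
    · exact hpos g
    · exact le_refl _
  · intro g
    show (if (∀ i, s i g ≤ 2 * u) then μ g else 0) ≤ μ g
    split_ifs
    · exact le_refl _
    · exact hpos g
  · intro i g
    show ∑ h : Perm (Fin r), (if (∀ i', s i' (g * via (ι i) h) ≤ 2 * u)
      then μ (g * via (ι i) h) else 0) ≤ 2 * u
    by_cases hg : s i g ≤ 2 * u
    · refine le_trans (Finset.sum_le_sum ?_) hg
      intro h _
      split_ifs
      · exact le_refl _
      · exact hpos _
    · have : ∀ h : Perm (Fin r), (if (∀ i', s i' (g * via (ι i) h) ≤ 2 * u)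
          then μ (g * via (ι i) h) else 0) = 0 := by
        intro h
        rw [if_neg]
        intro hall
        apply hg
        have := hall i
        rwa [hs_inv] at this
      rw [Finset.sum_congr rfl (fun h _ => this h)]
      simp only [Finset.sum_const_zero]
      positivity
  · -- the mass that is cut off
    have step1 : ∀ g, μ g - (if (∀ i, s i g ≤ 2 * u) then μ g else 0)
        ≤ ∑ i : Fin N, (if 2 * u < s i g then μ g else 0) := by
      intro g
      have hnn : ∀ i ∈ (Finset.univ : Finset (Fin N)), 0 ≤ (if 2 * u < s i g then μ g else 0) := by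
        intro i _
        split_ifs
        · exact hpos g
        · exact le_refl _
      by_cases hall : ∀ i, s i g ≤ 2 * u
      · rw [if_pos hall, sub_self]
        exact Finset.sum_nonneg hnn
      · rw [if_neg hall, sub_zero]
        push Not at hall
        obtain ⟨i, hi⟩ := hall
        calc μ g = (if 2 * u < s i g then μ g else 0) := by rw [if_pos hi]
          _ ≤ _ := Finset.single_le_sum hnn (Finset.mem_univ i)
    have step2 : ∀ i : Fin N, ∑ g, (if 2 * u < s i g then μ g else 0) ≤ 2 * ε := by
      intro i
      obtain ⟨x, hx, hx'⟩ := exists_compl hcard (ι i)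
      have hsx : ∀ g, s i g = ∑ g' : Perm α, if (∀ j, g' (x j) = g (x j)) then μ g' else 0 :=
        fun g => sum_coset (ι i) x hx hx' μ g
      set p : (Fin (7 * r) → α) → ℝ := fun z =>
        ∑ g : Perm α, if (∀ j, g (x j) = z j) then μ g else 0 with hp
      have hsp : ∀ g, s i g = p (fun j => g (x j)) := hsx
      have hpz : ∀ z, 0 ≤ p z := by
        intro z
        apply Finset.sum_nonneg
        intro g _
        split_ifs
        · exact hpos g
        · exact le_refl _
      have e1 : ∑ g, (if 2 * u < s i g then μ g else 0)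
          = ∑ z : Fin (7 * r) → α, (if 2 * u < p z then p z else 0) := by
        have e2 : ∀ g : Perm α, (if 2 * u < s i g then μ g else 0)
            = ∑ z : Fin (7 * r) → α, (if (∀ j, g (x j) = z j) then
                (if 2 * u < p z then μ g else 0) else 0) := by
          intro g
          rw [hsp]
          rw [Finset.sum_eq_single (fun j => g (x j))]
          · rw [if_pos (fun j => rfl)]
          · intro z _ hz
            rw [if_neg]
            intro h
            exact hz (funext (fun j => (h j).symm))
          · intro h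
            exact absurd (Finset.mem_univ _) h
        rw [Finset.sum_congr rfl (fun g _ => e2 g), Finset.sum_comm]
        apply Finset.sum_congr rfl
        intro z _
        by_cases hz : 2 * u < p z
        · simp only [if_pos hz]
          rfl
        · simp only [if_neg hz, ite_self, Finset.sum_const_zero]
      rw [e1]
      have hm := hmarg x
      have hfac : Fintype.card α - 7 * r = r := by omega
      rw [hfac, hcard] at hm
      calc ∑ z : Fin (7 * r) → α, (if 2 * u < p z then p z else 0)
          ≤ ∑ z : Fin (7 * r) → α, 2 * |p z - (if Function.Injective z then u else 0)| := by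
            apply Finset.sum_le_sum
            intro z _
            have hq : (if Function.Injective z then u else 0) ≤ u := by
              split_ifs
              · exact le_refl _
              · exact hu0
            have habs := le_abs_self (p z - (if Function.Injective z then u else 0))
            have habs' := abs_nonneg (p z - (if Function.Injective z then u else 0))
            by_cases hz : 2 * u < p z
            · rw [if_pos hz]
              linarith
            · rw [if_neg hz]
              linarith
        _ = 2 * ∑ z : Fin (7 * r) → α, |p z - (if Function.Injective z then u else 0)| := by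
            rw [Finset.mul_sum]
        _ ≤ 2 * ε := by
            apply mul_le_mul_of_nonneg_left hm (by norm_num)
    calc ∑ g, (μ g - (if (∀ i, s i g ≤ 2 * u) then μ g else 0))
        ≤ ∑ g, ∑ i : Fin N, (if 2 * u < s i g then μ g else 0) :=
          Finset.sum_le_sum (fun g _ => step1 g)
      _ = ∑ i : Fin N, ∑ g, (if 2 * u < s i g then μ g else 0) := Finset.sum_comm
      _ ≤ ∑ i : Fin N, 2 * ε := Finset.sum_le_sum (fun i _ => step2 i)
      _ = 2 * N * ε := by
          rw [Finset.sum_const, Finset.card_univ, Fintype.card_fin, nsmul_eq_mul]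
          ring

end Crest.Agent.R155
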