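import Crest.Agent.R155.Chain
import Crest.Agent.R155.Model
import Crest.Agent.R155.NContr
import Crest.Agent.R155.Law
import Crest.Agent.R155.Trunc

/-!
R155, task PartN: the marginals of `266 (d+1)` shuffles are close to uniform.
(Assembly of Chain, Model, NContr, Law.)
-/

set_option autoImplicit false
set_option linter.unusedSectionVars false
set_option linter.unusedVariables false

namespace Crest.Agent.R155

open Finset Equiv Crest.ProbabilityR.Shuffle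

/-- value of `ini`. -/
theorem partN_val_ini {m : ℕ} (E : Finset (Fin (2 * m))) (y p : Fin (2 * m)) :
    val (ini E y p) = if p ∈ E then 0 else
      ((if p = y then 1 else 0) - 1 / (((2 * m : ℕ) : ℝ) - (E.card : ℝ))) := by
  unfold ini val
  by_cases h : p ∈ E
  · simp [h]
  · simp [h]

theorem partN_ei_ini {m : ℕ} (E : Finset (Fin (2 * m))) (y p : Fin (2 * m)) :
    ei (ini E y p) = if p ∈ E then 1 else 0 := by
  unfold ini ei
  by_cases h : p ∈ E
  · simp [h]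
  · simp [h]

theorem partN_card_compl {m : ℕ} (E : Finset (Fin (2 * m))) (hE : E.card ≤ 2 * m) :
    ((Finset.univ.filter (fun p => p ∉ E)).card : ℝ) = ((2 * m : ℕ) : ℝ) - (E.card : ℝ) := by
  have h1 : (Finset.univ.filter (fun p => p ∉ E)) = Eᶜ := by
    ext p; simp
  rw [h1, Finset.card_compl, Fintype.card_fin, Nat.cast_sub hE]

theorem partN_sum_val {m : ℕ} (E : Finset (Fin (2 * m))) (y : Fin (2 * m)) (hy : y ∉ E)
    (hE : E.card < 2 * m) : ∑ p, val (ini E y p) = 0 := by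
  have hpos : (0 : ℝ) < ((2 * m : ℕ) : ℝ) - (E.card : ℝ) := by
    have : ((E.card : ℕ) : ℝ) < ((2 * m : ℕ) : ℝ) := by exact_mod_cast hE
    linarith
  simp_rw [partN_val_ini]
  have h1 : ∀ p : Fin (2 * m), (if p ∈ E then (0 : ℝ) else
      ((if p = y then 1 else 0) - 1 / (((2 * m : ℕ) : ℝ) - (E.card : ℝ)))) =
      (if p = y then 1 else 0) - (if p ∉ E then 1 / (((2 * m : ℕ) : ℝ) - (E.card : ℝ)) else 0) := by
    intro p
    by_cases h : p ∈ E
    · have : p ≠ y := fun h' => hy (h' ▸ h)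
      simp [h, this]
    · simp [h]
  rw [Finset.sum_congr rfl (fun p _ => h1 p), Finset.sum_sub_distrib,
    ← Finset.sum_filter (fun p => p ∉ E),
    Finset.sum_const, nsmul_eq_mul, partN_card_compl E hE.le]
  simp only [Finset.sum_ite_eq', Finset.mem_univ, if_true]
  field_simp
  ring

theorem partN_sum_ei {m : ℕ} (E : Finset (Fin (2 * m))) (y : Fin (2 * m)) :
    ∑ p, ei (ini E y p) = (E.card : ℝ) := by
  simp_rw [partN_ei_ini]
  rw [Finset.sum_ite_mem, Finset.univ_inter, Finset.sum_const, nsmul_eq_mul, mul_one]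

theorem partN_sum_sq {m : ℕ} (E : Finset (Fin (2 * m))) (y : Fin (2 * m)) (hy : y ∉ E)
    (hE : E.card < 2 * m) : ∑ p, val (ini E y p) ^ 2 ≤ 1 := by
  have hpos : (0 : ℝ) < ((2 * m : ℕ) : ℝ) - (E.card : ℝ) := by
    have : ((E.card : ℕ) : ℝ) < ((2 * m : ℕ) : ℝ) := by exact_mod_cast hE
    linarith
  set c : ℝ := 1 / (((2 * m : ℕ) : ℝ) - (E.card : ℝ)) with hc
  have hc0 : 0 ≤ c := by positivity
  have h1 : ∀ p : Fin (2 * m), val (ini E y p) ^ 2 =
      (if p = y then 1 - 2 * c else 0) + (if p ∉ E then c ^ 2 else 0) := by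
    intro p
    rw [partN_val_ini]
    by_cases h : p ∈ E
    · have : p ≠ y := fun h' => hy (h' ▸ h)
      simp [h, this]
    · by_cases h2 : p = y
      · simp only [h, h2, hy, if_true, if_false, not_false_eq_true, ← hc]
        ring
      · simp only [h, h2, if_true, if_false, not_false_eq_true, ← hc]
        ring
  rw [Finset.sum_congr rfl (fun p _ => h1 p), Finset.sum_add_distrib, ← Finset.sum_filter (fun p => p ∉ E),
    Finset.sum_const, nsmul_eq_mul, partN_card_compl E hE.le]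
  simp only [Finset.sum_ite_eq', Finset.mem_univ, if_true]
  have h2 : (((2 * m : ℕ) : ℝ) - (E.card : ℝ)) * c ^ 2 = c := by
    rw [hc]; field_simp
  rw [h2]
  linarith

theorem partN : ∃ e0 : ℕ, ∀ e, e0 ≤ e →
    MargClose (Fin (2 * 2 ^ (e + 2))) (7 * 2 ^ e) ((2 : ℝ) ^ (-(11 / 10 : ℝ) * ((e : ℝ) + 3)))
      (law (2 ^ (e + 2)) (266 * (e + 3))) := by
  obtain ⟨ℓ0, hℓ0⟩ := contraction
  refine ⟨ℓ0, fun e he => ⟨fun g => law_nonneg _ _ g, law_sum _ _, fun x => ?_⟩⟩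
  have hpow : 2 * 2 ^ (e + 2) = 8 * 2 ^ e := by ring
  have hk : 7 * 2 ^ e ≤ 2 * 2 ^ (e + 2) := by
    rw [hpow]; exact Nat.mul_le_mul_right _ (by norm_num)
  have hkE : ∀ E : Finset (Fin (2 * 2 ^ (e + 2))), E.card < 7 * 2 ^ e → E.card < 2 * 2 ^ (e + 2) :=
    fun E hE => lt_of_lt_of_le hE hk
  -- the bound on the variances
  have hV : ∀ E : Finset (Fin (2 * 2 ^ (e + 2))), E.card < 7 * 2 ^ e → ∀ y, y ∉ E →
      avg (fun cs : Fin (266 * (e + 2 + 1)) → Fin (2 ^ (e + 2)) → Bool =>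
        ∑ p, val (stRun mg (2 ^ (e + 2)) (266 * (e + 2 + 1)) cs (ini E y) p) ^ 2) ≤
        (2 : ℝ) ^ (-(53 / 10 : ℝ) * ((e : ℝ) + 3)) := by
    intro E hE y hy
    have h1 := model_iter mg (e + 2) 266 (fun s => ∑ p, val (s p) ^ 2) (ini E y)
    rw [h1]
    have h2 : (fun x : Cube (e + 2 + 1) → Option ℝ =>
        (fun s : Fin (2 * 2 ^ (e + 2)) → Option ℝ => ∑ p, val (s p) ^ 2)
          (x ∘ (posEquiv (e + 2)).symm)) = nrm2 := by
      funext x
      exact Equiv.sum_comp (posEquiv (e + 2)).symm (fun z => val (x z) ^ 2)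
    rw [h2]
    have h3 := hℓ0 (e + 2 + 1) (by omega) (ini E y ∘ posEquiv (e + 2)) ?_ ?_
    · refine le_trans h3 ?_
      have h4 : nrm2 (ini E y ∘ posEquiv (e + 2)) ≤ 1 := by
        have : nrm2 (ini E y ∘ posEquiv (e + 2)) = ∑ p, val (ini E y p) ^ 2 :=
          Equiv.sum_comp (posEquiv (e + 2)) (fun p => val (ini E y p) ^ 2)
        rw [this]
        exact partN_sum_sq E y hy (hkE E hE)
      have h5 : (0 : ℝ) < (2 : ℝ) ^ (-(53 / 10 : ℝ) * (((e + 2 + 1 : ℕ) : ℝ))) := by positivity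
      calc (2 : ℝ) ^ (-(53 / 10 : ℝ) * (((e + 2 + 1 : ℕ) : ℝ))) * nrm2 (ini E y ∘ posEquiv (e + 2))
          ≤ (2 : ℝ) ^ (-(53 / 10 : ℝ) * (((e + 2 + 1 : ℕ) : ℝ))) * 1 :=
            mul_le_mul_of_nonneg_left h4 h5.le
        _ = (2 : ℝ) ^ (-(53 / 10 : ℝ) * ((e : ℝ) + 3)) := by
            rw [mul_one, show (((e + 2 + 1 : ℕ) : ℝ)) = (e : ℝ) + 3 by push_cast; ring]
    · have : tot (ini E y ∘ posEquiv (e + 2)) = ∑ p, val (ini E y p) :=
        Equiv.sum_comp (posEquiv (e + 2)) (fun p => val (ini E y p))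
      rw [this]
      exact partN_sum_val E y hy (hkE E hE)
    · have : env (ini E y ∘ posEquiv (e + 2)) = ∑ p, ei (ini E y p) :=
        Equiv.sum_comp (posEquiv (e + 2)) (fun p => ei (ini E y p))
      rw [this, partN_sum_ei]
      have h6 : ((E.card : ℕ) : ℝ) ≤ ((7 * 2 ^ e : ℕ) : ℝ) := by exact_mod_cast hE.le
      refine le_trans h6 (le_of_eq ?_)
      push_cast
      ring
  have hchain := chain (2 ^ (e + 2)) (266 * (e + 2 + 1)) (7 * 2 ^ e) hk
    ((2 : ℝ) ^ (-(53 / 10 : ℝ) * ((e : ℝ) + 3))) (by positivity) hV x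
  -- rewrite the averages
  have havg : ∀ z : Fin (7 * 2 ^ e) → Fin (2 * 2 ^ (e + 2)),
      avg (fun cs : Fin (266 * (e + 2 + 1)) → Fin (2 ^ (e + 2)) → Bool =>
        if (∀ i, iterPos (2 ^ (e + 2)) (266 * (e + 2 + 1)) cs (x i) = z i) then (1 : ℝ) else 0) =
      ∑ g : Perm (Fin (2 * 2 ^ (e + 2))),
        if (∀ i, g (x i) = z i) then law (2 ^ (e + 2)) (266 * (e + 3)) g else 0 := by
    intro z
    have h := avg_iterPos (2 ^ (e + 2)) (266 * (e + 2 + 1))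
      (fun f => if (∀ i, f (x i) = z i) then (1 : ℝ) else 0)
    refine h.trans ?_
    refine Finset.sum_congr rfl (fun g _ => ?_)
    by_cases hg : ∀ i, g (x i) = z i
    · simp [hg]
    · simp [hg]
  rw [Fintype.card_fin]
  have hsum : ∑ z : Fin (7 * 2 ^ e) → Fin (2 * 2 ^ (e + 2)),
      |(∑ g : Perm (Fin (2 * 2 ^ (e + 2))),
        if (∀ i, g (x i) = z i) then law (2 ^ (e + 2)) (266 * (e + 3)) g else 0) -
      (if Function.Injective z then
        (((2 * 2 ^ (e + 2) - 7 * 2 ^ e).factorial : ℝ) / ((2 * 2 ^ (e + 2)).factorial : ℝ)) else 0)| ≤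
      ((7 * 2 ^ e : ℕ) : ℝ) *
        Real.sqrt (2 * ((2 ^ (e + 2) : ℕ) : ℝ) * (2 : ℝ) ^ (-(53 / 10 : ℝ) * ((e : ℝ) + 3))) := by
    refine le_trans (le_of_eq ?_) hchain
    refine Finset.sum_congr rfl (fun z _ => ?_)
    rw [havg z]
  refine hsum.trans ?_
  -- numerical estimate
  have e1 : 2 * ((2 ^ (e + 2) : ℕ) : ℝ) = (2 : ℝ) ^ ((e : ℝ) + 3) := by
    rw [Real.rpow_add (by norm_num), Real.rpow_natCast]
    push_cast
    have : (2 : ℝ) ^ (3 : ℝ) = 8 := by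
      rw [show (3 : ℝ) = ((3 : ℕ) : ℝ) by norm_num, Real.rpow_natCast]; norm_num
    rw [this]; ring
  have e2 : Real.sqrt (2 * ((2 ^ (e + 2) : ℕ) : ℝ) * (2 : ℝ) ^ (-(53 / 10 : ℝ) * ((e : ℝ) + 3))) =
      (2 : ℝ) ^ (-(43 / 20 : ℝ) * ((e : ℝ) + 3)) := by
    rw [e1, ← Real.rpow_add (by norm_num), Real.sqrt_eq_rpow, ← Real.rpow_mul (by norm_num)]
    congr 1
    ring
  rw [e2]
  have e3 : ((7 * 2 ^ e : ℕ) : ℝ) ≤ (2 : ℝ) ^ ((e : ℝ) + 3) := by
    rw [← e1]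
    push_cast
    have : (0 : ℝ) < 2 ^ e := by positivity
    rw [pow_add]
    linarith
  calc ((7 * 2 ^ e : ℕ) : ℝ) * (2 : ℝ) ^ (-(43 / 20 : ℝ) * ((e : ℝ) + 3))
      ≤ (2 : ℝ) ^ ((e : ℝ) + 3) * (2 : ℝ) ^ (-(43 / 20 : ℝ) * ((e : ℝ) + 3)) :=
        mul_le_mul_of_nonneg_right e3 (by positivity)
    _ = (2 : ℝ) ^ (-(23 / 20 : ℝ) * ((e : ℝ) + 3)) := by
        rw [← Real.rpow_add (by norm_num)]; congr 1; ring
    _ ≤ (2 : ℝ) ^ (-(11 / 10 : ℝ) * ((e : ℝ) + 3)) := by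
        apply Real.rpow_le_rpow_of_exponent_le (by norm_num)
        have : (0 : ℝ) ≤ (e : ℝ) := Nat.cast_nonneg e
        nlinarith

end Crest.Agent.R155
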