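import Crest.Agent.R155.PartRb
import Crest.Agent.R155.AsympS1
import Crest.Agent.R155.AsympS3

/-!
R155, task PartR: assembly of the representation theoretic part (helper505).
-/

set_option autoImplicit false
set_option linter.unusedSectionVars false
set_option linter.unusedVariables false

namespace Crest.Agent.R155

open Finset Equiv

section
variable {α : Type} [Fintype α] [DecidableEq α]

/-- decomposition along the levels -/
theorem norm_sq_levels (u : L2 (Perm α)) (k : ℕ) (hk : k ≤ Fintype.card α) :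
    ‖u - pr (junta α 0) u‖ ^ 2 = ∑ t ∈ Finset.Icc 1 k, ‖pr (lev α t) u‖ ^ 2 +
      ‖u - pr (junta α k) u‖ ^ 2 := by
  induction k with
  | zero => simp
  | succ k ih =>
    rw [ih (by omega), Finset.sum_Icc_succ_top (by omega)]
    have h1 := norm_sq_sub_pr_nested (junta_mono (α := α) (Nat.le_succ k) hk) u
    have h2 : lev α (k + 1) = junta α (k + 1) ⊓ (junta α k)ᗮ := rfl
    rw [h1, h2]; ring

/-- the constant part -/
theorem pr_junta_zero (u : L2 (Perm α)) (g : Perm α) :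
    (pr (junta α 0) u) g = (∑ x, u x) / (Fintype.card (Perm α) : ℝ) := by
  have h1 := pr_mem (junta α 0) u
  rw [mem_junta_zero] at h1
  let one : L2 (Perm α) := WithLp.toLp 2 (fun _ => (1 : ℝ))
  have hone : one ∈ junta α 0 := by
    rw [mem_junta_zero]; intro g; rfl
  have h2 : inner ℝ one (u - pr (junta α 0) u) = 0 := (sub_pr_mem _ u) _ hone
  rw [inner_sub_right, sub_eq_zero, inner_def', inner_def'] at h2
  have h3 : ∀ x, one x = 1 := fun x => rfl
  simp only [h3, one_mul] at h2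
  rw [h2, Finset.sum_congr rfl fun x _ => h1 x, Finset.sum_const, Finset.card_univ, nsmul_eq_mul,
    h1 g]
  have : (Fintype.card (Perm α) : ℝ) ≠ 0 := by
    have := Fintype.card_pos (α := Perm α); positivity
  field_simp

theorem one_sub_pow_six_le {x : ℝ} (h0 : 0 ≤ x) (h1 : x ≤ 1) : 1 - x ^ 6 ≤ 6 * (1 - x) := by
  have := one_add_mul_le_pow (a := x - 1) (by linarith) 6
  norm_num at this
  linarith

end

/-- finite version -/
theorem partR_finite (e : ℕ) (he : 1 ≤ e) (α : Type) [Fintype α] [DecidableEq α]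
    (hcard : Fintype.card α = 8 * 2 ^ e)
    (ν μ : Perm α → ℝ) (hν : ∀ g, 0 ≤ ν g) (hν1 : ∑ g, ν g = 1)
    (hkill : ∀ f ∈ sjunta α (K0 e), cv (fun g => ν g⁻¹) f = 0) (ε : ℝ)
    (hμ : MargClose α (7 * 2 ^ e) ε μ) :
    ∑ g, |(cv ν ((fun f => cv μ f)^[6] (dl 1))) g - 1 / ((8 * 2 ^ e).factorial : ℝ)| ≤
      Real.sqrt (S1 e + S3 e) + 192 * ε := by
  classical
  set r : ℕ := 2 ^ e with hr
  have hr1 : 1 ≤ r := Nat.one_le_two_pow
  have hr2 : 2 ≤ r := by
    calc 2 = 2 ^ 1 := rfl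
      _ ≤ 2 ^ e := Nat.pow_le_pow_right (by norm_num) he
  obtain ⟨ι0, a, ha⟩ := exists_parts hcard
  let ι : Fin 8 → (Fin r ↪ α) := fun i => ι0.trans (a i).toEmbedding
  obtain ⟨F, hF0, hFμ, hFt, hFs⟩ := exists_trunc hcard ε μ hμ 8 ι
  have hF1 : ∑ g, F g ≤ 1 := by
    rw [← hμ.2.1]; exact Finset.sum_le_sum fun g _ => hFμ g
  let D : Data8 α r F :=
    { ι := ι, disj := fun i i' hii' x y => ha i i' hii' x y, card := hcard, nonneg := hF0,
      sum_le := hF1, trunc := hFt }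
  set δ : ℝ := 16 * ε with hδ
  have hFs' : ∑ g, (μ g - F g) ≤ δ := by
    refine hFs.trans (le_of_eq ?_); rw [hδ]; push_cast; ring
  set f : L2 (Perm α) := cv ν ((fun f => cv F f)^[6] (dl 1)) with hf
  set N : ℝ := ((8 * r).factorial : ℝ) with hN
  have hN0 : 0 < N := by rw [hN]; positivity
  have hG : (Fintype.card (Perm α) : ℝ) = N := by
    rw [Fintype.card_perm, hcard]
  -- step 1
  have hν1' : ∑ g, |ν g| = 1 := by
    rw [← hν1]; exact Finset.sum_congr rfl fun g _ => abs_of_nonneg (hν g)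
  have step1 : l1 (cv ν ((fun f => cv μ f)^[6] (dl 1)) - f) ≤ 6 * δ := by
    rw [hf, ← map_sub]
    refine (l1_cv_le _ _).trans ?_
    rw [hν1', one_mul]
    have := l1_iter_sub_le μ F hμ.1 hμ.2.1 hF0 hFμ δ hFs' 6
    exact_mod_cast this
  -- mass
  set m : ℝ := ∑ g, F g with hm
  have hm0 : 0 ≤ m := Finset.sum_nonneg fun g _ => hF0 g
  have hm1 : 1 - m ≤ δ := by
    rw [Finset.sum_sub_distrib, hμ.2.1] at hFs'
    exact hFs'
  have hsum : ∑ g, f g = m ^ 6 := by
    rw [hf, sum_cv, hν1, one_mul, sum_iter]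
  -- step 2
  have step2 : ∑ g : Perm α, |(pr (junta α 0) f) g - 1 / N| ≤ 6 * δ := by
    have h1 : ∀ g : Perm α, |(pr (junta α 0) f) g - 1 / N| = (1 - m ^ 6) / N := by
      intro g
      rw [pr_junta_zero, hsum, hG, ← sub_div, abs_div, abs_of_pos hN0, abs_sub_comm,
        abs_of_nonneg]
      have : m ^ 6 ≤ 1 := pow_le_one₀ hm0 hF1
      linarith
    rw [Finset.sum_congr rfl fun g _ => h1 g, Finset.sum_const, Finset.card_univ, nsmul_eq_mul, hG,
      mul_div_cancel₀ _ hN0.ne']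
    have := one_sub_pow_six_le hm0 hF1
    linarith
  -- step 3 : the l2 estimate
  have hK0 : K0 e * K0 e ≤ 4 * r := Nat.sqrt_le (4 * 2 ^ e)
  have hK0' : K0 e ≤ 4 * r := (Nat.le_mul_self _).trans hK0
  have hKcard : K0 e ≤ Fintype.card α := by rw [hcard]; omega
  have hlev : ∑ t ∈ Finset.Icc 1 (K0 e), N * ‖pr (lev α t) f‖ ^ 2 ≤ S1 e := by
    unfold S1
    apply Finset.sum_le_sum
    intro k hk
    rw [Finset.mem_Icc] at hk
    have hkk : k * k + k ≤ 8 * r := by
      have h1 : k * k ≤ K0 e * K0 e := Nat.mul_le_mul hk.2 hk.2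
      have h2 : k ≤ k * k := Nat.le_mul_self k
      omega
    have h1 := class_estimate (lev_biInv k) ν F hν hν1 _ (by positivity)
      (D.level_bound hk.1 hkk) 6
    rw [hG] at h1
    refine h1.trans ?_
    have h2 : (Module.finrank ℝ (lev α k) : ℝ) ≤
        ((8 * 2 ^ e).choose k : ℝ) ^ 2 * (k.factorial : ℝ) := by
      have := finrank_lev_le (α := α) k
      rw [hcard] at this
      exact_mod_cast this
    have h3 : 128 * ((r.choose (k / 8) : ℝ) ^ 2 * ((k / 8).factorial : ℝ)) /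
        ((((8 * r - k) / k : ℕ) : ℝ) ^ k) ≤ (2 * (Nk e k : ℝ)) ^ 2 *
      (2 * (((2 ^ e).choose (k / 8) : ℝ) ^ 2 * ((k / 8).factorial : ℝ)) /
        ((((8 * 2 ^ e - k) / k : ℕ) : ℝ) ^ k)) := by
      have hNk : (4 : ℝ) ≤ (Nk e k : ℝ) := by
        have : 4 ≤ Nk e k := by unfold Nk; omega
        exact_mod_cast this
      have h4 : (64 : ℝ) ≤ (2 * (Nk e k : ℝ)) ^ 2 := by nlinarith
      have h5 : 128 * ((r.choose (k / 8) : ℝ) ^ 2 * ((k / 8).factorial : ℝ)) /
          ((((8 * r - k) / k : ℕ) : ℝ) ^ k) =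
          64 * (2 * (((2 ^ e).choose (k / 8) : ℝ) ^ 2 * ((k / 8).factorial : ℝ)) /
        ((((8 * 2 ^ e - k) / k : ℕ) : ℝ) ^ k)) := by rw [← hr]; ring
      rw [h5]
      exact mul_le_mul_of_nonneg_right h4 (by positivity)
    gcongr
  -- the orthogonal part
  set w : L2 (Perm α) := f - pr (junta α (K0 e)) f with hw
  have hwo : w ∈ (junta α (K0 e))ᗮ := sub_pr_mem _ _
  have hws : w ∈ (sjunta α (K0 e))ᗮ := by
    rw [Submodule.mem_orthogonal]
    intro s hs
    have h1 : w = cv ν ((fun f => cv F f)^[6] (dl 1) -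
        pr (junta α (K0 e)) ((fun f => cv F f)^[6] (dl 1))) := by
      rw [hw, hf, pr_cv (junta_biInv _).1, map_sub]
    have h2 : inner ℝ s (cv ν ((fun f => cv F f)^[6] (dl 1) -
        pr (junta α (K0 e)) ((fun f => cv F f)^[6] (dl 1)))) = 0 := by
      rw [real_inner_comm]
      unfold cv
      rw [inner_cvH]
      have h3 := hkill s hs
      unfold cv at h3
      rw [h3, inner_zero_right]
    rw [h1]; exact h2
  set Kinf : Submodule ℝ (L2 (Perm α)) := (junta α (K0 e))ᗮ ⊓ (sjunta α (K0 e))ᗮ with hKinf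
  have hKbi : BiInv Kinf := (junta_biInv _).orth.inf (sjunta_biInv _).orth
  obtain ⟨M, Kb, hM, hmin, hle, horth, hsup⟩ := exists_blocks Kinf hKbi
  have hwK : w ∈ ⨆ i, Kb i := by rw [hsup]; exact ⟨hwo, hws⟩
  have hwn := norm_sq_of_mem_iSup Kb horth hwK
  have hprw : ∀ i, pr (Kb i) w = pr (Kb i) f := by
    intro i
    rw [hw, map_sub]
    have : pr (Kb i) (pr (junta α (K0 e)) f) = 0 := by
      apply pr_eq_of (Submodule.zero_mem _)
      rw [sub_zero, Submodule.mem_orthogonal]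
      intro u hu
      have h1 := (hle i hu).1
      rw [real_inner_comm]
      exact h1 _ (pr_mem _ _)
    rw [this, sub_zero]
  set c3 : ℝ := 65536 * (512 * (Fintype.card (Nat.Partition r) : ℝ)) ^ 6 /
        ((((4 * r).choose (K0 e / 2) : ℕ) : ℝ)) ^ 2 with hc3
  have hblk : ∀ i, N * ‖pr (Kb i) f‖ ^ 2 ≤ c3 := by
    intro i
    refine D.block_bound (k := K0 e) (h := K0 e / 2) (by omega) (by omega) ?_ (Kb i) (hmin i)
      ((hle i).trans inf_le_left) ((hle i).trans inf_le_right) ν hν hν1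
    -- 2 * (K0 e / 2) + 3 ≤ 4 r
    have h1 : 2 * (K0 e / 2) ≤ K0 e := by omega
    have h2 : K0 e + 3 ≤ 4 * r := by
      by_contra hc
      have h3 : 4 * r - 2 ≤ K0 e := by omega
      have h4 : (4 * r - 2) * (4 * r - 2) ≤ 4 * r := (Nat.mul_le_mul h3 h3).trans hK0
      have h5 : 6 * (4 * r - 2) ≤ (4 * r - 2) * (4 * r - 2) := Nat.mul_le_mul_right _ (by omega)
      omega
    omega
  have hS3 : ∑ i, N * ‖pr (Kb i) f‖ ^ 2 ≤ S3 e := by
    calc ∑ i, N * ‖pr (Kb i) f‖ ^ 2 ≤ ∑ _i : Fin M, c3 := Finset.sum_le_sum fun i _ => hblk i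
      _ = (M : ℝ) * c3 := by simp
      _ ≤ (Fintype.card (Nat.Partition (8 * 2 ^ e)) : ℝ) * c3 := by
          apply mul_le_mul_of_nonneg_right _ (by positivity)
          rw [hcard] at hM
          exact_mod_cast hM
      _ ≤ S3 e := by
          unfold S3
          apply mul_le_mul_of_nonneg_left _ (by positivity)
          rw [hc3]
          have hNN : (4 : ℝ) ≤ (NN e : ℝ) := by
            have : 4 ≤ NN e := by unfold NN; omega
            exact_mod_cast this
          have h4 : 512 * (Fintype.card (Nat.Partition r) : ℝ) ≤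
              32 * (NN e : ℝ) ^ 2 * (Fintype.card (Nat.Partition (2 ^ e)) : ℝ) := by
            apply mul_le_mul_of_nonneg_right _ (by positivity)
            nlinarith
          gcongr
  have hl2 : N * ‖f - pr (junta α 0) f‖ ^ 2 ≤ S1 e + S3 e := by
    rw [norm_sq_levels f (K0 e) hKcard, mul_add, Finset.mul_sum]
    have h1 : N * ‖f - pr (junta α (K0 e)) f‖ ^ 2 = ∑ i, N * ‖pr (Kb i) f‖ ^ 2 := by
      change N * ‖w‖ ^ 2 = _
      rw [hwn, Finset.mul_sum]
      exact Finset.sum_congr rfl fun i _ => by rw [hprw]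
    rw [h1]
    exact add_le_add hlev hS3
  have step3 : l1 (f - pr (junta α 0) f) ≤ Real.sqrt (S1 e + S3 e) := by
    refine (l1_le_norm _).trans ?_
    rw [hG]
    have h1 : Real.sqrt N * ‖f - pr (junta α 0) f‖ =
        Real.sqrt (N * ‖f - pr (junta α 0) f‖ ^ 2) := by
      rw [Real.sqrt_mul hN0.le, Real.sqrt_sq (norm_nonneg _)]
    rw [h1]
    exact Real.sqrt_le_sqrt hl2
  -- conclusion
  set u : L2 (Perm α) := cv ν ((fun f => cv μ f)^[6] (dl 1)) with hu
  have htri : ∀ g, |u g - 1 / N| ≤ |(u - f) g| + |(f - pr (junta α 0) f) g| +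
      |(pr (junta α 0) f) g - 1 / N| := by
    intro g
    have h1 : u g - 1 / N = (u - f) g + (f - pr (junta α 0) f) g +
        ((pr (junta α 0) f) g - 1 / N) := by
      simp
    rw [h1]
    exact (abs_add_le _ _).trans (add_le_add (abs_add_le _ _) le_rfl)
  calc ∑ g, |u g - 1 / N| ≤ ∑ g, (|(u - f) g| + |(f - pr (junta α 0) f) g| +
      |(pr (junta α 0) f) g - 1 / N|) := Finset.sum_le_sum fun g _ => htri g
    _ = l1 (u - f) + l1 (f - pr (junta α 0) f) + ∑ g, |(pr (junta α 0) f) g - 1 / N| := by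
        rw [Finset.sum_add_distrib, Finset.sum_add_distrib]; rfl
    _ ≤ 6 * δ + Real.sqrt (S1 e + S3 e) + 6 * δ := add_le_add (add_le_add step1 step3) step2
    _ = Real.sqrt (S1 e + S3 e) + 192 * ε := by rw [hδ]; ring

/-- `n = 8 * 2^e`; `ν` is one layer, `μ` the law of a long run. -/
theorem partR (η : ℝ) (hη : 0 < η) : ∃ e0 : ℕ, ∀ e, e0 ≤ e →
    ∀ (α : Type) [Fintype α] [DecidableEq α] (_ : Fintype.card α = 8 * 2 ^ e)
      (ν μ : Perm α → ℝ) (_ : ∀ g, 0 ≤ ν g) (_ : ∑ g, ν g = 1)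
      (_ : ∀ f ∈ sjunta α (K0 e), cv (fun g => ν g⁻¹) f = 0)
      (_ : MargClose α (7 * 2 ^ e) ((2 : ℝ) ^ (-(11 / 10 : ℝ) * ((e : ℝ) + 3))) μ),
      ∑ g, |(cv ν ((fun f => cv μ f)^[6] (dl 1))) g - 1 / ((8 * 2 ^ e).factorial : ℝ)| ≤ η := by
  have h1 : Filter.Tendsto (fun e => Real.sqrt (S1 e + S3 e)) Filter.atTop (nhds 0) := by
    have := (S1_tendsto.add S3_tendsto).sqrt
    simpa using this
  have h2 : Filter.Tendsto (fun e : ℕ => 192 * (2 : ℝ) ^ (-(11 / 10 : ℝ) * ((e : ℝ) + 3)))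
      Filter.atTop (nhds 0) := by
    have h3 : Filter.Tendsto (fun e : ℕ => ((e : ℝ) + 3)) Filter.atTop Filter.atTop :=
      Filter.tendsto_atTop_add_const_right _ _ tendsto_natCast_atTop_atTop
    have h4 : Filter.Tendsto (fun e : ℕ => -(11 / 10 : ℝ) * ((e : ℝ) + 3)) Filter.atTop
        Filter.atBot := Filter.Tendsto.const_mul_atTop_of_neg (by norm_num) h3
    have h5 : Filter.Tendsto (fun x : ℝ => (2 : ℝ) ^ x) Filter.atBot (nhds 0) :=
      tendsto_rpow_atBot_of_base_gt_one 2 (by norm_num)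
    have h6 := (h5.comp h4).const_mul 192
    simpa using h6
  have h3 := h1.add h2
  rw [add_zero] at h3
  have h4 := (h3.eventually (gt_mem_nhds hη)).and (Filter.eventually_ge_atTop 1)
  obtain ⟨e0, he0⟩ := Filter.eventually_atTop.1 h4
  refine ⟨e0, fun e he α _ _ hcard ν μ hν hν1 hkill hμ => ?_⟩
  obtain ⟨h5, h6⟩ := he0 e he
  exact (partR_finite e h6 α hcard ν μ hν hν1 hkill _ hμ).trans h5.le

end Crest.Agent.R155
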