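import Crest.Agent.R155.Junta

/-!
R155, Part R: generic lemmas for the assembly (helper505).
-/

set_option autoImplicit false
set_option linter.unusedSectionVars false
set_option linter.unusedVariables false

namespace Crest.Agent.R155

open Finset Equiv

section
variable {G : Type} [Group G] [Fintype G] [DecidableEq G]

/-- nested projections -/
theorem pr_nested {A B : Submodule ℝ (L2 G)} (h : A ≤ B) (u : L2 G) :
    pr B u = pr A u + pr (B ⊓ Aᗮ) u := by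
  apply pr_eq_of (B.add_mem (h (pr_mem _ _)) (pr_mem (B ⊓ Aᗮ) u).1)
  rw [Submodule.mem_orthogonal]
  intro w hw
  -- write `w = pr A w + (w - pr A w)`
  have hw1 : w - pr A w ∈ B ⊓ Aᗮ := ⟨B.sub_mem hw (h (pr_mem _ _)), sub_pr_mem _ _⟩
  have e1 : inner ℝ (pr A w) (u - (pr A u + pr (B ⊓ Aᗮ) u)) = 0 := by
    rw [← sub_sub, inner_sub_right]
    have h1 : inner ℝ (pr A w) (u - pr A u) = 0 := (sub_pr_mem A u) _ (pr_mem A w)
    have h2 : inner ℝ (pr A w) (pr (B ⊓ Aᗮ) u) = 0 := (pr_mem (B ⊓ Aᗮ) u).2 _ (pr_mem A w)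
    rw [h1, h2, sub_zero]
  have e2 : inner ℝ (w - pr A w) (u - (pr A u + pr (B ⊓ Aᗮ) u)) = 0 := by
    rw [add_comm (pr A u), ← sub_sub, inner_sub_right]
    have h1 : inner ℝ (w - pr A w) (u - pr (B ⊓ Aᗮ) u) = 0 := (sub_pr_mem _ u) _ hw1
    have h2 : inner ℝ (w - pr A w) (pr A u) = 0 := by
      rw [real_inner_comm]; exact hw1.2 _ (pr_mem A u)
    rw [h1, h2, sub_zero]
  have : w = pr A w + (w - pr A w) := by abel
  rw [this, inner_add_left, e1, e2, add_zero]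

theorem norm_sq_pr_nested {A B : Submodule ℝ (L2 G)} (h : A ≤ B) (u : L2 G) :
    ‖pr B u‖ ^ 2 = ‖pr A u‖ ^ 2 + ‖pr (B ⊓ Aᗮ) u‖ ^ 2 := by
  rw [pr_nested h u]
  have h2 : inner ℝ (pr A u) (pr (B ⊓ Aᗮ) u) = 0 := (pr_mem (B ⊓ Aᗮ) u).2 _ (pr_mem A u)
  have := norm_add_sq_real (pr A u) (pr (B ⊓ Aᗮ) u)
  rw [h2] at this
  simpa using this

theorem norm_sq_sub_pr_nested {A B : Submodule ℝ (L2 G)} (h : A ≤ B) (u : L2 G) :
    ‖u - pr A u‖ ^ 2 = ‖pr (B ⊓ Aᗮ) u‖ ^ 2 + ‖u - pr B u‖ ^ 2 := by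
  have h1 := norm_sq_pr_add A u
  have h2 := norm_sq_pr_add B u
  have h3 := norm_sq_pr_nested h u
  linarith

/-- orthogonal sums -/
theorem norm_sq_of_mem_iSup {M : ℕ} (K : Fin M → Submodule ℝ (L2 G))
    (ho : ∀ i i', i ≠ i' → K i ≤ (K i')ᗮ) {w : L2 G} (hw : w ∈ ⨆ i, K i) :
    ‖w‖ ^ 2 = ∑ i, ‖pr (K i) w‖ ^ 2 := by
  have hof : OrthogonalFamily ℝ (fun i => K i) fun i => (K i).subtypeₗᵢ := by
    apply OrthogonalFamily.of_pairwise
    intro i i' hii'
    exact (Submodule.isOrtho_iff_le).2 (ho i i' hii')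
  have h1 : ∑ i, (K i).starProjection w = w := hof.sum_projection_of_mem_iSup w hw
  have h1' : ∑ i, pr (K i) w = w := by simpa [pr] using h1
  have h2 : inner ℝ w w = ∑ i, inner ℝ (pr (K i) w) (pr (K i) w) := by
    conv_lhs => rw [← h1']
    rw [sum_inner]
    refine Finset.sum_congr rfl fun i _ => ?_
    have : inner ℝ (pr (K i) w) (w - pr (K i) w) = 0 := (sub_pr_mem _ _) _ (pr_mem _ _)
    rw [inner_sub_right, sub_eq_zero] at this
    rw [h1', this]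
  rw [← real_inner_self_eq_norm_sq, h2]
  simp

/-- `ℓ¹` norm -/
noncomputable def l1 (f : L2 G) : ℝ := ∑ g, |f g|

theorem l1_nonneg (f : L2 G) : 0 ≤ l1 f := Finset.sum_nonneg fun _ _ => abs_nonneg _

theorem l1_add_le (f g : L2 G) : l1 (f + g) ≤ l1 f + l1 g := by
  unfold l1
  rw [← Finset.sum_add_distrib]
  exact Finset.sum_le_sum fun x _ => abs_add_le _ _

theorem l1_sum_le {ι : Type} (s : Finset ι) (f : ι → L2 G) : l1 (∑ i ∈ s, f i) ≤ ∑ i ∈ s, l1 (f i) := by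
  classical
  induction s using Finset.induction_on with
  | empty => simp [l1]
  | insert a s ha ih =>
    rw [Finset.sum_insert ha, Finset.sum_insert ha]
    exact (l1_add_le _ _).trans (by linarith)

theorem l1_smul (c : ℝ) (f : L2 G) : l1 (c • f) = |c| * l1 f := by
  unfold l1
  rw [Finset.mul_sum]
  refine Finset.sum_congr rfl fun x _ => ?_
  simp [abs_mul]

theorem l1_lt (a : G) (f : L2 G) : l1 (lt a f) = l1 f := by
  unfold l1
  simp only [lt_apply]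
  exact Equiv.sum_comp (Equiv.mulLeft a⁻¹) (fun g => |f g|)

theorem l1_cv_le (F : G → ℝ) (f : L2 G) : l1 (cv F f) ≤ (∑ g, |F g|) * l1 f := by
  rw [cv_apply']
  refine (l1_sum_le _ _).trans ?_
  rw [Finset.sum_mul]
  refine Finset.sum_le_sum fun a _ => ?_
  rw [l1_smul, l1_lt]

theorem l1_dl (g : G) : l1 (dl g : L2 G) = 1 := by
  simp [l1, dl_apply, apply_ite abs]

theorem l1_le_norm (f : L2 G) : l1 f ≤ Real.sqrt (Fintype.card G) * ‖f‖ := by
  have h1 : l1 f ^ 2 ≤ (Fintype.card G : ℝ) * ‖f‖ ^ 2 := by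
    unfold l1
    rw [norm_sq_def]
    have := sq_sum_le_card_mul_sum_sq (s := (Finset.univ : Finset G)) (f := fun g => |f g|)
    simpa using this
  have h2 : Real.sqrt (Fintype.card G) * ‖f‖ = Real.sqrt ((Fintype.card G : ℝ) * ‖f‖ ^ 2) := by
    rw [Real.sqrt_mul (by positivity), Real.sqrt_sq (norm_nonneg _)]
  rw [h2]
  exact Real.le_sqrt_of_sq_le h1

theorem cv_sub (F F' : G → ℝ) (f : L2 G) : cv F f - cv F' f = cv (fun g => F g - F' g) f := by
  simp only [cv_apply', sub_smul, Finset.sum_sub_distrib]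

theorem sum_cv (F : G → ℝ) (f : L2 G) : ∑ g, (cv F f) g = (∑ g, F g) * ∑ g, f g := by
  simp only [cv_apply]
  rw [Finset.sum_comm, Finset.sum_mul]
  refine Finset.sum_congr rfl fun a _ => ?_
  rw [← Finset.mul_sum]
  congr 1
  exact Equiv.sum_comp (Equiv.mulLeft a⁻¹) (fun g => f g)

/-- iterated convolutions, `ℓ¹` comparison -/
theorem l1_iter_sub_le (μ F : G → ℝ) (hμ : ∀ g, 0 ≤ μ g) (hμ1 : ∑ g, μ g = 1) (hF : ∀ g, 0 ≤ F g)
    (hFμ : ∀ g, F g ≤ μ g) (δ : ℝ) (hδ : ∑ g, (μ g - F g) ≤ δ) (t : ℕ) :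
    l1 ((fun f : L2 G => cv μ f)^[t] (dl 1) - (fun f : L2 G => cv F f)^[t] (dl 1)) ≤ t * δ := by
  have hF1 : ∑ g, |F g| ≤ 1 := by
    rw [← hμ1]
    exact Finset.sum_le_sum fun g _ => by rw [abs_of_nonneg (hF g)]; exact hFμ g
  have hμ1' : ∑ g, |μ g| = 1 := by
    rw [← hμ1]
    exact Finset.sum_congr rfl fun g _ => abs_of_nonneg (hμ g)
  have hd : ∑ g, |μ g - F g| ≤ δ := by
    refine le_trans (le_of_eq ?_) hδ
    exact Finset.sum_congr rfl fun g _ => abs_of_nonneg (by linarith [hFμ g])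
  have hFt : ∀ t, l1 ((fun f : L2 G => cv F f)^[t] (dl 1)) ≤ 1 := by
    intro t
    induction t with
    | zero => simp [l1_dl]
    | succ t ih =>
      rw [Function.iterate_succ_apply']
      refine (l1_cv_le _ _).trans ?_
      exact mul_le_one₀ hF1 (l1_nonneg _) ih
  induction t with
  | zero => simp [l1]
  | succ t ih =>
    rw [Function.iterate_succ_apply', Function.iterate_succ_apply']
    set u := (fun f : L2 G => cv μ f)^[t] (dl 1)
    set v := (fun f : L2 G => cv F f)^[t] (dl 1)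
    have : cv μ u - cv F v = cv μ (u - v) + cv (fun g => μ g - F g) v := by
      rw [map_sub, ← cv_sub]; abel
    change l1 (cv μ u - cv F v) ≤ _
    rw [this]
    refine (l1_add_le _ _).trans ?_
    have h1 := l1_cv_le μ (u - v)
    rw [hμ1', one_mul] at h1
    have h2 := l1_cv_le (fun g => μ g - F g) v
    have h3 : (∑ g, |μ g - F g|) * l1 v ≤ δ := by
      have := hFt t
      have h0 : 0 ≤ ∑ g, |μ g - F g| := Finset.sum_nonneg fun _ _ => abs_nonneg _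
      calc (∑ g, |μ g - F g|) * l1 v ≤ (∑ g, |μ g - F g|) * 1 :=
            mul_le_mul_of_nonneg_left this h0
        _ ≤ δ := by rw [mul_one]; exact hd
    push_cast
    linarith

theorem sum_iter (F : G → ℝ) (t : ℕ) :
    ∑ g, ((fun f : L2 G => cv F f)^[t] (dl 1)) g = (∑ g, F g) ^ t := by
  induction t with
  | zero => simp [dl_apply]
  | succ t ih =>
    rw [Function.iterate_succ_apply', sum_cv, ih, pow_succ, mul_comm]

/-- projections commute with iterated convolutions -/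
theorem pr_iter {K : Submodule ℝ (L2 G)} (hK : InvL K) (ν F : G → ℝ) (t : ℕ) (u : L2 G) :
    pr K (cv ν ((fun f : L2 G => cv F f)^[t] u)) = cv ν ((fun f : L2 G => cv F f)^[t] (pr K u)) := by
  rw [pr_cv hK]
  congr 1
  induction t with
  | zero => rfl
  | succ t ih =>
    rw [Function.iterate_succ_apply', Function.iterate_succ_apply', pr_cv hK, ih]

/-- norm of iterated convolutions on an invariant subspace -/
theorem norm_sq_iter_le {K : Submodule ℝ (L2 G)} (hK : InvL K) (ν F : G → ℝ)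
    (hν : ∀ g, 0 ≤ ν g) (hν1 : ∑ g, ν g = 1) (q : ℝ) (hq : 0 ≤ q)
    (hqK : ∀ v ∈ K, ‖cv F v‖ ^ 2 ≤ q * ‖v‖ ^ 2) (t : ℕ) (u : L2 G) (hu : u ∈ K) :
    ‖cv ν ((fun f : L2 G => cv F f)^[t] u)‖ ^ 2 ≤ q ^ t * ‖u‖ ^ 2 := by
  have h1 : ∀ t, (fun f : L2 G => cv F f)^[t] u ∈ K ∧
      ‖(fun f : L2 G => cv F f)^[t] u‖ ^ 2 ≤ q ^ t * ‖u‖ ^ 2 := by
    intro t
    induction t with
    | zero => simpa using hu
    | succ t ih =>
      rw [Function.iterate_succ_apply']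
      refine ⟨cv_mem hK _ ih.1, (hqK _ ih.1).trans ?_⟩
      have h3 : q ^ (t + 1) * ‖u‖ ^ 2 = q * (q ^ t * ‖u‖ ^ 2) := by ring
      rw [h3]
      exact mul_le_mul_of_nonneg_left ih.2 hq
  have h2 : ‖cv ν ((fun f : L2 G => cv F f)^[t] u)‖ ≤ ‖(fun f : L2 G => cv F f)^[t] u‖ := by
    have := norm_cv_le ν ((fun f : L2 G => cv F f)^[t] u)
    have h3 : ∑ g, |ν g| = 1 := by
      rw [← hν1]
      exact Finset.sum_congr rfl fun g _ => abs_of_nonneg (hν g)
    rwa [h3, one_mul] at this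
  calc ‖cv ν ((fun f : L2 G => cv F f)^[t] u)‖ ^ 2 ≤ ‖(fun f : L2 G => cv F f)^[t] u‖ ^ 2 := by
        exact pow_le_pow_left₀ (norm_nonneg _) h2 2
    _ ≤ _ := (h1 t).2

/-- the main estimate for one class -/
theorem class_estimate {K : Submodule ℝ (L2 G)} (hK : BiInv K) (ν F : G → ℝ)
    (hν : ∀ g, 0 ≤ ν g) (hν1 : ∑ g, ν g = 1) (q : ℝ) (hq : 0 ≤ q)
    (hqK : ∀ v ∈ K, ‖cv F v‖ ^ 2 ≤ q * ‖v‖ ^ 2) (t : ℕ) :
    (Fintype.card G : ℝ) * ‖pr K (cv ν ((fun f : L2 G => cv F f)^[t] (dl 1)))‖ ^ 2 ≤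
      q ^ t * Module.finrank ℝ K := by
  rw [pr_iter hK.1, ← card_mul_norm_pr_dl hK.1]
  have := norm_sq_iter_le hK.1 ν F hν hν1 q hq hqK t (pr K (dl 1)) (pr_mem _ _)
  have h0 : (0 : ℝ) ≤ Fintype.card G := by positivity
  calc (Fintype.card G : ℝ) * ‖cv ν ((fun f : L2 G => cv F f)^[t] (pr K (dl 1)))‖ ^ 2
      ≤ (Fintype.card G : ℝ) * (q ^ t * ‖pr K (dl 1)‖ ^ 2) := mul_le_mul_of_nonneg_left this h0
    _ = _ := by ring

end

end Crest.Agent.R155
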