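import Crest.Agent.R155.Junta

/-!
R155, Part R, task SignDim: right invariant subspaces orthogonal to low juntas and to sign times
low juntas have large dimension.

Proof. Take a perfect matching `{x_u, y_u}`, `u : Fin m`, of `α`; the `m` commuting involutions
`rt (swap (x_u) (y_u))` decompose `W` into joint eigenspaces `W_T`, `T ⊆ Fin m` the set of `-1`s.
`dim W_T` depends only on `|T|` (conjugation by permutations of `α` permuting the pairs) and not on the
matching. Let `S = {|T| : W_T ≠ 0}`. If `s ∈ S` then `dim W ≥ C(m,s)`.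
If `t ∈ S`, `t+1 ∉ S`, `t+2 ∉ S` then `w ∈ W_T`, `|T| = t`, is fixed by every transposition of two points
outside the pairs in `T`: for two pairs `j, k ∉ T` re-pair `{x_j,x_k},{y_j,y_k}`; the components of
`w` for the new matching have `t, t+1` or `t+2` minus signs so only the one with `t` survives. Hence
`w` is fixed by `Sym` of the complement of a set of `2t` points, `w ∈ junta (2t)`.
So if `W ⊥ junta K0`: for `t ∈ S` with `2t ≤ K0` one of `t+1, t+2` is in `S`. The same for `sgn · W`,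
whose set is `{m - s : s ∈ S}`. Climbing from any `s ∈ S` one gets an element `s' ∈ S` with
`h ≤ s' ≤ m - h`, and `C(m,s') ≥ C(m,h)`.
-/

set_option autoImplicit false
set_option linter.unusedSectionVars false
set_option linter.unusedVariables false

namespace Crest.Agent.R155

open Finset Equiv

variable {α : Type} [Fintype α] [DecidableEq α]

namespace SignDim

variable {m : ℕ}

/-- the transposition of the `u`-th pair of a matching. -/
def sw (φ : Fin m × Bool ≃ α) (u : Fin m) : Perm α := swap (φ (u, false)) (φ (u, true))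

theorem sw_mul_self (φ : Fin m × Bool ≃ α) (u : Fin m) : sw φ u * sw φ u = 1 :=
  swap_mul_self _ _

theorem sw_apply_ne (φ : Fin m × Bool ≃ α) {u v : Fin m} (h : v ≠ u) (b : Bool) :
    sw φ u (φ (v, b)) = φ (v, b) := by
  unfold sw
  apply swap_apply_of_ne_of_ne
  · intro h'
    exact h (congrArg Prod.fst (φ.injective h'))
  · intro h'
    exact h (congrArg Prod.fst (φ.injective h'))

theorem sw_comm (φ : Fin m × Bool ≃ α) {u v : Fin m} (h : v ≠ u) :
    sw φ u * sw φ v = sw φ v * sw φ u := by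
  have h1 : sw φ u * sw φ v * (sw φ u)⁻¹ = sw φ v := by
    conv_lhs => rw [sw, sw]
    rw [← swap_apply_apply]
    have := sw_apply_ne φ h false
    have h2 := sw_apply_ne φ h true
    unfold sw at this h2 ⊢
    rw [this, h2]
  calc sw φ u * sw φ v = sw φ u * sw φ v * (sw φ u)⁻¹ * sw φ u := by group
    _ = _ := by rw [h1]

/-- joint eigenvector with `-1`s at `T`. -/
def Eig (φ : Fin m × Bool ≃ α) (T : Finset (Fin m)) (w : L2 (Perm α)) : Prop :=
  ∀ u, rt (sw φ u) w = (if u ∈ T then (-1 : ℝ) else 1) • w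

def HasT (W : Submodule ℝ (L2 (Perm α))) (φ : Fin m × Bool ≃ α) (T : Finset (Fin m)) : Prop :=
  ∃ w ∈ W, w ≠ 0 ∧ Eig φ T w

theorem rt_proj (φ : Fin m × Bool ≃ α) (u : Fin m) (w : L2 (Perm α)) (ε : ℝ) (hε : ε * ε = 1) :
    rt (sw φ u) (w + ε • rt (sw φ u) w) = ε • (w + ε • rt (sw φ u) w) := by
  rw [map_add, map_smul, ← rt_mul, sw_mul_self, rt_one, smul_add, smul_smul, hε, one_smul,
    add_comm]

theorem rt_proj_other (φ : Fin m × Bool ≃ α) {u v : Fin m} (h : v ≠ u) (w : L2 (Perm α)) (ε δ : ℝ)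
    (hv : rt (sw φ v) w = δ • w) :
    rt (sw φ v) (w + ε • rt (sw φ u) w) = δ • (w + ε • rt (sw φ u) w) := by
  rw [map_add, map_smul, ← rt_mul, ← sw_comm φ h, rt_mul, hv, map_smul, smul_add,
    smul_comm ε δ]

theorem exists_hasT_aux (W : Submodule ℝ (L2 (Perm α))) (hW : InvR W) (hne : W ≠ ⊥)
    (φ : Fin m × Bool ≃ α) (U : Finset (Fin m)) :
    ∃ w ∈ W, w ≠ 0 ∧ ∃ T : Finset (Fin m), ∀ u ∈ U,
      rt (sw φ u) w = (if u ∈ T then (-1 : ℝ) else 1) • w := by
  classical
  induction U using Finset.induction_on with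
  | empty =>
    obtain ⟨w, hw, hw0⟩ := W.exists_mem_ne_zero_of_ne_bot hne
    exact ⟨w, hw, hw0, ∅, by simp⟩
  | insert a U ha ih =>
    obtain ⟨w, hw, hw0, T, hT⟩ := ih
    have hmem : ∀ ε : ℝ, w + ε • rt (sw φ a) w ∈ W := fun ε =>
      W.add_mem hw (W.smul_mem _ (hW _ _ hw))
    by_cases h1 : w + (1 : ℝ) • rt (sw φ a) w = 0
    · have h2 : w + (-1 : ℝ) • rt (sw φ a) w ≠ 0 := by
        intro h2
        apply hw0
        have h3 : (2 : ℝ) • w = 0 := by
          have : (2 : ℝ) • w = (w + (1 : ℝ) • rt (sw φ a) w) + (w + (-1 : ℝ) • rt (sw φ a) w) := by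
            module
          rw [this, h1, h2, add_zero]
        simpa using h3
      refine ⟨_, hmem (-1), h2, insert a T, ?_⟩
      intro u hu
      by_cases hua : u = a
      · subst hua
        rw [if_pos (Finset.mem_insert_self _ _)]
        exact rt_proj φ u w (-1) (by norm_num)
      · have huU : u ∈ U := (Finset.mem_insert.mp hu).resolve_left hua
        have : (u ∈ insert a T) ↔ (u ∈ T) := by simp [hua]
        rw [if_congr this rfl rfl]
        exact rt_proj_other φ hua w _ _ (hT u huU)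
    · refine ⟨_, hmem 1, h1, T.erase a, ?_⟩
      intro u hu
      by_cases hua : u = a
      · subst hua
        rw [if_neg (Finset.notMem_erase _ _)]
        exact rt_proj φ u w 1 (by norm_num)
      · have huU : u ∈ U := (Finset.mem_insert.mp hu).resolve_left hua
        have : (u ∈ T.erase a) ↔ (u ∈ T) := by simp [hua]
        rw [if_congr this rfl rfl]
        exact rt_proj_other φ hua w _ _ (hT u huU)

theorem exists_hasT (W : Submodule ℝ (L2 (Perm α))) (hW : InvR W) (hne : W ≠ ⊥)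
    (φ : Fin m × Bool ≃ α) : ∃ T : Finset (Fin m), HasT W φ T := by
  obtain ⟨w, hw, hw0, T, hT⟩ := exists_hasT_aux W hW hne φ Finset.univ
  exact ⟨T, w, hw, hw0, fun u => hT u (Finset.mem_univ u)⟩

/-- independence of the matching. -/
theorem HasT.transport {W : Submodule ℝ (L2 (Perm α))} (hW : InvR W) {φ : Fin m × Bool ≃ α}
    {T : Finset (Fin m)} (h : HasT W φ T) (φ' : Fin m × Bool ≃ α) : HasT W φ' T := by
  obtain ⟨w, hw, hw0, hT⟩ := h
  let π : Perm α := φ.symm.trans φ'
  have hπ : ∀ p, π (φ p) = φ' p := fun p => by simp [π]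
  refine ⟨rt π w, hW _ _ hw, by simpa using hw0, fun u => ?_⟩
  have h1 : sw φ' u = π * sw φ u * π⁻¹ := by
    unfold sw
    rw [← swap_apply_apply, hπ, hπ]
  rw [h1, ← rt_mul]
  have h2 : π * sw φ u * π⁻¹ * π = π * sw φ u := by group
  rw [h2, rt_mul, hT u, map_smul]

/-- dependence on the cardinality only. -/
theorem HasT.of_card {W : Submodule ℝ (L2 (Perm α))} (hW : InvR W) {φ : Fin m × Bool ≃ α}
    {T : Finset (Fin m)} (h : HasT W φ T) (φ' : Fin m × Bool ≃ α) (T' : Finset (Fin m))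
    (hc : T'.card = T.card) : HasT W φ' T' := by
  classical
  obtain ⟨w, hw, hw0, hT⟩ := h
  let e : {x // x ∈ T'} ≃ {x // x ∈ T} := Finset.equivOfCardEq hc
  let τ : Perm (Fin m) := e.extendSubtype
  have hτ : ∀ u, τ u ∈ T ↔ u ∈ T' := by
    intro u
    constructor
    · intro h
      by_contra hu
      exact e.extendSubtype_not_mem u hu h
    · intro h
      exact e.extendSubtype_mem u h
  let φ1 : Fin m × Bool ≃ α := (Equiv.prodCongr τ (Equiv.refl Bool)).trans φ
  have h1 : HasT W φ1 T' := by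
    refine ⟨w, hw, hw0, fun u => ?_⟩
    have h2 : sw φ1 u = sw φ (τ u) := rfl
    rw [h2, hT (τ u), if_congr (hτ u) rfl rfl]
  exact h1.transport hW φ'

/-- The set of possible numbers of minus signs. -/
def SS (m : ℕ) (W : Submodule ℝ (L2 (Perm α))) : Set ℕ :=
  {t | ∃ (φ : Fin m × Bool ≃ α) (T : Finset (Fin m)), T.card = t ∧ HasT W φ T}

theorem SS_hasT {W : Submodule ℝ (L2 (Perm α))} (hW : InvR W) {t : ℕ} (ht : t ∈ SS m W)
    (φ : Fin m × Bool ≃ α) (T : Finset (Fin m)) (hc : T.card = t) : HasT W φ T := by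
  obtain ⟨φ', T', hc', h⟩ := ht
  exact h.of_card hW φ T (hc.trans hc'.symm)

theorem SS_le {W : Submodule ℝ (L2 (Perm α))} {t : ℕ} (ht : t ∈ SS m W) : t ≤ m := by
  obtain ⟨φ', T', hc', h⟩ := ht
  rw [← hc']
  simpa using T'.card_le_univ

theorem inner_eq_zero_of_eig (φ : Fin m × Bool ≃ α) {T T' : Finset (Fin m)} (hTT : T ≠ T')
    {w w' : L2 (Perm α)} (h : Eig φ T w) (h' : Eig φ T' w') : inner ℝ w w' = 0 := by
  classical
  obtain ⟨u, hu⟩ : ∃ u, ¬ (u ∈ T ↔ u ∈ T') := by
    by_contra hcon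
    push Not at hcon
    exact hTT (Finset.ext hcon)
  have h1 : inner ℝ (rt (sw φ u) w) (rt (sw φ u) w') = inner ℝ w w' :=
    (rt (sw φ u)).inner_map_map w w'
  rw [h u, h' u, inner_smul_left, inner_smul_right] at h1
  by_cases h2 : u ∈ T
  · have h3 : u ∉ T' := fun h3 => hu ⟨fun _ => h3, fun _ => h2⟩
    rw [if_pos h2, if_neg h3] at h1
    simp at h1
    linarith
  · have h3 : u ∈ T' := by
      by_contra h3
      exact hu ⟨fun h => absurd h h2, fun h => absurd h h3⟩
    rw [if_neg h2, if_pos h3] at h1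
    simp at h1
    linarith

theorem choose_le_finrank {W : Submodule ℝ (L2 (Perm α))} (hW : InvR W) {t : ℕ}
    (ht : t ∈ SS m W) : m.choose t ≤ Module.finrank ℝ W := by
  classical
  obtain ⟨φ, _, _, _⟩ := id ht
  have hex : ∀ T : {T : Finset (Fin m) // T ∈ Finset.powersetCard t Finset.univ},
      ∃ w : L2 (Perm α), w ∈ W ∧ w ≠ 0 ∧ Eig φ T.1 w := by
    intro T
    have hc : T.1.card = t := (Finset.mem_powersetCard.mp T.2).2
    obtain ⟨w, hw, hw0, h⟩ := SS_hasT hW ht φ T.1 hc
    exact ⟨w, hw, hw0, h⟩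
  choose v hvW hv0 hvE using hex
  have hli : LinearIndependent ℝ (fun T => (⟨v T, hvW T⟩ : W)) := by
    apply linearIndependent_of_ne_zero_of_inner_eq_zero (𝕜 := ℝ)
    · intro T h
      exact hv0 T (congrArg Subtype.val h)
    · intro T T' hne
      exact inner_eq_zero_of_eig φ (fun h => hne (Subtype.ext h)) (hvE T) (hvE T')
  have := hli.fintype_card_le_finrank
  simpa [Fintype.card_coe, Finset.card_powersetCard] using this

/-- if `t ∈ S`, `t+1, t+2 ∉ S`, then swaps of points in different pairs outside `T` fix `w`. -/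
theorem fix_swap_aux {W : Submodule ℝ (L2 (Perm α))} (hW : InvR W) {t : ℕ}
    (h1 : t + 1 ∉ SS m W) (h2 : t + 2 ∉ SS m W) (φ : Fin m × Bool ≃ α) (T : Finset (Fin m))
    (hc : T.card = t) (w : L2 (Perm α)) (hw : w ∈ W) (hE : Eig φ T w) (j k : Fin m)
    (hjk : j ≠ k) (hj : j ∉ T) (hk : k ∉ T) (b c : Bool) :
    rt (swap (φ (j, b)) (φ (k, c))) w = w := by
  classical
  -- new matching
  set x := φ (j, b) with hx
  set x' := φ (j, !b) with hx'
  set y := φ (k, c) with hy
  set y' := φ (k, !c) with hy'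
  let π : Perm α := swap x' y
  let ψ : Fin m × Bool ≃ α := φ.trans π
  have hψ : ∀ p, ψ p = π (φ p) := fun p => rfl
  have hswj : sw φ j = swap x x' := by
    unfold sw
    rw [hx, hx']
    cases b
    · rfl
    · exact swap_comm _ _
  have hswk : sw φ k = swap y y' := by
    unfold sw
    rw [hy, hy']
    cases c
    · rfl
    · exact swap_comm _ _
  have hconj : ∀ u, sw ψ u = π * sw φ u * π⁻¹ := by
    intro u
    unfold sw
    rw [← swap_apply_apply]
    rfl
  have hxx' : x ≠ x' := by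
    intro h
    have := congrArg Prod.snd (φ.injective h)
    cases b <;> simp at this
  have hyy' : y ≠ y' := by
    intro h
    have := congrArg Prod.snd (φ.injective h)
    cases c <;> simp at this
  have hxy : x ≠ y := fun h => hjk (congrArg Prod.fst (φ.injective h))
  have hy'x' : y' ≠ x' := fun h => hjk (congrArg Prod.fst (φ.injective h)).symm
  have hpx : π x = x := swap_apply_of_ne_of_ne hxx' hxy
  have hpx' : π x' = y := swap_apply_left _ _
  have hpy : π y = x' := swap_apply_right _ _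
  have hpy' : π y' = y' := swap_apply_of_ne_of_ne hy'x' hyy'.symm
  have hj' : sw ψ j = swap x y := by
    rw [hconj, hswj, ← swap_apply_apply, hpx, hpx']
  have hk' : sw ψ k = swap x' y' := by
    rw [hconj, hswk, ← swap_apply_apply, hpy, hpy']
  have hu' : ∀ u, u ≠ j → u ≠ k → sw ψ u = sw φ u := by
    intro u huj huk
    rw [hconj, sw, ← swap_apply_apply]
    have : ∀ d, π (φ (u, d)) = φ (u, d) := by
      intro d
      apply swap_apply_of_ne_of_ne
      · intro h
        exact huj (congrArg Prod.fst (φ.injective h))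
      · intro h
        exact huk (congrArg Prod.fst (φ.injective h))
    rw [this, this]
  -- the components
  set w1 := w + (-1 : ℝ) • rt (sw ψ j) w with hw1
  have hw1W : w1 ∈ W := W.add_mem hw (W.smul_mem _ (hW _ _ hw))
  have hw1j : rt (sw ψ j) w1 = (-1 : ℝ) • w1 := rt_proj ψ j w (-1) (by norm_num)
  have hw1u : ∀ u, u ≠ j → u ≠ k → rt (sw ψ u) w1 = (if u ∈ T then (-1 : ℝ) else 1) • w1 := by
    intro u huj huk
    apply rt_proj_other ψ huj
    rw [hu' u huj huk, hE u]
  have hzero : ∀ (ε : ℝ), ε = 1 ∨ ε = -1 → w1 + ε • rt (sw ψ k) w1 = 0 := by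
    intro ε hε
    have hεε : ε * ε = 1 := by rcases hε with h | h <;> rw [h] <;> norm_num
    by_contra hne0
    set w2 := w1 + ε • rt (sw ψ k) w1 with hw2
    have hw2W : w2 ∈ W := W.add_mem hw1W (W.smul_mem _ (hW _ _ hw1W))
    have hw2k : rt (sw ψ k) w2 = ε • w2 := rt_proj ψ k w1 ε hεε
    have hw2j : rt (sw ψ j) w2 = (-1 : ℝ) • w2 := rt_proj_other ψ hjk w1 ε (-1) hw1j
    have hw2u : ∀ u, u ≠ j → u ≠ k →
        rt (sw ψ u) w2 = (if u ∈ T then (-1 : ℝ) else 1) • w2 := fun u huj huk =>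
      rt_proj_other ψ huk w1 ε _ (hw1u u huj huk)
    rcases hε with h | h
    · apply h1
      refine ⟨ψ, insert j T, ?_, w2, hw2W, hne0, ?_⟩
      · rw [Finset.card_insert_of_notMem hj, hc]
      · intro u
        by_cases huj : u = j
        · subst huj
          rw [if_pos (Finset.mem_insert_self _ _)]
          exact hw2j
        · by_cases huk : u = k
          · subst huk
            have : u ∉ insert j T := by simp [huj, hk]
            rw [if_neg this, hw2k, h]
          · have : (u ∈ insert j T) ↔ (u ∈ T) := by simp [huj]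
            rw [if_congr this rfl rfl]
            exact hw2u u huj huk
    · apply h2
      refine ⟨ψ, insert k (insert j T), ?_, w2, hw2W, hne0, ?_⟩
      · rw [Finset.card_insert_of_notMem (by simp [hjk.symm, hk]),
          Finset.card_insert_of_notMem hj, hc]
      · intro u
        by_cases huj : u = j
        · subst huj
          rw [if_pos (by simp)]
          exact hw2j
        · by_cases huk : u = k
          · subst huk
            rw [if_pos (Finset.mem_insert_self _ _), hw2k, h]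
          · have : (u ∈ insert k (insert j T)) ↔ (u ∈ T) := by simp [huj, huk]
            rw [if_congr this rfl rfl]
            exact hw2u u huj huk
  have hw10 : w1 = 0 := by
    have ha := hzero 1 (Or.inl rfl)
    have hb := hzero (-1) (Or.inr rfl)
    have h3 : (2 : ℝ) • w1 = 0 := by
      have : (2 : ℝ) • w1 = (w1 + (1 : ℝ) • rt (sw ψ k) w1) +
          (w1 + (-1 : ℝ) • rt (sw ψ k) w1) := by module
      rw [this, ha, hb, add_zero]
    simpa using h3
  rw [hw1, hj'] at hw10
  have h4 : w = rt (swap x y) w := by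
    have h5 : w - rt (swap x y) w = 0 := by
      rw [← hw10]
      module
    exact sub_eq_zero.mp h5
  exact h4.symm

theorem fix_swap {W : Submodule ℝ (L2 (Perm α))} (hW : InvR W) {t : ℕ}
    (h1 : t + 1 ∉ SS m W) (h2 : t + 2 ∉ SS m W) (φ : Fin m × Bool ≃ α) (T : Finset (Fin m))
    (hc : T.card = t) (w : L2 (Perm α)) (hw : w ∈ W) (hE : Eig φ T w) (j k : Fin m)
    (hj : j ∉ T) (hk : k ∉ T) (b c : Bool) :
    rt (swap (φ (j, b)) (φ (k, c))) w = w := by
  by_cases hjk : j = k
  · subst hjk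
    have hj1 : rt (sw φ j) w = w := by
      rw [hE j, if_neg hj, one_smul]
    cases b <;> cases c
    · rw [swap_self]
      exact rt_one w
    · exact hj1
    · rw [swap_comm]
      exact hj1
    · rw [swap_self]
      exact rt_one w
  · exact fix_swap_aux hW h1 h2 φ T hc w hw hE j k hjk hj hk b c

theorem mem_junta_of {W : Submodule ℝ (L2 (Perm α))} (hW : InvR W) {t : ℕ}
    (h1 : t + 1 ∉ SS m W) (h2 : t + 2 ∉ SS m W) (φ : Fin m × Bool ≃ α) (T : Finset (Fin m))
    (hc : T.card = t) (w : L2 (Perm α)) (hw : w ∈ W) (hE : Eig φ T w) :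
    w ∈ junta α (2 * t) := by
  classical
  let Q : Finset α := (T ×ˢ (Finset.univ : Finset Bool)).map φ.toEmbedding
  have hQ : Q.card = 2 * t := by
    simp [Q, hc, mul_comm]
  have hmemQ : ∀ x, x ∈ Q ↔ (φ.symm x).1 ∈ T := by
    intro x
    simp only [Q, Finset.mem_map, Finset.mem_product, Finset.mem_univ, and_true]
    constructor
    · rintro ⟨p, hp, rfl⟩
      simpa using hp
    · intro h
      exact ⟨φ.symm x, h, by simp⟩
  let a : Fin (2 * t) ↪ α :=
    (Finset.equivFinOfCardEq hQ).symm.toEmbedding.trans (Function.Embedding.subtype _)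
  have ha : ∀ x ∈ Q, ∃ i, a i = x := by
    intro x hx
    exact ⟨Finset.equivFinOfCardEq hQ ⟨x, hx⟩, by simp [a]⟩
  refine mem_junta_of_fixR a w ?_
  intro h hfix
  have hfixQ : ∀ x ∈ Q, h x = x := by
    intro x hx
    obtain ⟨i, hi⟩ := ha x hx
    rw [← hi]
    exact hfix i
  have hmem : ∀ x, (h x ∉ Q) ↔ (x ∉ Q) := by
    intro x
    constructor
    · intro hx hx2
      exact hx (by rw [hfixQ x hx2]; exact hx2)
    · intro hx hx2
      have := hfixQ (h x) hx2
      have h3 : h x = x := h.injective this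
      rw [h3] at hx2
      exact hx hx2
  have hof : Equiv.Perm.ofSubtype (Equiv.Perm.subtypePerm (p := fun x => x ∉ Q) h hmem) = h :=
    Equiv.Perm.ofSubtype_subtypePerm (p := fun x => x ∉ Q) hmem
      (fun x hx hx2 => hx (hfixQ x hx2))
  rw [← hof]
  generalize Equiv.Perm.subtypePerm (p := fun x => x ∉ Q) h hmem = g
  induction g using Equiv.Perm.swap_induction_on with
  | one => rw [map_one]; exact rt_one w
  | swap_mul f x y hxy ih =>
    rw [map_mul, rt_mul, ih, Equiv.Perm.ofSubtype_swap_eq]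
    have hx : (φ.symm x.1).1 ∉ T := fun h => x.2 ((hmemQ _).mpr h)
    have hy : (φ.symm y.1).1 ∉ T := fun h => y.2 ((hmemQ _).mpr h)
    have := fix_swap hW h1 h2 φ T hc w hw hE _ _ hx hy (φ.symm x.1).2 (φ.symm y.1).2
    simpa using this

/-- climbing step -/
theorem climb {W : Submodule ℝ (L2 (Perm α))} (hW : InvR W) {K0 : ℕ}
    (hK : K0 ≤ Fintype.card α) (ho : W ≤ (junta α K0)ᗮ) {t : ℕ} (ht : t ∈ SS m W)
    (htK : 2 * t ≤ K0) : t + 1 ∈ SS m W ∨ t + 2 ∈ SS m W := by
  by_contra hcon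
  push Not at hcon
  obtain ⟨φ, T, hc, w, hw, hw0, hE⟩ := ht
  have h1 := mem_junta_of hW hcon.1 hcon.2 φ T hc w hw hE
  have h2 := junta_mono htK hK h1
  have h3 := ho hw
  rw [Submodule.mem_orthogonal] at h3
  have h4 := h3 w h2
  exact hw0 (inner_self_eq_zero.mp h4)

theorem climb_to {W : Submodule ℝ (L2 (Perm α))} (hW : InvR W) {h K0 : ℕ} (h1 : 2 * h ≤ K0)
    (hK : K0 ≤ Fintype.card α) (ho : W ≤ (junta α K0)ᗮ) :
    ∀ (n t : ℕ), h - t ≤ n → t ∈ SS m W → t < h → ∃ s ∈ SS m W, h ≤ s ∧ s ≤ h + 1 := by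
  intro n
  induction n with
  | zero =>
    intro t hn ht hth
    omega
  | succ n ih =>
    intro t hn ht hth
    have key : ∀ s, s ∈ SS m W → t < s → s ≤ t + 2 → ∃ s ∈ SS m W, h ≤ s ∧ s ≤ h + 1 := by
      intro s hs hts hs2
      by_cases hsh : s < h
      · exact ih s (by omega) hs hsh
      · exact ⟨s, hs, by omega, by omega⟩
    rcases climb hW hK ho ht (by omega) with h2 | h2
    · exact key _ h2 (by omega) (by omega)
    · exact key _ h2 (by omega) (by omega)

/-! ### sign twist -/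

theorem sgnMul_apply' (f : L2 (Perm α)) (g : Perm α) :
    sgnMul α f g = ((Equiv.Perm.sign g : ℤ) : ℝ) * f g := rfl

theorem sign_sq (g : Perm α) :
    ((Equiv.Perm.sign g : ℤ) : ℝ) * ((Equiv.Perm.sign g : ℤ) : ℝ) = 1 := by
  rcases Int.units_eq_one_or (Equiv.Perm.sign g) with h | h <;> rw [h] <;> norm_num

theorem sgnMul_sgnMul (f : L2 (Perm α)) : sgnMul α (sgnMul α f) = f := by
  ext g
  rw [sgnMul_apply', sgnMul_apply', ← mul_assoc, sign_sq, one_mul]

theorem rt_sgnMul (b : Perm α) (f : L2 (Perm α)) :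
    rt b (sgnMul α f) = ((Equiv.Perm.sign b : ℤ) : ℝ) • sgnMul α (rt b f) := by
  ext g
  simp only [rt_apply, sgnMul_apply', WithLp.ofLp_smul, Pi.smul_apply, smul_eq_mul,
    Equiv.Perm.sign_mul]
  push_cast
  ring

theorem inner_sgnMul (f g : L2 (Perm α)) :
    inner ℝ (sgnMul α f) (sgnMul α g) = inner ℝ f g := by
  rw [inner_def', inner_def']
  refine Finset.sum_congr rfl fun x _ => ?_
  rw [sgnMul_apply', sgnMul_apply']
  have := sign_sq x
  linear_combination (f x * g x) * this

theorem map_map_sgn (W : Submodule ℝ (L2 (Perm α))) : (W.map (sgnMul α)).map (sgnMul α) = W := by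
  ext w
  constructor
  · rintro ⟨_, ⟨v, hv, rfl⟩, rfl⟩
    rw [sgnMul_sgnMul]
    exact hv
  · intro h
    exact ⟨sgnMul α w, ⟨w, h, rfl⟩, sgnMul_sgnMul w⟩

theorem invR_map_sgn {W : Submodule ℝ (L2 (Perm α))} (hW : InvR W) :
    InvR (W.map (sgnMul α)) := by
  rintro b _ ⟨f, hf, rfl⟩
  rw [rt_sgnMul]
  exact Submodule.smul_mem _ _ ⟨_, hW b f hf, rfl⟩

theorem map_sgn_orth {W : Submodule ℝ (L2 (Perm α))} {k : ℕ} (hs : W ≤ (sjunta α k)ᗮ) :
    W.map (sgnMul α) ≤ (junta α k)ᗮ := by
  rintro _ ⟨f, hf, rfl⟩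
  rw [Submodule.mem_orthogonal]
  intro u hu
  have h1 := hs hf
  rw [Submodule.mem_orthogonal] at h1
  have h2 := h1 (sgnMul α u) ⟨u, hu, rfl⟩
  rw [← inner_sgnMul, sgnMul_sgnMul]
  exact h2

theorem HasT.sgn {W : Submodule ℝ (L2 (Perm α))} {φ : Fin m × Bool ≃ α}
    {T : Finset (Fin m)} (h : HasT W φ T) : HasT (W.map (sgnMul α)) φ Tᶜ := by
  obtain ⟨w, hw, hw0, hE⟩ := h
  refine ⟨sgnMul α w, ⟨w, hw, rfl⟩, ?_, fun u => ?_⟩
  · intro h0
    apply hw0
    rw [← sgnMul_sgnMul w, h0, map_zero]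
  · have hne : φ (u, false) ≠ φ (u, true) := fun h => by
      have := congrArg Prod.snd (φ.injective h)
      simp at this
    have hsg : Equiv.Perm.sign (sw φ u) = -1 := Equiv.Perm.sign_swap hne
    rw [rt_sgnMul, hE u, hsg, map_smul, smul_smul]
    congr 1
    by_cases hu : u ∈ T
    · simp [hu]
    · simp [hu]

theorem SS_sgn {W : Submodule ℝ (L2 (Perm α))} {t : ℕ} (ht : t ∈ SS m W) :
    m - t ∈ SS m (W.map (sgnMul α)) := by
  obtain ⟨φ, T, hc, h⟩ := ht
  exact ⟨φ, Tᶜ, by rw [Finset.card_compl, hc, Fintype.card_fin], h.sgn⟩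

theorem SS_sgn' {W : Submodule ℝ (L2 (Perm α))} {t : ℕ}
    (ht : t ∈ SS m (W.map (sgnMul α))) : m - t ∈ SS m W := by
  have := SS_sgn ht
  rwa [map_map_sgn] at this

theorem choose_le_choose_half (m h : ℕ) : ∀ n, h + n ≤ m / 2 → m.choose h ≤ m.choose (h + n) := by
  intro n
  induction n with
  | zero => intro _; exact le_rfl
  | succ n ih =>
    intro hn
    exact (ih (by omega)).trans (Nat.choose_le_succ_of_lt_half_left (by omega))

theorem choose_le_choose_mid {m h s : ℕ} (h1 : h ≤ s) (h2 : s ≤ m - h) (hm : h ≤ m) :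
    m.choose h ≤ m.choose s := by
  by_cases hs : s ≤ m / 2
  · obtain ⟨n, rfl⟩ := Nat.exists_eq_add_of_le h1
    exact choose_le_choose_half m h n hs
  · have hsm : s ≤ m := by omega
    rw [← Nat.choose_symm hsm]
    obtain ⟨n, hn⟩ := Nat.exists_eq_add_of_le (show h ≤ m - s by omega)
    rw [hn]
    exact choose_le_choose_half m h n (by omega)

end SignDim

open SignDim in
theorem sign_dim {m h K0 : ℕ} (hm : Fintype.card α = 2 * m) (h1 : 2 * h ≤ K0)
    (hK : K0 ≤ Fintype.card α) (h2 : 2 * h + 3 ≤ m)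
    (W : Submodule ℝ (L2 (Perm α))) (hW : InvR W) (hne : W ≠ ⊥)
    (ho : W ≤ (junta α K0)ᗮ) (hs : W ≤ (sjunta α K0)ᗮ) :
    m.choose h ≤ Module.finrank ℝ W := by
  classical
  have hcard : Fintype.card (Fin m × Bool) = Fintype.card α := by
    rw [hm, Fintype.card_prod, Fintype.card_fin, Fintype.card_bool, mul_comm]
  let φ : Fin m × Bool ≃ α := Fintype.equivOfCardEq hcard
  obtain ⟨T, hT⟩ := exists_hasT W hW hne φ
  have hs0 : T.card ∈ SS m W := ⟨φ, T, rfl, hT⟩
  obtain ⟨s, hsS, hs1, hs2⟩ : ∃ s ∈ SS m W, h ≤ s ∧ s ≤ m - h := by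
    by_cases hlow : T.card < h
    · obtain ⟨s, hsS, h3, h4⟩ := climb_to hW h1 hK ho _ T.card le_rfl hs0 hlow
      exact ⟨s, hsS, h3, by omega⟩
    · by_cases hhigh : T.card ≤ m - h
      · exact ⟨T.card, hs0, by omega, hhigh⟩
      · have hle := SS_le hs0
        have h5 := SS_sgn hs0
        obtain ⟨s, hsS, h3, h4⟩ := climb_to (invR_map_sgn hW) h1 hK (map_sgn_orth hs) _
          (m - T.card) le_rfl h5 (by omega)
        exact ⟨m - s, SS_sgn' hsS, by omega, by omega⟩
  exact (choose_le_choose_mid hs1 hs2 (by omega)).trans (choose_le_finrank hW hsS)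

end Crest.Agent.R155
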