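import Crest.Agent.R155.HS
import Crest.Agent.R155.Family
import Crest.Agent.R155.LevelDim
import Crest.Agent.R155.Embeds
import Crest.Agent.R155.SignDim
import Crest.Agent.R155.CoverSmall
import Crest.Agent.R155.Trunc
import Crest.Agent.R155.PartRa
import Crest.Agent.R155.Asymp

/-!
R155, Part R: bounds for the classes (helper505).
-/

set_option autoImplicit false
set_option linter.unusedSectionVars false
set_option linter.unusedVariables false

namespace Crest.Agent.R155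

open Finset Equiv

section
variable {G : Type} [Group G] [Fintype G] [DecidableEq G]
variable {H : Type} [Group H] [Fintype H] [DecidableEq H]

theorem norm_le_prodCompl {ι : Type} (P : ι → L2 G →ₗ[ℝ] L2 G)
    (hid : ∀ i v, P i (P i v) = P i v)
    (hsym : ∀ i v w, inner ℝ (P i v) w = inner ℝ v (P i w))
    (K : Submodule ℝ (L2 G)) (hK : ∀ i, ∀ v ∈ K, P i v ∈ K)
    (T : L2 G →ₗ[ℝ] L2 G) (B : ℝ) (hB0 : 0 ≤ B) (hB : ∀ i, ∀ w ∈ K, ‖T (P i w)‖ ≤ B * ‖w‖)
    (l : List ι) (v : L2 G) (hv : v ∈ K) :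
    ‖T v‖ ≤ ‖T (prodCompl P l v)‖ + l.length * B * ‖v‖ := by
  induction l with
  | nil => simp [prodCompl]
  | cons i l ih =>
    have h1 : prodCompl P (i :: l) v = prodCompl P l v - P i (prodCompl P l v) := rfl
    have h2 : T (prodCompl P l v) = T (prodCompl P (i :: l) v) + T (P i (prodCompl P l v)) := by
      rw [h1, map_sub]; abel
    have h3 : ‖T (P i (prodCompl P l v))‖ ≤ B * ‖v‖ :=
      (hB i _ (prodCompl_mem P K hK l v hv)).trans
        (mul_le_mul_of_nonneg_left (norm_prodCompl_le P hid hsym l v) hB0)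
    have h4 : ‖T (prodCompl P l v)‖ ≤ ‖T (prodCompl P (i :: l) v)‖ + B * ‖v‖ := by
      rw [h2]
      exact (norm_add_le _ _).trans (by linarith)
    have h5 : (((i :: l).length : ℕ) : ℝ) = l.length + 1 := by simp
    rw [h5]
    nlinarith

theorem opnorm_cover (jj : Fin 8 → (H →* G))
    (hcomm : ∀ i i', i ≠ i' → ∀ h h', jj i h * jj i' h' = jj i' h' * jj i h)
    (K : Submodule ℝ (L2 G)) (hK : InvL K) (I : Submodule ℝ (L2 H)) (hI : BiInv I)
    (hkill : ∀ v ∈ K, (∀ i, cvH (jj i) (idem I) v = 0) → v = 0)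
    (T : L2 G →ₗ[ℝ] L2 G) (B : ℝ) (hB0 : 0 ≤ B)
    (hB : ∀ i, ∀ w ∈ K, ‖T (cvH (jj i) (idem I) w)‖ ≤ B * ‖w‖) (v : L2 G) (hv : v ∈ K) :
    ‖T v‖ ≤ 8 * B * ‖v‖ := by
  have hid : ∀ (i : Fin 8) (v : L2 G), cvH (jj i) (idem I) (cvH (jj i) (idem I) v) =
      cvH (jj i) (idem I) v := fun i v => cvH_idem_idem _ hI.2 v
  have hsym : ∀ (i : Fin 8) (v w : L2 G), inner ℝ (cvH (jj i) (idem I) v) w =
      inner ℝ v (cvH (jj i) (idem I) w) := fun i v w => inner_cvH_idem _ hI.1 v w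
  have hc : ∀ (i i' : Fin 8), i ≠ i' → ∀ v : L2 G, cvH (jj i) (idem I) (cvH (jj i') (idem I) v) =
      cvH (jj i') (idem I) (cvH (jj i) (idem I) v) :=
    fun i i' hii' v => cvH_comm _ _ (hcomm i i' hii') _ _ v
  have hKK : ∀ (i : Fin 8), ∀ v ∈ K, cvH (jj i) (idem I) v ∈ K := fun i v hv => cvH_mem hK _ _ hv
  have h1 := norm_le_prodCompl (fun i : Fin 8 => cvH (jj i) (idem I)) hid hsym K hKK T B hB0 hB
    (Finset.univ : Finset (Fin 8)).toList v hv
  have h2 : prodCompl (fun i : Fin 8 => cvH (jj i) (idem I)) (Finset.univ : Finset (Fin 8)).toList v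
      = 0 := by
    apply hkill _ (prodCompl_mem _ K hKK _ v hv)
    intro i
    exact prodCompl_kill (fun i : Fin 8 => cvH (jj i) (idem I)) hid hc _ v (by simp)
  rw [h2, map_zero, norm_zero, zero_add] at h1
  simpa using h1

end

section
variable {α : Type} [Fintype α] [DecidableEq α]

/-- Data: eight disjoint embeddings and a truncated measure. -/
structure Data8 (α : Type) [Fintype α] [DecidableEq α] (r : ℕ) (F : Perm α → ℝ) where
  ι : Fin 8 → (Fin r ↪ α)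
  disj : ∀ i i', i ≠ i' → ∀ x y, ι i x ≠ ι i' y
  card : Fintype.card α = 8 * r
  nonneg : ∀ g, 0 ≤ F g
  sum_le : ∑ g, F g ≤ 1
  trunc : ∀ i g, ∑ h, F (g * via (ι i) h) ≤ 2 * ((r.factorial : ℝ) / ((8 * r).factorial : ℝ))

/-- general class bound -/
theorem Data8.class_bound {r : ℕ} {F : Perm α → ℝ} (D : Data8 α r F)
    (K : Submodule ℝ (L2 (Perm α))) (hK : BiInv K) (d : ℕ) (hd1 : 1 ≤ d)
    (hd : ∀ W : Submodule ℝ (L2 (Perm α)), W ≤ K → InvR W → W ≠ ⊥ → d ≤ Module.finrank ℝ W)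
    (I : Submodule ℝ (L2 (Perm (Fin r)))) (hI : BiInv I)
    (hkill : ∀ v ∈ K, (∀ i, cvH (via (D.ι i)) (idem I) v = 0) → v = 0)
    (v : L2 (Perm α)) (hv : v ∈ K) :
    ‖cv F v‖ ^ 2 ≤ (128 * (Module.finrank ℝ I : ℝ) / (d : ℝ)) * ‖v‖ ^ 2 := by
  have hd0 : (0 : ℝ) < d := by exact_mod_cast hd1
  set x : ℝ := 2 * (Module.finrank ℝ I : ℝ) / (d : ℝ) with hx
  have hx0 : 0 ≤ x := by positivity
  have hcomm : ∀ i i', i ≠ i' → ∀ h h', via (D.ι i) h * via (D.ι i') h' =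
      via (D.ι i') h' * via (D.ι i) h :=
    fun i i' hii' h h' => via_comm _ _ (D.disj i i' hii') h h'
  have hB : ∀ i, ∀ w ∈ K, ‖cv F (cvH (via (D.ι i)) (idem I) w)‖ ≤ Real.sqrt x * ‖w‖ := by
    intro i w hw
    have h1 := opnorm_conv K hK.2 d hd (via (D.ι i)) F D.nonneg D.sum_le _ (D.trunc i) I hI w hw
    have hG : (Fintype.card (Perm α) : ℝ) = ((8 * r).factorial : ℝ) := by
      rw [Fintype.card_perm, D.card]
    have hH : (Fintype.card (Perm (Fin r)) : ℝ) = (r.factorial : ℝ) := by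
      rw [Fintype.card_perm, Fintype.card_fin]
    have hne1 : ((8 * r).factorial : ℝ) ≠ 0 := by positivity
    have hne2 : ((r).factorial : ℝ) ≠ 0 := by positivity
    have h2 : (Fintype.card (Perm α) : ℝ) * (2 * ((r.factorial : ℝ) / ((8 * r).factorial : ℝ))) /
        (Fintype.card (Perm (Fin r)) : ℝ) = 2 := by
      rw [hG, hH]; field_simp
    rw [h2] at h1
    have h3 : ‖cv F (cvH (via (D.ι i)) (idem I) w)‖ ^ 2 ≤ x * ‖w‖ ^ 2 := by
      rw [hx, div_mul_eq_mul_div, le_div_iff₀ hd0]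
      linarith
    have h4 : Real.sqrt x * ‖w‖ = Real.sqrt (x * ‖w‖ ^ 2) := by
      rw [Real.sqrt_mul hx0, Real.sqrt_sq (norm_nonneg _)]
    rw [h4]
    exact Real.le_sqrt_of_sq_le h3
  have h5 := opnorm_cover (fun i => via (D.ι i)) hcomm K hK.1 I hI hkill (cv F) (Real.sqrt x)
    (Real.sqrt_nonneg _) hB v hv
  calc ‖cv F v‖ ^ 2 ≤ (8 * Real.sqrt x * ‖v‖) ^ 2 := pow_le_pow_left₀ (norm_nonneg _) h5 2
    _ = 64 * (Real.sqrt x) ^ 2 * ‖v‖ ^ 2 := by ring
    _ = (128 * (Module.finrank ℝ I : ℝ) / (d : ℝ)) * ‖v‖ ^ 2 := by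
        rw [Real.sq_sqrt hx0, hx]; ring

/-- levels -/
theorem Data8.level_bound {r : ℕ} {F : Perm α → ℝ} (D : Data8 α r F) {k : ℕ} (hk : 1 ≤ k)
    (hkn : k * k + k ≤ 8 * r) (v : L2 (Perm α)) (hv : v ∈ lev α k) :
    ‖cv F v‖ ^ 2 ≤ (128 * ((r.choose (k / 8) : ℝ) ^ 2 * ((k / 8).factorial : ℝ)) /
      ((((8 * r - k) / k : ℕ) : ℝ) ^ k)) * ‖v‖ ^ 2 := by
  have hc : 1 ≤ (8 * r - k) / k := by
    rw [Nat.one_le_div_iff (by omega)]
    have : k * 1 ≤ k * k := Nat.mul_le_mul_left k hk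
    omega
  have hd1 : 1 ≤ ((8 * r - k) / k) ^ k := Nat.one_le_pow _ _ hc
  have h1 := D.class_bound (lev α k) (lev_biInv k) (((8 * r - k) / k) ^ k) hd1
    (by
      intro W hWK hW hne
      have := level_dim hk (by rw [D.card]; exact hkn) W hW hWK hne
      rwa [D.card] at this)
    (junta (Fin r) (k / 8)) (junta_biInv _)
    (by
      intro v hv h0
      exact junta_cover D.card D.ι D.disj v hv.1 h0) v hv
  refine h1.trans (mul_le_mul_of_nonneg_right ?_ (sq_nonneg _))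
  rw [Nat.cast_pow]
  have h2 : (Module.finrank ℝ (junta (Fin r) (k / 8)) : ℝ) ≤
      (r.choose (k / 8) : ℝ) ^ 2 * ((k / 8).factorial : ℝ) := by
    have := finrank_junta_le (α := Fin r) (k / 8)
    rw [Fintype.card_fin] at this
    exact_mod_cast this
  gcongr

/-- blocks -/
theorem Data8.block_bound {r : ℕ} {F : Perm α → ℝ} (D : Data8 α r F) {k h : ℕ}
    (h1 : 2 * h ≤ k) (hk : k ≤ 8 * r) (h2 : 2 * h + 3 ≤ 4 * r)
    (K : Submodule ℝ (L2 (Perm α))) (hK : MinBi K) (ho : K ≤ (junta α k)ᗮ)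
    (hs : K ≤ (sjunta α k)ᗮ) (ν : Perm α → ℝ) (hν : ∀ g, 0 ≤ ν g) (hν1 : ∑ g, ν g = 1) :
    ((8 * r).factorial : ℝ) * ‖pr K (cv ν ((fun f => cv F f)^[6] (dl 1)))‖ ^ 2 ≤
      65536 * (512 * (Fintype.card (Nat.Partition r) : ℝ)) ^ 6 /
        ((((4 * r).choose h : ℕ) : ℝ)) ^ 2 := by
  classical
  -- minimal dimension of right invariant subspaces
  let P : ℕ → Prop := fun n => ∃ W : Submodule ℝ (L2 (Perm α)), W ≤ K ∧ InvR W ∧ W ≠ ⊥ ∧
    Module.finrank ℝ W = n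
  have hP : ∃ n, P n := ⟨_, K, le_rfl, hK.1.2, hK.2.1, rfl⟩
  obtain ⟨W, hWK, hW, hne, hWd⟩ := Nat.find_spec hP
  set d := Nat.find hP with hd
  have hmin : ∀ W : Submodule ℝ (L2 (Perm α)), W ≤ K → InvR W → W ≠ ⊥ →
      d ≤ Module.finrank ℝ W := fun W' a b c => Nat.find_min' hP ⟨W', a, b, c, rfl⟩
  have hdC : (4 * r).choose h ≤ d := by
    rw [← hWd]
    exact sign_dim (m := 4 * r) (h := h) (K0 := k) (by rw [D.card]; ring) h1
      (by rw [D.card]; exact hk) h2 W hW hne (hWK.trans ho) (hWK.trans hs)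
  have hC1 : 1 ≤ (4 * r).choose h := Nat.choose_pos (by omega)
  have hd1 : 1 ≤ d := hC1.trans hdC
  -- the number y
  have hQ : ∃ y : ℕ, d < y ^ 8 := ⟨d + 1, by
    calc d < d + 1 := Nat.lt_succ_self d
      _ ≤ (d + 1) ^ 8 := Nat.le_self_pow (by norm_num) _⟩
  set y := Nat.find hQ with hy
  have hy1 : d < y ^ 8 := Nat.find_spec hQ
  have hy2 : 2 ≤ y := by
    by_contra hc
    have : y ≤ 1 := by omega
    have : y ^ 8 ≤ 1 := by
      calc y ^ 8 ≤ 1 ^ 8 := Nat.pow_le_pow_left this 8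
        _ = 1 := by norm_num
    omega
  have hy3 : (y - 1) ^ 8 ≤ d := by
    have := Nat.find_min hQ (m := y - 1) (by omega)
    omega
  have hy4 : y ^ 12 ≤ 65536 * d ^ 2 := by
    calc y ^ 12 ≤ y ^ 16 := Nat.pow_le_pow_right (by omega) (by norm_num)
      _ ≤ (2 * (y - 1)) ^ 16 := Nat.pow_le_pow_left (by omega) 16
      _ = 65536 * ((y - 1) ^ 8) ^ 2 := by
          rw [mul_pow, ← pow_mul]; norm_num
      _ ≤ 65536 * d ^ 2 := Nat.mul_le_mul_left _ (Nat.pow_le_pow_left hy3 2)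
  -- the class bound
  have hI := smallIdeal_biInv (H := Perm (Fin r)) (2 * y - 1)
  have hcb := fun v hv => D.class_bound K hK.1 d hd1 hmin (smallIdeal (Perm (Fin r)) (2 * y - 1)) hI
    (by
      intro v hv h0
      exact small_cover (fun i => via (D.ι i))
        (fun i i' hii' h h' => via_comm _ _ (D.disj i i' hii') h h')
        K hK W hWK hW hne y (by rw [hWd]; exact hy1) v hv h0) v hv
  have hest := class_estimate hK.1 ν F hν hν1 _ (by positivity) hcb 6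
  have hG : (Fintype.card (Perm α) : ℝ) = ((8 * r).factorial : ℝ) := by
    rw [Fintype.card_perm, D.card]
  rw [hG] at hest
  refine hest.trans ?_
  -- numerical part
  have hdimK : (Module.finrank ℝ K : ℝ) ≤ (d : ℝ) ^ 2 := by
    have := hK.finrank_le_sq_right hWK hW hne
    rw [hWd] at this
    exact_mod_cast this
  have hdimI : (Module.finrank ℝ (smallIdeal (Perm (Fin r)) (2 * y - 1)) : ℝ) ≤
      4 * (y : ℝ) ^ 2 * (Fintype.card (Nat.Partition r) : ℝ) := by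
    have h5 := finrank_smallIdeal_le r (2 * y - 1)
    have h6 : (2 * y - 1) ^ 2 * Fintype.card (Nat.Partition r) ≤
        4 * y ^ 2 * Fintype.card (Nat.Partition r) := by
      apply Nat.mul_le_mul_right
      calc (2 * y - 1) ^ 2 ≤ (2 * y) ^ 2 := Nat.pow_le_pow_left (by omega) 2
        _ = 4 * y ^ 2 := by ring
    exact_mod_cast h5.trans h6
  have hd0 : (0 : ℝ) < d := by exact_mod_cast hd1
  have hC0 : (0 : ℝ) < ((4 * r).choose h : ℕ) := by exact_mod_cast hC1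
  have hdC' : (((4 * r).choose h : ℕ) : ℝ) ≤ d := by exact_mod_cast hdC
  have hy4' : (y : ℝ) ^ 12 ≤ 65536 * (d : ℝ) ^ 2 := by exact_mod_cast hy4
  set p : ℝ := (Fintype.card (Nat.Partition r) : ℝ) with hp
  have hp0 : 0 ≤ p := by positivity
  calc (128 * (Module.finrank ℝ (smallIdeal (Perm (Fin r)) (2 * y - 1)) : ℝ) / (d : ℝ)) ^ 6 *
        (Module.finrank ℝ K : ℝ)
      ≤ (128 * (4 * (y : ℝ) ^ 2 * p) / (d : ℝ)) ^ 6 * (d : ℝ) ^ 2 := by
        gcongr
    _ = (512 * p) ^ 6 * (y : ℝ) ^ 12 / (d : ℝ) ^ 4 := by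
        field_simp; ring
    _ ≤ (512 * p) ^ 6 * (65536 * (d : ℝ) ^ 2) / (d : ℝ) ^ 4 := by gcongr
    _ = 65536 * (512 * p) ^ 6 / (d : ℝ) ^ 2 := by
        field_simp
    _ ≤ 65536 * (512 * p) ^ 6 / ((((4 * r).choose h : ℕ) : ℝ)) ^ 2 := by gcongr

end

end Crest.Agent.R155
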