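import Crest.Agent.R155.Blocks

/-!
R155, Part R, task SmallIdeal: the ideal of small left invariant subspaces.
-/

set_option autoImplicit false
set_option linter.unusedSectionVars false
set_option linter.unusedVariables false

namespace Crest.Agent.R155

open Finset Equiv

section
variable {G : Type} [Group G] [Fintype G] [DecidableEq G]
variable {H : Type} [Group H] [Fintype H] [DecidableEq H]

theorem smallIdeal_biInv (x : ℕ) : BiInv (smallIdeal H x) := by
  constructor
  · rw [invL_iff_map]
    intro a
    rw [Submodule.map_le_iff_le_comap]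
    refine sSup_le fun U hU => ?_
    intro f hf
    exact (le_sSup hU : U ≤ smallIdeal H x) (hU.1 a f hf)
  · rw [invR_iff_map]
    intro b
    rw [Submodule.map_le_iff_le_comap]
    refine sSup_le fun U hU => ?_
    intro f hf
    have hU' : U.map ((rt b).toLinearEquiv : L2 H →ₗ[ℝ] L2 H) ∈
        {U : Submodule ℝ (L2 H) | InvL U ∧ Module.finrank ℝ U ≤ x} := by
      refine ⟨?_, (Submodule.finrank_map_le _ _).trans hU.2⟩
      rintro a _ ⟨g, hg, rfl⟩
      exact ⟨lt a g, hU.1 a g hg, (lt_rt a b g).symm⟩
    exact (le_sSup hU' : _ ≤ smallIdeal H x) ⟨f, hf, rfl⟩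

/-- If `U ⊆ L²(G)` is invariant under `lt (j h)` and of dimension at most `x` then the projection
`cvH j (idem (smallIdeal H x))` is the identity on `U`: `res j g` maps `U` onto a left invariant
subspace of `L²(H)` of dimension at most `x` (`res_lt`); use `cvH_idem_of_res`. -/
theorem cvH_idem_smallIdeal (j : H →* G) (x : ℕ) (U : Submodule ℝ (L2 G))
    (hU : ∀ h, ∀ u ∈ U, lt (j h) u ∈ U) (hdim : Module.finrank ℝ U ≤ x) (u : L2 G) (hu : u ∈ U) :
    cvH j (idem (smallIdeal H x)) u = u := by
  apply cvH_idem_of_res j (smallIdeal_biInv x).2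
  intro g
  have hmem : U.map (res j g) ∈
      {U : Submodule ℝ (L2 H) | InvL U ∧ Module.finrank ℝ U ≤ x} := by
    refine ⟨?_, (Submodule.finrank_map_le _ _).trans hdim⟩
    rintro h _ ⟨v, hv, rfl⟩
    exact ⟨lt (j h) v, hU h v hv, res_lt j h g v⟩
  exact (le_sSup hmem : _ ≤ smallIdeal H x) ⟨u, hu, rfl⟩

end

/-- dimension of a finite supremum -/
theorem smallIdeal_finrank_iSup_le {V : Type} [AddCommGroup V] [Module ℝ V]
    [FiniteDimensional ℝ V] {ι : Type} (s : Finset ι) (K : ι → Submodule ℝ V) :
    Module.finrank ℝ ↥(s.sup K) ≤ ∑ i ∈ s, Module.finrank ℝ (K i) := by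
  classical
  induction s using Finset.induction_on with
  | empty => simp
  | insert a s ha ih =>
    rw [Finset.sup_insert, Finset.sum_insert ha]
    exact (Submodule.finrank_add_le_finrank_add_finrank _ _).trans (by omega)

/-- `exists_blocks` for `I = smallIdeal`; every block `K i` contains a nonzero left invariant subspace
of dimension at most `x` (the projection of some generator of the ideal), so `dim (K i) ≤ x²`. -/
theorem finrank_smallIdeal_le (r x : ℕ) :
    Module.finrank ℝ (smallIdeal (Perm (Fin r)) x) ≤ x ^ 2 * Fintype.card (Nat.Partition r) := by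
  classical
  obtain ⟨M, K, hM, hmin, hle, horth, hsup⟩ :=
    exists_blocks (smallIdeal (Perm (Fin r)) x) (smallIdeal_biInv x)
  have hK : ∀ i, Module.finrank ℝ (K i) ≤ x ^ 2 := by
    intro i
    by_cases hall : ∀ U ∈ {U : Submodule ℝ (L2 (Perm (Fin r))) |
        InvL U ∧ Module.finrank ℝ U ≤ x}, U ≤ (K i)ᗮ
    · exfalso
      have h1 : smallIdeal (Perm (Fin r)) x ≤ (K i)ᗮ := sSup_le hall
      have h2 : K i ≤ (K i)ᗮ := (hle i).trans h1
      apply (hmin i).2.1
      rw [eq_bot_iff, ← (K i).inf_orthogonal_eq_bot]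
      exact le_inf le_rfl h2
    · push Not at hall
      obtain ⟨U, hU, hUK⟩ := hall
      have hW : Module.finrank ℝ (K i) ≤
          (Module.finrank ℝ (U.map (pr (K i)))) ^ 2 := by
        apply (hmin i).finrank_le_sq_left
        · rintro _ ⟨f, hf, rfl⟩
          exact pr_mem _ _
        · rintro a _ ⟨f, hf, rfl⟩
          exact ⟨lt a f, hU.1 a f hf, pr_lt (hmin i).1.1 a f⟩
        · intro hbot
          apply hUK
          intro f hf
          have h0 : pr (K i) f = 0 := by
            have : pr (K i) f ∈ U.map (pr (K i)) := ⟨f, hf, rfl⟩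
            rw [hbot] at this
            simpa using this
          have := sub_pr_mem (K i) f
          rwa [h0, sub_zero] at this
      refine hW.trans (Nat.pow_le_pow_left ((Submodule.finrank_map_le _ _).trans hU.2) 2)
  have h1 : Module.finrank ℝ (smallIdeal (Perm (Fin r)) x) ≤
      ∑ i : Fin M, Module.finrank ℝ (K i) := by
    have := smallIdeal_finrank_iSup_le (Finset.univ : Finset (Fin M)) K
    rw [Finset.sup_univ_eq_iSup, hsup] at this
    exact this
  have h2 : ∑ i : Fin M, Module.finrank ℝ (K i) ≤ ∑ i : Fin M, x ^ 2 :=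
    Finset.sum_le_sum fun i _ => hK i
  have h3 : ∑ i : Fin M, x ^ 2 = x ^ 2 * M := by
    simp [mul_comm]
  rw [Fintype.card_fin] at hM
  calc Module.finrank ℝ (smallIdeal (Perm (Fin r)) x) ≤ x ^ 2 * M := by
        rw [← h3]; exact h1.trans h2
    _ ≤ x ^ 2 * Fintype.card (Nat.Partition r) := Nat.mul_le_mul_left _ hM

end Crest.Agent.R155
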